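import Vale.Agent.P301.H724.Sec

/-! # Exterior powers: vectors of minors of tuples of sections -/

open scoped Manifold ContDiff ComplexOrder Topology
open Filter Metric Set

noncomputable section

namespace Vale.Agent.P301.H724

open Vale.Agent.P272.K Vale.Agent.P301.H599

section linalg

variable {A : Type} {r : ℕ}

/-- The minor with rows `c` of the matrix with columns `w`. -/
def mnr (w : Fin r → A → ℂ) (c : Fin r → A) : ℂ := (Matrix.of fun a b => w b (c a)).det

theorem mnr_mulVec [Fintype A] (M : Matrix A A ℂ) (w : Fin r → A → ℂ) (c : Fin r → A) :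
    mnr (fun b => M.mulVec (w b)) c = ∑ c' : Fin r → A, (∏ a, M (c a) (c' a)) * mnr w c' := by
  classical
  unfold mnr
  have h1 : (Matrix.of fun a b => M.mulVec (w b) (c a)) =
      fun a : Fin r => ∑ α : A, (M (c a) α) • (fun b => w b α : Fin r → ℂ) := by
    funext a b
    simp [Matrix.mulVec, dotProduct]
  have h2 := (Matrix.detRowAlternating (R := ℂ) (n := Fin r)).toMultilinearMap.map_sum
    (fun (a : Fin r) (α : A) => (M (c a) α) • (fun b => w b α : Fin r → ℂ))
  rw [h1]
  refine h2.trans ?_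
  refine Finset.sum_congr rfl fun c' _ => ?_
  rw [MultilinearMap.map_smul_univ]
  rfl

theorem mnr_smul (γ : Fin r → ℂ) (w : Fin r → A → ℂ) (c : Fin r → A) :
    mnr (fun b => γ b • w b) c = (∏ b, γ b) * mnr w c := by
  unfold mnr
  exact Matrix.det_mul_row γ (Matrix.of fun a b => w b (c a))

/-- Cramer: if all `(r+1)`-minors of `v, w₁, …, w_r` vanish and an `r`-minor of `w` does not, then
`v` is a linear combination of the `w_b`. -/
theorem exists_comb {w : Fin r → A → ℂ} {v : A → ℂ} {c : Fin r → A} (hc : mnr w c ≠ 0)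
    (h : ∀ c' : Fin (r + 1) → A, mnr (Fin.cons v w : Fin (r + 1) → A → ℂ) c' = 0) :
    ∃ t : Fin r → ℂ, v = ∑ b, t b • w b := by
  classical
  set D : Fin (r + 1) → ℂ := fun j => (Matrix.of fun (a : Fin r) (b : Fin r) =>
    (Fin.cons v w : Fin (r + 1) → A → ℂ) (j.succAbove b) (c a)).det with hD
  have hD0 : D 0 = mnr w c := by
    simp only [hD, mnr]
    congr 1
  have key : ∀ α : A, ∑ j : Fin (r + 1), (-1) ^ (j : ℕ) *
      (Fin.cons v w : Fin (r + 1) → A → ℂ) j α * D j = 0 := by
    intro α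
    have h1 := h (Fin.cons α c)
    unfold mnr at h1
    rw [Matrix.det_succ_row_zero] at h1
    rw [← h1]
    refine Finset.sum_congr rfl fun j _ => ?_
    congr 1
  refine ⟨fun b => -((-1) ^ ((b : ℕ) + 1) * D b.succ / D 0), ?_⟩
  funext α
  have h2 := key α
  rw [Fin.sum_univ_succ] at h2
  simp only [Fin.val_zero, pow_zero, one_mul, Fin.cons_zero, Fin.cons_succ, Fin.val_succ] at h2
  have h3 : D 0 ≠ 0 := by rw [hD0]; exact hc
  have h4 : v α = -(∑ b : Fin r, (-1) ^ ((b : ℕ) + 1) * w b α * D b.succ) / D 0 := by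
    rw [eq_div_iff h3]
    linear_combination h2
  rw [h4]
  simp only [Finset.sum_apply, Pi.smul_apply, smul_eq_mul, neg_mul, Finset.sum_neg_distrib, neg_div,
    Finset.sum_div]
  congr 1
  refine Finset.sum_congr rfl fun b _ => ?_
  ring

theorem mnr_comb {w u : Fin r → A → ℂ} {T : Fin r → Fin r → ℂ}
    (h : ∀ b, u b = ∑ k, T b k • w k) (c : Fin r → A) :
    mnr u c = mnr w c * (Matrix.of fun k b => T b k).det := by
  unfold mnr
  rw [← Matrix.det_mul]
  congr 1
  ext a b
  simp only [Matrix.mul_apply, Matrix.of_apply, h b, Finset.sum_apply, Pi.smul_apply, smul_eq_mul]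
  exact Finset.sum_congr rfl fun k _ => mul_comm _ _

/-- If all `(r+1)`-tuples are dependent, then the vectors of `r`-minors are proportional. -/
theorem mnr_prop {w u : Fin r → A → ℂ}
    (h : ∀ b, ∀ c' : Fin (r + 1) → A, mnr (Fin.cons (u b) w : Fin (r + 1) → A → ℂ) c' = 0)
    (c c' : Fin r → A) : mnr u c * mnr w c' = mnr u c' * mnr w c := by
  by_cases h0 : ∃ c₀, mnr w c₀ ≠ 0
  · obtain ⟨c₀, hc₀⟩ := h0
    choose T hT using fun b => exists_comb hc₀ (h b)
    rw [mnr_comb hT c, mnr_comb hT c']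
    ring
  · push Not at h0
    rw [h0 c, h0 c', mul_zero, mul_zero]

/-- Exchange: a nonzero vector `v` in the span of `w` can replace one of the `w_b`. -/
theorem exists_exchange {w : Fin r → A → ℂ} {v : A → ℂ} (hv : v ≠ 0) {c : Fin r → A}
    (hc : mnr w c ≠ 0)
    (h : ∀ c' : Fin (r + 1) → A, mnr (Fin.cons v w : Fin (r + 1) → A → ℂ) c' = 0) :
    ∃ b, mnr (Function.update w b v) c ≠ 0 := by
  classical
  obtain ⟨t, ht⟩ := exists_comb hc h
  have h1 : ∃ b, t b ≠ 0 := by
    by_contra h2
    push Not at h2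
    apply hv
    rw [ht]
    simp [h2]
  obtain ⟨b, hb⟩ := h1
  refine ⟨b, ?_⟩
  have h2 : mnr (Function.update w b v) c = t b * mnr w c := by
    have h3 := Matrix.det_updateCol_sum (Matrix.of fun a k => w k (c a)) b t
    unfold mnr
    rw [← smul_eq_mul, ← h3]
    congr 1
    ext a k
    by_cases hk : k = b
    · subst hk
      simp [Matrix.updateCol_apply, ht]
    · simp [Matrix.updateCol_apply, hk, Function.update_of_ne hk]
  rw [h2]
  exact mul_ne_zero hb hc

end linalg

variable {d : ℕ} {X : Type} [TopologicalSpace X] [ChartedSpace (Cm d) X] {ι : Type}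
variable {A : Type} [Fintype A] {L : LineBundle d X ι}
  {Λ : Chart d X → Chart d X → X → Matrix A A ℂ} {r : ℕ}

/-- Transition matrices of the `r`-th exterior power. -/
def lamPow (r : ℕ) (Λ : Chart d X → Chart d X → X → Matrix A A ℂ) :
    Chart d X → Chart d X → X → Matrix (Fin r → A) (Fin r → A) ℂ :=
  fun e e' x => Matrix.of fun c c' => ∏ a, Λ e e' x (c a) (c' a)

/-- The vector of minors of a tuple of sections. -/
def wedge (u : Fin r → ι → Chart d X → Cm d → A → ℂ) :
    ι → Chart d X → Cm d → (Fin r → A) → ℂ :=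
  fun i e z c => mnr (fun b => u b i e z) c

theorem isSec_wedge {m : Fin r → ℕ} {u : Fin r → ι → Chart d X → Cm d → A → ℂ}
    (h : ∀ b, IsSec L Λ (m b) (u b)) : IsSec L (lamPow r Λ) (∑ b, m b) (wedge u) where
  holo i e x he hi c := by
    have h1 : (fun z => wedge u i e z c) = fun z => ∑ σ : Equiv.Perm (Fin r),
        Equiv.Perm.sign σ • ∏ a, u a i e z (c (σ a)) := by
      funext z
      simp [wedge, mnr, Matrix.det_apply]
    rw [h1]
    refine Finset.analyticAt_fun_sum _ fun σ _ => ?_
    have h2 : AnalyticAt ℂ (fun z => ∏ a, u a i e z (c (σ a))) (e x) :=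
      Finset.analyticAt_fun_prod _ fun a _ => (h a).holo i e x he hi _
    simp only [Units.smul_def, zsmul_eq_mul]
    exact analyticAt_const.mul h2
  chL i j e x he hi hj := by
    funext c
    have h1 : (fun b => u b i e (e x)) = fun b => (L.g i j x ^ m b) • u b j e (e x) :=
      funext fun b => (h b).chL i j e x he hi hj
    simp only [wedge, h1, mnr_smul, Pi.smul_apply, smul_eq_mul, Finset.prod_pow_eq_pow_sum]
  chV i e e' x he he' hi := by
    funext c
    have h1 : (fun b => u b i e (e x)) = fun b => (Λ e e' x).mulVec (u b i e' (e' x)) :=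
      funext fun b => (h b).chV i e e' x he he' hi
    simp only [wedge, h1, mnr_mulVec, Matrix.mulVec, dotProduct, lamPow, Matrix.of_apply]

/-- Every tuple of `r + 1` sections (of any weights) is dependent at every point. -/
def MaxRank (L : LineBundle d X ι) (Λ : Chart d X → Chart d X → X → Matrix A A ℂ) (r : ℕ) : Prop :=
  ∀ (m : Fin (r + 1) → ℕ) (u : Fin (r + 1) → ι → Chart d X → Cm d → A → ℂ),
    (∀ b, IsSec L Λ (m b) (u b)) → ∀ i e x, At e x → x ∈ L.U i → wedge u i e (e x) = 0

theorem MaxRank.cons {m : Fin r → ℕ} {u : Fin r → ι → Chart d X → Cm d → A → ℂ} {k : ℕ}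
    {v : ι → Chart d X → Cm d → A → ℂ} (hmax : MaxRank L Λ r) (hu : ∀ b, IsSec L Λ (m b) (u b))
    (hv : IsSec L Λ k v) {i : ι} {e : Chart d X} {x : X} (he : At e x) (hi : x ∈ L.U i)
    (c' : Fin (r + 1) → A) :
    mnr (Fin.cons (v i e (e x)) (fun b => u b i e (e x)) : Fin (r + 1) → A → ℂ) c' = 0 := by
  have h1 := hmax (Fin.cons k m) (Fin.cons v u) (fun b => by
    refine Fin.cases ?_ (fun j => ?_) b
    · simpa using hv
    · simpa using hu j) i e x he hi
  have h2 : (fun b => (Fin.cons v u : Fin (r + 1) → ι → Chart d X → Cm d → A → ℂ) b i e (e x)) =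
      (Fin.cons (v i e (e x)) (fun b => u b i e (e x)) : Fin (r + 1) → A → ℂ) := by
    funext b
    refine Fin.cases ?_ (fun j => ?_) b
    · simp
    · simp
  have h3 := congrFun h1 c'
  simp only [wedge, h2, Pi.zero_apply] at h3
  exact h3

theorem MaxRank.prop {m m' : Fin r → ℕ} {u w : Fin r → ι → Chart d X → Cm d → A → ℂ}
    (hmax : MaxRank L Λ r) (hu : ∀ b, IsSec L Λ (m b) (u b)) (hw : ∀ b, IsSec L Λ (m' b) (w b))
    {i : ι} {e : Chart d X} {x : X} (he : At e x) (hi : x ∈ L.U i) (c c' : Fin r → A) :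
    wedge u i e (e x) c * wedge w i e (e x) c' = wedge u i e (e x) c' * wedge w i e (e x) c :=
  mnr_prop (fun b => hmax.cons hw (hu b) he hi) c c'

/-- Infinitely many weights occur. -/
theorem MaxRank.exists_large [PreconnectedSpace X] (hmax : MaxRank L Λ r) {m : Fin r → ℕ}
    {u : Fin r → ι → Chart d X → Cm d → A → ℂ}
    (hu : ∀ b, IsSec L Λ (m b) (u b)) (hne : ∃ x, Nz L (wedge u) x) {k : ℕ}
    {v : ι → Chart d X → Cm d → A → ℂ} (hv : IsSec L Λ k v) (hvne : ∃ x, Nz L v x) :
    ∃ (m' : Fin r → ℕ) (u' : Fin r → ι → Chart d X → Cm d → A → ℂ),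
      (∀ b, IsSec L Λ (m' b) (u' b)) ∧ (∃ x, Nz L (wedge u') x) ∧ k ≤ ∑ b, m' b := by
  classical
  have hW := isSec_wedge hu
  obtain ⟨x₀, hx₀⟩ := hvne
  obtain ⟨x, hxv, hxW⟩ := (hW.dense hne).inter_open_nonempty _ hv.isOpen_nz ⟨x₀, hx₀⟩
  obtain ⟨i, hi⟩ := L.cover x
  have he := at_chartAt (d := d) x
  set e := chartAt (Cm d) x with hedef
  have h1 : wedge u i e (e x) ≠ 0 := hxW i e he hi
  have h2 : v i e (e x) ≠ 0 := hxv i e he hi
  obtain ⟨c, hc⟩ := Function.ne_iff.1 h1
  obtain ⟨b, hb⟩ := exists_exchange h2 hc (fun c' => hmax.cons hu hv he hi c')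
  have hall : ∀ b', IsSec L Λ (Function.update m b k b') (Function.update u b v b') := by
    intro b'
    by_cases hbb : b' = b
    · subst hbb; simpa using hv
    · simpa [hbb] using hu b'
  refine ⟨Function.update m b k, Function.update u b v, hall, ⟨x, ?_⟩, ?_⟩
  · refine (isSec_wedge hall).nz he hi ?_
    intro h0
    apply hb
    have h3 := congrFun h0 c
    simp only [wedge, Pi.zero_apply] at h3
    have h4 : (fun b' => Function.update u b v b' i e (e x)) =
        Function.update (fun b' => u b' i e (e x)) b (v i e (e x)) := by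
      funext b'
      by_cases hbb : b' = b
      · subst hbb; simp
      · simp [hbb]
    rw [h4] at h3
    exact h3
  · calc k = Function.update m b k b := by simp
      _ ≤ ∑ b', Function.update m b k b' :=
        Finset.single_le_sum (f := Function.update m b k) (fun _ _ => Nat.zero_le _)
          (Finset.mem_univ b)

/-- There is a tuple of maximal generic rank. -/
theorem exists_maxRank [Nonempty X] : ∃ (r : ℕ) (m : Fin r → ℕ)
    (u : Fin r → ι → Chart d X → Cm d → A → ℂ), (∀ b, IsSec L Λ (m b) (u b)) ∧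
      (∃ x, Nz L (wedge u) x) ∧ MaxRank L Λ r := by
  classical
  set Q : ℕ → Prop := fun r => ∃ (m : Fin r → ℕ) (u : Fin r → ι → Chart d X → Cm d → A → ℂ),
    (∀ b, IsSec L Λ (m b) (u b)) ∧ (∃ x, Nz L (wedge u) x) with hQ
  have hQ0 : Q 0 := by
    refine ⟨Fin.elim0, Fin.elim0, fun b => b.elim0, ?_⟩
    obtain ⟨x⟩ := ‹Nonempty X›
    refine ⟨x, fun i e he hi h0 => ?_⟩
    have h1 := congrFun h0 Fin.elim0
    simp [wedge, mnr] at h1
  have hQbig : ∀ r, Fintype.card A < r → ¬ Q r := by
    rintro r hr ⟨m, u, hu, x, hx⟩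
    obtain ⟨i, hi⟩ := L.cover x
    apply hx i _ (at_chartAt x) hi
    funext c
    have hni : ¬ Function.Injective c := fun hinj => by
      have := Fintype.card_le_of_injective c hinj
      rw [Fintype.card_fin] at this
      omega
    rw [Function.Injective] at hni
    push Not at hni
    obtain ⟨a, a', haa, hne⟩ := hni
    simp only [wedge, mnr, Pi.zero_apply]
    exact Matrix.det_zero_of_row_eq hne (by funext b; simp [haa])
  have hex : ∃ r, Q r ∧ ¬ Q (r + 1) := by
    by_contra hcon
    push Not at hcon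
    have hall : ∀ r, Q r := fun r => by
      induction r with
      | zero => exact hQ0
      | succ r ih => exact hcon r ih
    exact hQbig _ (Nat.lt_succ_self _) (hall _)
  obtain ⟨r, hr, hr1⟩ := hex
  obtain ⟨m, u, hu, hx⟩ := hr
  refine ⟨r, m, u, hu, hx, ?_⟩
  intro m' u' hu' i e x he hi
  by_contra h0
  exact hr1 ⟨m', u', hu', x, (isSec_wedge hu').nz he hi h0⟩

end Vale.Agent.P301.H724
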