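import Vale.Agent.P301.H724.HBun
import Vale.Agent.P299.H835.IX.TenF


/-! # Forms with values in `L^m` as tensors -/

open scoped Manifold ContDiff ComplexOrder Topology Matrix
open Vale.Agent.P272.K Vale.Agent.P272.K.C2 Vale.Agent.P278.H837 Vale.Agent.P299
open Vale.Agent.P301.H599 Vale.Agent.P299.IX

noncomputable section

namespace Vale.Agent.P301.H724

variable {d : ℕ} {X : Type} [TopologicalSpace X] [ChartedSpace (Cm d) X] {ι : Type}
variable {L : LineBundle d X ι} {r m : ℕ}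

section linalg

variable {A B : Type}

theorem mnr_mulVec' [Fintype A] (M : Matrix B A ℂ) (w : Fin r → A → ℂ) (c : Fin r → B) :
    mnr (fun b => M.mulVec (w b)) c = ∑ c' : Fin r → A, (∏ a, M (c a) (c' a)) * mnr w c' := by
  classical
  unfold mnr
  have h1 : (Matrix.of fun a b => M.mulVec (w b) (c a)) =
      fun a : Fin r => ∑ α : A, (M (c a) α) • (fun b => w b α : Fin r → ℂ) := by
    funext a b
    simp [Matrix.mulVec, dotProduct]
  have h2 := (Matrix.detRowAlternating (R := ℂ) (n := Fin r)).toMultilinearMap.map_sum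
    (fun (a : Fin r) (α : A) => (M (c a) α) • (fun b => w b α : Fin r → ℂ))
  rw [h1]
  refine h2.trans ?_
  refine Finset.sum_congr rfl fun c' _ => ?_
  rw [MultilinearMap.map_smul_univ]
  rfl

end linalg

/-- the transition matrices of the exterior algebra of `Ω¹` -/
def LamE (e e' : Chart d X) (x : X) : Matrix (FI d) (FI d) ℂ := lam (jacM e e' x)ᵀ

/-- the matrix of `ten p` -/
def tenM (d p : ℕ) : Matrix (Fin p → Fin d) (FI d) ℂ := Matrix.of fun I K => ten p (Fock.ev K) I

theorem ten_eq_mulVec (p : ℕ) (a : FI d → ℂ) : ten p a = tenM d p *ᵥ a := by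
  funext I
  rw [ten_eq_sum]
  rfl

theorem ten_LamE (p : ℕ) (e e' : Chart d X) (x : X) (b : FI d → ℂ) :
    ten p (LamE e e' x *ᵥ b) = LamT d X p e e' x *ᵥ ten p b := by
  funext I
  rw [LamE, ten_lam]
  rfl

variable {u : ι → Chart d X → Cm d → FI d → ℂ}

theorem isSec_ten (hu : IsSec L LamE m u) (p : ℕ) :
    IsSec L (LamT d X p) m (fun i e z => ten p (u i e z)) where
  holo i e x he hi I := analyticAt_ten (fun K => hu.holo i e x he hi K) p I
  chL i j e x he hi hj := by
    funext I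
    simp only [Pi.smul_apply, smul_eq_mul]
    rw [hu.chL i j e x he hi hj, ten_smul]
  chV i e e' x he he' hi := by
    simp only [hu.chV i e e' x he he' hi, ten_LamE]

/-- homogeneous of degree `p` -/
def Homog (L : LineBundle d X ι) (p : ℕ) (u : ι → Chart d X → Cm d → FI d → ℂ) : Prop :=
  ∀ i e x, At e x → x ∈ L.U i → ∀ I : FI d, I.card ≠ p → u i e (e x) I = 0

theorem linInd_ten {p : ℕ} {u : Fin r → ι → Chart d X → Cm d → FI d → ℂ}
    (hh : ∀ b, Homog L p (u b)) (hind : LinInd L u) :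
    LinInd L (fun b i e z => ten p (u b i e z)) := by
  intro t ht
  refine hind t fun i e x he hi => ?_
  have h1 : ∀ I, ten p (∑ b, t b • u b i e (e x)) I = 0 := by
    intro I
    have h2 := congrFun (ht i e x he hi) I
    rw [ten_sum]
    simp only [Finset.sum_apply, Pi.smul_apply, smul_eq_mul, Pi.zero_apply] at h2
    simpa only [ten_smul] using h2
  funext K
  by_cases hK : K.card = p
  · exact eq_zero_of_ten h1 hK
  · rw [Finset.sum_apply]
    refine Finset.sum_eq_zero fun b _ => ?_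
    rw [Pi.smul_apply, hh b i e x he hi K hK, smul_zero]

theorem wedge_ten {p : ℕ} {u : Fin r → ι → Chart d X → Cm d → FI d → ℂ}
    (hz : ∀ i e x, At e x → x ∈ L.U i → wedge u i e (e x) = 0) :
    ∀ i e x, At e x → x ∈ L.U i → wedge (fun b i e z => ten p (u b i e z)) i e (e x) = 0 := by
  intro i e x he hi
  funext c
  simp only [wedge, ten_eq_mulVec, mnr_mulVec']
  refine Finset.sum_eq_zero fun c' _ => ?_
  have h1 := congrFun (hz i e x he hi) c'
  simp only [wedge, Pi.zero_apply] at h1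
  rw [h1, mul_zero]

theorem exists_pair_tensor [ConnectedSpace X] {p : ℕ}
    {u : Fin r → ι → Chart d X → Cm d → FI d → ℂ} (hu : ∀ b, IsSec L LamE m (u b))
    (hh : ∀ b, Homog L p (u b)) (hind : LinInd L u)
    (hz : ∀ i e x, At e x → x ∈ L.U i → wedge u i e (e x) = 0) :
    ∃ (r' : ℕ) (σ₀ σ₁ : ι → Chart d X → Cm d → (Fin r' → Fin p → Fin d) → ℂ), 1 ≤ r' ∧ r' < r ∧
      IsSec L (lamPow r' (LamT d X p)) (r' * m) σ₀ ∧
      IsSec L (lamPow r' (LamT d X p)) (r' * m) σ₁ ∧
      (∃ x, Nz L σ₀ x) ∧ (∃ x, Nz L σ₁ x) ∧ Prop2 L σ₁ σ₀ ∧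
      ∀ C : ℂ, ∃ i e x, At e x ∧ x ∈ L.U i ∧ σ₁ i e (e x) ≠ C • σ₀ i e (e x) :=
  exists_prop_pair (fun b => isSec_ten (hu b) p) (linInd_ten hh hind) (wedge_ten hz)

end Vale.Agent.P301.H724
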