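import Vale.Agent.P281.MF.Hol

/-! # Division of holomorphic functions

If `p ^ a` divides `q ^ (a + b)` on a fixed ball for infinitely many `a` (and fixed `b`), then `p`
divides `q`. -/

open Set Filter Metric Topology

namespace Vale.Agent.P301.H724

/-- One variable: a quotient of holomorphic functions with nonnegative orders is holomorphic. -/
theorem one_var {D : Set ℂ} (hDc : IsPreconnected D) {ψ χ : ℂ → ℂ}
    (hψ : AnalyticOnNhd ℂ ψ D) (hχ : AnalyticOnNhd ℂ χ D) (hχ0 : ∃ t ∈ D, χ t ≠ 0) (b : ℕ)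
    (h : ∃ᶠ a : ℕ in atTop, ∃ f : ℂ → ℂ, AnalyticOnNhd ℂ f D ∧
      ∀ t ∈ D, ∀ᶠ s in 𝓝 t, ψ s ^ (a + b) = f s * χ s ^ a) :
    ∃ F : ℂ → ℂ, AnalyticOnNhd ℂ F D ∧ ∀ t ∈ D, ψ t = F t * χ t := by
  have hm : MeromorphicOn (ψ / χ) D := fun t ht =>
    (hψ t ht).meromorphicAt.div (hχ t ht).meromorphicAt
  have hχfin : ∀ t ∈ D, analyticOrderAt χ t ≠ ⊤ := by
    intro t ht htop
    obtain ⟨s, hs, hs0⟩ := hχ0
    exact hs0 (hχ.eqOn_zero_of_preconnected_of_eventuallyEq_zero hDc ht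
      (analyticOrderAt_eq_top.1 htop) hs)
  have hord : ∀ t ∈ D, analyticOrderAt χ t ≤ analyticOrderAt ψ t := by
    intro t ht
    by_cases hψt : analyticOrderAt ψ t = ⊤
    · rw [hψt]; exact le_top
    obtain ⟨n, hn⟩ := ENat.ne_top_iff_exists.1 hψt
    obtain ⟨m, hm'⟩ := ENat.ne_top_iff_exists.1 (hχfin t ht)
    rw [← hn, ← hm']
    by_contra hlt
    push Not at hlt
    have hlt' : n + 1 ≤ m := by exact_mod_cast hlt
    obtain ⟨a, ha, hab⟩ := (h.and_eventually (eventually_gt_atTop (b * n))).exists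
    obtain ⟨f, hf, hfa⟩ := ha
    have h1 : analyticOrderAt (ψ ^ (a + b)) t = analyticOrderAt (f * χ ^ a) t :=
      analyticOrderAt_congr (by
        filter_upwards [hfa t ht] with s hs
        simpa using hs)
    rw [analyticOrderAt_pow (hψ t ht), analyticOrderAt_mul (hf t ht) ((hχ t ht).pow a),
      analyticOrderAt_pow (hχ t ht), ← hn, ← hm'] at h1
    have h2 : a • (m : ℕ∞) ≤ (a + b) • (n : ℕ∞) := by
      rw [h1]; exact le_add_self
    have h3 : a * m ≤ (a + b) * n := by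
      have : ((a * m : ℕ) : ℕ∞) ≤ (((a + b) * n : ℕ) : ℕ∞) := by
        simpa [nsmul_eq_mul] using h2
      exact_mod_cast this
    nlinarith
  set F : ℂ → ℂ := toMeromorphicNFOn (ψ / χ) D with hF
  have hFan : AnalyticOnNhd ℂ F D := by
    intro t ht
    have h1 := meromorphicNFOn_toMeromorphicNFOn (ψ / χ) D ht
    rw [← h1.meromorphicOrderAt_nonneg_iff_analyticAt, meromorphicOrderAt_toMeromorphicNFOn hm ht,
      meromorphicOrderAt_div (hψ t ht).meromorphicAt (hχ t ht).meromorphicAt,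
      (hψ t ht).meromorphicOrderAt_eq, (hχ t ht).meromorphicOrderAt_eq]
    have h2 := hord t ht
    obtain ⟨m, hm'⟩ := ENat.ne_top_iff_exists.1 (hχfin t ht)
    rw [← hm'] at h2 ⊢
    cases hψt : analyticOrderAt ψ t with
    | top => simp
    | coe n =>
      rw [hψt] at h2
      have h3 : m ≤ n := by exact_mod_cast h2
      simp only [ENat.map_natCast]
      have h4 : ((n : ℤ) : WithTop ℤ) - ((m : ℤ) : WithTop ℤ) = (((n : ℤ) - (m : ℤ) : ℤ) : WithTop ℤ) :=
        rfl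
      rw [h4]
      have h5 : (0 : ℤ) ≤ (n : ℤ) - m := by omega
      exact_mod_cast h5
  refine ⟨F, hFan, fun t ht => ?_⟩
  have h1 : F =ᶠ[𝓝[≠] t] ψ / χ := hm.toMeromorphicNFOn_eq_self_on_nhdsNE ht
  have h2 : ∀ᶠ s in 𝓝[≠] t, χ s ≠ 0 := by
    rcases (hχ t ht).eventually_eq_zero_or_eventually_ne_zero with h | h
    · exact absurd (analyticOrderAt_eq_top.2 h) (hχfin t ht)
    · exact h
  have h3 : ψ =ᶠ[𝓝[≠] t] fun s => F s * χ s := by
    filter_upwards [h1, h2] with s hs hs2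
    rw [hs]
    simp [hs2]
  have h4 : ContinuousAt ψ t := (hψ t ht).continuousAt
  have h5 : ContinuousAt (fun s => F s * χ s) t :=
    (hFan t ht).continuousAt.mul (hχ t ht).continuousAt
  exact ((h4.eventuallyEq_nhds_iff_eventuallyEq_nhdsNE h5).1 h3).eq_of_nhds

variable {E : Type*} [NormedAddCommGroup E] [NormedSpace ℂ E] [FiniteDimensional ℂ E]

/-- If `p ^ a` divides `q ^ (a + b)` on a fixed ball around `z₀` for infinitely many `a`, and `p` is
not identically zero, then `p` divides `q` near `z₀`. -/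
theorem exists_quot {z₀ : E} {R : ℝ} (hR : 0 < R) {p q : E → ℂ}
    (hp : AnalyticOnNhd ℂ p (ball z₀ R)) (hq : AnalyticOnNhd ℂ q (ball z₀ R))
    (hp0 : ∃ z ∈ ball z₀ R, p z ≠ 0) (b : ℕ)
    (h : ∃ᶠ a : ℕ in atTop, ∃ f : E → ℂ, AnalyticOnNhd ℂ f (ball z₀ R) ∧
      ∀ z ∈ ball z₀ R, q z ^ (a + b) = f z * p z ^ a) :
    ∃ g : E → ℂ, AnalyticAt ℂ g z₀ ∧ ∀ᶠ z in 𝓝 z₀, q z = g z * p z := by
  have : ProperSpace E := FiniteDimensional.proper ℂ E
  have hz₀ : z₀ ∈ ball z₀ R := mem_ball_self hR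
  by_cases hpz : p z₀ = 0
  swap
  · refine ⟨q / p, (hq z₀ hz₀).div (hp z₀ hz₀) hpz, ?_⟩
    filter_upwards [(hp z₀ hz₀).continuousAt.eventually_ne hpz] with z hz
    simp [hz]
  obtain ⟨z₁, hz₁, hpz₁⟩ := hp0
  set v : E := z₁ - z₀ with hv
  have hv0 : v ≠ 0 := by
    intro h0
    rw [hv, sub_eq_zero] at h0
    exact hpz₁ (h0 ▸ hpz)
  have hvR : ‖v‖ < R := by simpa [hv, dist_eq_norm] using hz₁
  -- the line through `z₀`
  have hline : ∀ z : E, AnalyticOnNhd ℂ (fun t : ℂ => z + t • v) univ := fun z t _ => by fun_prop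
  have hD1 : ∀ t : ℂ, ‖t‖ ≤ 1 → z₀ + t • v ∈ ball z₀ R := by
    intro t ht
    rw [mem_ball, dist_eq_norm, add_sub_cancel_left, norm_smul]
    nlinarith [norm_nonneg v, norm_nonneg t]
  have hφ0 : ¬ ∀ᶠ t in 𝓝 (0 : ℂ), p (z₀ + t • v) = 0 := by
    intro h0
    have hpre : IsPreconnected (closedBall (0 : ℂ) 1) := (convex_closedBall _ _).isPreconnected
    have han : AnalyticOnNhd ℂ (fun t : ℂ => p (z₀ + t • v)) (closedBall (0 : ℂ) 1) := by
      intro t ht
      exact AnalyticAt.comp (g := p) (hp _ (hD1 t (by simpa using ht))) (hline z₀ t trivial)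
    have h2 := han.eqOn_zero_of_preconnected_of_eventuallyEq_zero hpre
      (mem_closedBall_self zero_le_one) h0 (show (1 : ℂ) ∈ closedBall (0 : ℂ) 1 by simp)
    apply hpz₁
    simpa [hv] using h2
  have hφ1 : ∀ᶠ t in 𝓝[≠] (0 : ℂ), p (z₀ + t • v) ≠ 0 := by
    have h1 : AnalyticAt ℂ (fun t : ℂ => p (z₀ + t • v)) 0 :=
      AnalyticAt.comp (g := p) (by simpa using hp z₀ hz₀) (hline z₀ 0 trivial)
    exact h1.eventually_eq_zero_or_eventually_ne_zero.resolve_left hφ0
  obtain ⟨r, hr, hr1, hrne⟩ : ∃ r : ℝ, 0 < r ∧ r ≤ 1 ∧ ∀ t : ℂ, ‖t‖ = r → p (z₀ + t • v) ≠ 0 := by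
    rw [eventually_nhdsWithin_iff, Metric.eventually_nhds_iff] at hφ1
    obtain ⟨ε, hε, hε2⟩ := hφ1
    refine ⟨min (ε / 2) 1, by positivity, min_le_right _ _, fun t ht => ?_⟩
    have h1 : ‖t‖ < ε := by
      rw [ht]; exact lt_of_le_of_lt (min_le_left _ _) (by linarith)
    have h2 : t ≠ 0 := by
      rintro rfl
      have : 0 < min (ε / 2) 1 := by positivity
      rw [norm_zero] at ht
      linarith
    exact hε2 (by simpa using h1) h2
  -- tube lemma
  have hBo : IsOpen (ball z₀ R) := isOpen_ball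
  have hpc : ContinuousOn p (ball z₀ R) := hp.continuousOn
  have hcont : Continuous fun x : E × ℂ => x.1 + x.2 • v := by fun_prop
  set N : Set (E × ℂ) := {x | x.1 + x.2 • v ∈ ball z₀ R ∧ p (x.1 + x.2 • v) ≠ 0 ∧ x.2 ≠ 0} with hN
  have hNo : IsOpen N := by
    have h1 : IsOpen ((fun x : E × ℂ => x.1 + x.2 • v) ⁻¹' (ball z₀ R ∩ p ⁻¹' {0}ᶜ)) :=
      (hpc.isOpen_inter_preimage hBo isOpen_compl_singleton).preimage hcont
    have h2 : IsOpen {x : E × ℂ | x.2 ≠ 0} := isOpen_ne_fun continuous_snd continuous_const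
    have h3 : N = ((fun x : E × ℂ => x.1 + x.2 • v) ⁻¹' (ball z₀ R ∩ p ⁻¹' {0}ᶜ)) ∩
        {x : E × ℂ | x.2 ≠ 0} := by
      ext x; simp [hN, and_assoc]
    rw [h3]; exact h1.inter h2
  obtain ⟨U, W, hU, hW, hzU, hsW, hUW⟩ := generalized_tube_lemma (s := {z₀}) (t := sphere (0 : ℂ) r)
    isCompact_singleton (isCompact_sphere _ _) hNo (by
      rintro ⟨z, t⟩ ⟨hz, ht⟩
      rw [mem_singleton_iff] at hz
      have ht' : ‖t‖ = r := by simpa using ht
      subst hz
      refine ⟨hD1 t (by rw [ht']; exact hr1), hrne t ht', ?_⟩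
      show t ≠ 0
      rintro rfl
      rw [norm_zero] at ht'
      linarith)
  have hzU' : z₀ ∈ U := hzU rfl
  set δ : ℝ := R - ‖v‖ with hδ
  have hδ0 : 0 < δ := by rw [hδ]; linarith
  set U' : Set E := U ∩ ball z₀ δ with hU'
  have hU'o : IsOpen U' := hU.inter isOpen_ball
  have hzU'' : z₀ ∈ U' := ⟨hzU', mem_ball_self hδ0⟩
  have hin : ∀ z ∈ U', ∀ t : ℂ, ‖t‖ ≤ 1 → z + t • v ∈ ball z₀ R := by
    intro z hz t ht
    have h1 : ‖z - z₀‖ < δ := by simpa [dist_eq_norm] using hz.2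
    rw [mem_ball, dist_eq_norm]
    have h2 : z + t • v - z₀ = (z - z₀) + t • v := by abel
    rw [h2]
    refine lt_of_le_of_lt (norm_add_le _ _) ?_
    rw [norm_smul]
    nlinarith [norm_nonneg v, norm_nonneg t]
  -- the quotient
  set G : E × ℂ → ℂ := fun x => (x.2 - 0)⁻¹ • (q (x.1 + x.2 • v) / p (x.1 + x.2 • v)) with hG
  have hGd : DifferentiableOn ℂ G (U' ×ˢ W) := by
    intro x hx
    have hxN : x ∈ N := hUW ⟨hx.1.1, hx.2⟩
    obtain ⟨h1, h2, h3⟩ := hxN
    apply DifferentiableAt.differentiableWithinAt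
    have hl : DifferentiableAt ℂ (fun x : E × ℂ => x.1 + x.2 • v) x := by fun_prop
    have hq1 : DifferentiableAt ℂ (fun x : E × ℂ => q (x.1 + x.2 • v)) x :=
      DifferentiableAt.comp (g := q) x (hq _ h1).differentiableAt hl
    have hp1 : DifferentiableAt ℂ (fun x : E × ℂ => p (x.1 + x.2 • v)) x :=
      DifferentiableAt.comp (g := p) x (hp _ h1).differentiableAt hl
    have hs : DifferentiableAt ℂ (fun x : E × ℂ => (x.2 - 0)⁻¹) x :=
      DifferentiableAt.inv (by fun_prop) (by simpa using h3)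
    have hd : DifferentiableAt ℂ (fun x : E × ℂ => q (x.1 + x.2 • v) / p (x.1 + x.2 • v)) x := by
      simp only [div_eq_mul_inv]
      exact hq1.mul (hp1.inv h2)
    exact hs.smul hd
  have hg := Vale.Agent.P281.MF.differentiableOn_circleIntegral (c := 0) (R := r) hr.le hU'o hW
    hsW hGd
  refine ⟨fun z => (2 * (Real.pi : ℂ) * Complex.I)⁻¹ • ∮ t in C(0, r), G (z, t), ?_, ?_⟩
  · have h1 := Vale.Agent.P281.MF.analyticAt_of_differentiableOn hU'o hg hzU''
    exact h1.fun_const_smul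
  · filter_upwards [hU'o.mem_nhds hzU''] with z hz
    -- a neighbourhood of the closed unit disc in which everything is defined
    have hD2 : ∀ t ∈ closedBall (0 : ℂ) 1, z + t • v ∈ ball z₀ R := fun t ht =>
      hin z hz t (by simpa using ht)
    have hψ : AnalyticOnNhd ℂ (fun t : ℂ => q (z + t • v)) (closedBall (0 : ℂ) 1) := fun t ht =>
      AnalyticAt.comp (g := q) (hq _ (hD2 t ht)) (hline z t trivial)
    have hχ : AnalyticOnNhd ℂ (fun t : ℂ => p (z + t • v)) (closedBall (0 : ℂ) 1) := fun t ht =>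
      AnalyticAt.comp (g := p) (hp _ (hD2 t ht)) (hline z t trivial)
    have hrs : ∀ t : ℂ, t ∈ sphere (0 : ℂ) r → p (z + t • v) ≠ 0 := fun t ht =>
      (hUW (show (z, t) ∈ U ×ˢ W from ⟨hz.1, hsW ht⟩)).2.1
    have hχ0 : ∃ t ∈ closedBall (0 : ℂ) 1, p (z + t • v) ≠ 0 := by
      refine ⟨(r : ℂ), ?_, hrs _ ?_⟩
      · simp [abs_of_pos hr, hr1]
      · simp [abs_of_pos hr]
    obtain ⟨F, hF, hFe⟩ := one_var (convex_closedBall (0 : ℂ) 1).isPreconnected hψ hχ hχ0 b (by
      refine h.mono fun a ha => ?_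
      obtain ⟨f, hf, hfe⟩ := ha
      refine ⟨fun t => f (z + t • v), fun t ht =>
        AnalyticAt.comp (g := f) (hf _ (hD2 t ht)) (hline z t trivial), fun t ht => ?_⟩
      have h1 : ∀ᶠ s in 𝓝 t, z + s • v ∈ ball z₀ R := by
        have hc : ContinuousAt (fun s : ℂ => z + s • v) t := by fun_prop
        exact hc.eventually_mem (hBo.mem_nhds (hD2 t ht))
      filter_upwards [h1] with s hs
      exact hfe _ hs)
    have hsub : closedBall (0 : ℂ) r ⊆ closedBall (0 : ℂ) 1 := closedBall_subset_closedBall hr1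
    have hFd : DiffContOnCl ℂ F (ball 0 r) := by
      apply DifferentiableOn.diffContOnCl
      rw [closure_ball _ hr.ne']
      exact (hF.mono hsub).differentiableOn
    have hC := hFd.two_pi_i_inv_smul_circleIntegral_sub_inv_smul (mem_ball_self hr)
    have hI : (∮ t in C(0, r), G (z, t)) = ∮ t in C(0, r), (t - 0)⁻¹ • F t := by
      apply circleIntegral.integral_congr hr.le
      intro t ht
      simp only [hG]
      have h1 : q (z + t • v) = F t * p (z + t • v) := hFe t (hsub (sphere_subset_closedBall ht))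
      rw [h1, mul_div_assoc, div_self (hrs t ht), mul_one]
    have h0 := hFe 0 (mem_closedBall_self zero_le_one)
    simp only [zero_smul, add_zero] at h0
    rw [hI, hC, h0]

end Vale.Agent.P301.H724
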