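import Vale.Agent.P301.H724.Minor
import Vale.Agent.P301.H724.Div

/-! # Infinitely many sections of `V ⊗ L^m` give a section of a power of `L`

If `H⁰(X, V ⊗ L^m) ≠ 0` for infinitely many `m`, then `X` has a nonconstant meromorphic function or
some power `L^k`, `k ≥ 1`, has a nonzero holomorphic section. -/

open scoped Manifold ContDiff ComplexOrder Topology
open Filter Metric Set

noncomputable section

namespace Vale.Agent.P301.H724

open Vale.Agent.P272.K Vale.Agent.P301.H599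

variable {d : ℕ} {X : Type} [TopologicalSpace X] [ChartedSpace (Cm d) X] {ι : Type}

theorem freq_ne {E : Type*} [NormedAddCommGroup E] [NormedSpace ℂ E] {p : E → ℂ} {z₀ : E} {R : ℝ}
    (hp : AnalyticOnNhd ℂ p (ball z₀ R)) (h : ∃ z ∈ ball z₀ R, p z ≠ 0) {z : E}
    (hz : z ∈ ball z₀ R) : ∃ᶠ w in 𝓝 z, p w ≠ 0 := by
  intro h0
  obtain ⟨z₁, hz₁, hne⟩ := h
  have h1 : p =ᶠ[𝓝 z] 0 := by
    filter_upwards [h0] with w hw
    simpa using hw
  exact hne (hp.eqOn_zero_of_preconnected_of_eventuallyEq_zero (convex_ball _ _).isPreconnected hz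
    h1 hz₁)

theorem eq_zero_of_freq {Y : Type*} [TopologicalSpace Y] {h : Y → ℂ} {y : Y}
    (hc : ContinuousAt h y) (hf : ∃ᶠ w in 𝓝 y, h w = 0) : h y = 0 := by
  by_contra h0
  exact hf (hc.eventually_ne h0)

theorem analyticAt_trans [IsManifold 𝓘(ℂ, Cm d) ω X] {e e' : Chart d X} {x : X} (he : At e x)
    (he' : At e' x) : AnalyticAt ℂ (fun z => e (e'.symm z)) (e' x) := by
  have h1 : ContMDiffAt 𝓘(ℂ, Cm d) 𝓘(ℂ, Cm d) ω e x :=
    contMDiffAt_of_mem_maximalAtlas (IsManifold.subset_maximalAtlas he.1) he.2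
  have h2 : ContMDiffAt 𝓘(ℂ, Cm d) 𝓘(ℂ, Cm d) ω e'.symm (e' x) :=
    contMDiffAt_symm_of_mem_maximalAtlas (IsManifold.subset_maximalAtlas he'.1)
      (e'.map_source he'.2)
  have h3 : ContMDiffAt 𝓘(ℂ, Cm d) 𝓘(ℂ, Cm d) ω (fun z => e (e'.symm z)) (e' x) := by
    refine ContMDiffAt.comp (g := e) (f := e'.symm) (e' x) ?_ h2
    rw [e'.left_inv he'.2]
    exact h1
  exact (contMDiffAt_iff_contDiffAt.1 h3).analyticAt

section rankone

variable {B : Type} [Fintype B] {L : LineBundle d X ι}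
  {Λ : Chart d X → Chart d X → X → Matrix B B ℂ} {M₁ M₂ M₃ : ℕ}
  {W₁ W₂ W₃ : ι → Chart d X → Cm d → B → ℂ}

/-- Pointwise proportionality of two sections. -/
def Prop2 (L : LineBundle d X ι) (W W' : ι → Chart d X → Cm d → B → ℂ) : Prop :=
  ∀ i e x, At e x → x ∈ L.U i → ∀ c c', W i e (e x) c * W' i e (e x) c' =
    W i e (e x) c' * W' i e (e x) c

theorem Prop2.exists_smul {W W' : ι → Chart d X → Cm d → B → ℂ} (h : Prop2 L W W') {i : ι}
    {e : Chart d X} {x : X} (he : At e x) (hi : x ∈ L.U i) (hne : W' i e (e x) ≠ 0) :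
    ∃ g : ℂ, W i e (e x) = g • W' i e (e x) := by
  obtain ⟨c₀, hc₀⟩ := Function.ne_iff.1 hne
  have hc₀' : W' i e (e x) c₀ ≠ 0 := hc₀
  refine ⟨W i e (e x) c₀ / W' i e (e x) c₀, ?_⟩
  funext c
  have h1 := h i e x he hi c c₀
  simp only [Pi.smul_apply, smul_eq_mul]
  field_simp
  linear_combination h1

/-- Two expressions of the meromorphic function `W₁^a W₃^b / W₂^(a+b)`. -/
theorem compat_pow (h₁ : IsSec L Λ M₁ W₁) (h₂ : IsSec L Λ M₂ W₂) (h₃ : IsSec L Λ M₃ W₃)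
    (h12 : Prop2 L W₁ W₂) (h32 : Prop2 L W₃ W₂) {a b : ℕ} (hab : 0 < a + b)
    (hM : M₁ * a + M₃ * b = M₂ * (a + b)) {i i' : ι} {e e' : Chart d X} {x : X}
    (he : At e x) (he' : At e' x) (hi : x ∈ L.U i) (hi' : x ∈ L.U i') (c c' : B) :
    W₁ i e (e x) c ^ a * W₃ i e (e x) c ^ b * W₂ i' e' (e' x) c' ^ (a + b) =
      W₁ i' e' (e' x) c' ^ a * W₃ i' e' (e' x) c' ^ b * W₂ i e (e x) c ^ (a + b) := by
  by_cases hz : W₂ i e (e x) = 0
  · have hz' := h₂.zero_of he he' hi hi' hz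
    rw [hz, hz']
    simp only [Pi.zero_apply, zero_pow hab.ne', mul_zero]
  · obtain ⟨g₁, hg₁⟩ := h12.exists_smul he hi hz
    obtain ⟨g₃, hg₃⟩ := h32.exists_smul he hi hz
    set w : B → ℂ := W₂ i e (e x) with hw
    set γ := L.g i' i x with hγ
    set Z : ℂ := (Λ e' e x).mulVec w c' with hZ
    have k₁ : W₁ i' e' (e' x) c' = γ ^ M₁ * g₁ * Z := by
      rw [h₁.chV i' e' e x he' he hi', h₁.chL i' i e x he hi' hi, hg₁]
      simp only [Matrix.mulVec_smul, Pi.smul_apply, smul_eq_mul]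
      ring
    have k₃ : W₃ i' e' (e' x) c' = γ ^ M₃ * g₃ * Z := by
      rw [h₃.chV i' e' e x he' he hi', h₃.chL i' i e x he hi' hi, hg₃]
      simp only [Matrix.mulVec_smul, Pi.smul_apply, smul_eq_mul]
      ring
    have k₂ : W₂ i' e' (e' x) c' = γ ^ M₂ * Z := by
      rw [h₂.chV i' e' e x he' he hi', h₂.chL i' i e x he hi' hi]
      simp only [Matrix.mulVec_smul, Pi.smul_apply, smul_eq_mul]
      rfl
    rw [k₁, k₂, k₃, hg₁, hg₃]
    simp only [Pi.smul_apply, smul_eq_mul, mul_pow]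
    have hp : (γ ^ M₁) ^ a * (γ ^ M₃) ^ b = (γ ^ M₂) ^ (a + b) := by
      rw [← pow_mul, ← pow_mul, ← pow_mul, ← pow_add, hM]
    have e1 : Z ^ (a + b) = Z ^ a * Z ^ b := pow_add _ _ _
    have e2 : w c ^ (a + b) = w c ^ a * w c ^ b := pow_add _ _ _
    rw [e1, e2, ← hp]
    ring

variable [PreconnectedSpace X]

/-- A component which is not locally zero near `x`, and nonzero at `x` if the section is. -/
theorem exists_comp (h₂ : IsSec L Λ M₂ W₂) (hne : ∃ x, Nz L W₂ x) {i : ι} {e : Chart d X} {x : X}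
    (he : At e x) (hi : x ∈ L.U i) : ∃ c : B, (∃ᶠ z in 𝓝 (e x), W₂ i e z c ≠ 0) ∧
      (Nz L W₂ x → W₂ i e (e x) c ≠ 0) := by
  by_cases hx : Nz L W₂ x
  · obtain ⟨c, hc⟩ := Function.ne_iff.1 (hx i e he hi)
    have hc' : W₂ i e (e x) c ≠ 0 := hc
    exact ⟨c, ((h₂.holo i e x he hi c).continuousAt.eventually_ne hc').frequently, fun _ => hc'⟩
  · have h1 : ∃ᶠ y in 𝓝 x, Nz L W₂ y := mem_closure_iff_frequently.1 (h₂.dense hne x)
    have h2 : ∃ᶠ y in 𝓝 x, ∃ c, W₂ i e (e y) c ≠ 0 := by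
      refine (h1.and_eventually ((at_eventually he).and ((L.isOpen i).mem_nhds hi))).mono ?_
      rintro y ⟨hy, hey, hiy⟩
      exact Function.ne_iff.1 (hy i e hey hiy)
    have h3 : ∃ c, ∃ᶠ y in 𝓝 x, W₂ i e (e y) c ≠ 0 := by
      by_contra hcon
      have h4 : ∀ᶠ y in 𝓝 x, ∀ c, W₂ i e (e y) c = 0 := by
        refine eventually_all.2 fun c => ?_
        have h5 := not_exists.1 hcon c
        rw [Filter.not_frequently] at h5
        simpa using h5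
      obtain ⟨y, ⟨c, hc⟩, hy⟩ := (h2.and_eventually h4).exists
      exact hc (hy c)
    obtain ⟨c, hc⟩ := h3
    refine ⟨c, ?_, fun h => absurd h hx⟩
    have h5 : Tendsto e (𝓝 x) (𝓝 (e x)) := (e.continuousAt he.2).tendsto
    exact h5.frequently hc

/-- If all meromorphic functions are constant, then `W₁^a W₃^b = C W₂^(a+b)`. -/
theorem exists_const [IsManifold 𝓘(ℂ, Cm d) ω X] (hno : NoMero d X) (h₁ : IsSec L Λ M₁ W₁)
    (h₂ : IsSec L Λ M₂ W₂) (h₃ : IsSec L Λ M₃ W₃) (n₁ : ∃ x, Nz L W₁ x) (n₂ : ∃ x, Nz L W₂ x)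
    (n₃ : ∃ x, Nz L W₃ x) (h12 : Prop2 L W₁ W₂) (h32 : Prop2 L W₃ W₂) {a b : ℕ} (hab : 0 < a + b)
    (hM : M₁ * a + M₃ * b = M₂ * (a + b)) :
    ∃ C : ℂ, C ≠ 0 ∧ ∀ i e x, At e x → x ∈ L.U i → ∀ c,
      W₁ i e (e x) c ^ a * W₃ i e (e x) c ^ b = C * W₂ i e (e x) c ^ (a + b) := by
  choose i₀ hi₀ using L.cover
  set e₀ : X → Chart d X := fun x => chartAt (Cm d) x with he₀
  have hat : ∀ x, At (e₀ x) x := fun x => at_chartAt x
  choose c₀ hc₀ hc₀' using fun x => exists_comp h₂ n₂ (hat x) (hi₀ x)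
  choose R hR hball using fun x => exists_ball L (hat x) (hi₀ x)
  have hVat : ∀ x y, y ∈ (e₀ x).source ∩ (e₀ x) ⁻¹' ball ((e₀ x) x) (R x) →
      At (e₀ x) y ∧ y ∈ L.U (i₀ x) := by
    intro x y hy
    refine ⟨⟨(hat x).1, hy.1⟩, ?_⟩
    have h1 := (hball x hy.2).2
    simp only [mem_preimage] at h1
    rwa [(e₀ x).left_inv hy.1] at h1
  have hcomp : ∀ (W : ι → Chart d X → Cm d → B → ℂ) {m : ℕ} (_ : IsSec L Λ m W) (i : X)
      (e : Chart d X) (x : X) (_ : At e x)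
      (_ : x ∈ (e₀ i).source ∩ (e₀ i) ⁻¹' ball ((e₀ i) i) (R i)),
      AnalyticAt ℂ (fun z => W (i₀ i) (e₀ i) ((e₀ i) (e.symm z)) (c₀ i)) (e x) := by
    intro W m hW i e x he hx
    obtain ⟨h1, h2⟩ := hVat i x hx
    have h3 := hW.holo (i₀ i) (e₀ i) x h1 h2 (c₀ i)
    have h4 := analyticAt_trans h1 he
    refine AnalyticAt.comp (g := fun z => W (i₀ i) (e₀ i) z (c₀ i)) ?_ h4
    rw [e.left_inv he.2]
    exact h3
  let M : Mero d X X :=
    { V := fun x => (e₀ x).source ∩ (e₀ x) ⁻¹' ball ((e₀ x) x) (R x)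
      isOpen := fun x => (e₀ x).isOpen_inter_preimage isOpen_ball
      cover := fun x => ⟨x, (hat x).2, mem_ball_self (hR x)⟩
      a := fun x y => W₁ (i₀ x) (e₀ x) ((e₀ x) y) (c₀ x) ^ a * W₃ (i₀ x) (e₀ x) ((e₀ x) y) (c₀ x) ^ b
      b := fun x y => W₂ (i₀ x) (e₀ x) ((e₀ x) y) (c₀ x) ^ (a + b)
      holo_a := fun i e x he hx => ((hcomp W₁ h₁ i e x he hx).pow a).mul
        ((hcomp W₃ h₃ i e x he hx).pow b)
      holo_b := fun i e x he hx => (hcomp W₂ h₂ i e x he hx).pow (a + b)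
      nz := by
        intro i x hx
        obtain ⟨h1, h2⟩ := hVat i x hx
        have hp : AnalyticOnNhd ℂ (fun z => W₂ (i₀ i) (e₀ i) z (c₀ i)) (ball ((e₀ i) i) (R i)) :=
          (h₂.analyticOnNhd (hat i).1 (i₀ i) (c₀ i)).mono (hball i)
        have hex : ∃ z ∈ ball ((e₀ i) i) (R i), W₂ (i₀ i) (e₀ i) z (c₀ i) ≠ 0 := by
          obtain ⟨z, hz, hzb⟩ := ((hc₀ i).and_eventually
            (isOpen_ball.mem_nhds (mem_ball_self (hR i)))).exists
          exact ⟨z, hzb, hz⟩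
        have h3 := freq_ne hp hex hx.2
        have h4 : ∃ᶠ y in 𝓝 x, W₂ (i₀ i) (e₀ i) ((e₀ i) y) (c₀ i) ≠ 0 := by
          have h5 : Tendsto (e₀ i).symm (𝓝 ((e₀ i) x)) (𝓝 x) := by
            have := ((e₀ i).continuousAt_symm ((e₀ i).map_source hx.1)).tendsto
            rwa [(e₀ i).left_inv hx.1] at this
          refine h5.frequently (p := fun y => W₂ (i₀ i) (e₀ i) ((e₀ i) y) (c₀ i) ≠ 0) ?_
          refine (h3.and_eventually ((e₀ i).open_target.mem_nhds ((e₀ i).map_source hx.1))).mono ?_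
          rintro z ⟨hz, hzt⟩
          rwa [(e₀ i).right_inv hzt]
        exact h4.mono fun y hy => pow_ne_zero _ hy
      compat := by
        intro i j x hx hx'
        obtain ⟨h1, h2⟩ := hVat i x hx
        obtain ⟨h3, h4⟩ := hVat j x hx'
        exact compat_pow h₁ h₂ h₃ h12 h32 hab hM h1 h3 h2 h4 _ _ }
  obtain ⟨C, hC⟩ := hno X M
  have hK : ∀ i e x, At e x → x ∈ L.U i → Nz L W₂ x → ∀ c,
      W₁ i e (e x) c ^ a * W₃ i e (e x) c ^ b = C * W₂ i e (e x) c ^ (a + b) := by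
    intro i e x he hi hx c
    have h1 := compat_pow h₁ h₂ h₃ h12 h32 hab hM he (hat x) hi (hi₀ x) c (c₀ x)
    have h2 : W₁ (i₀ x) (e₀ x) ((e₀ x) x) (c₀ x) ^ a * W₃ (i₀ x) (e₀ x) ((e₀ x) x) (c₀ x) ^ b =
        C * W₂ (i₀ x) (e₀ x) ((e₀ x) x) (c₀ x) ^ (a + b) :=
      hC x x ⟨(hat x).2, mem_ball_self (hR x)⟩
    have h3 : W₂ (i₀ x) (e₀ x) ((e₀ x) x) (c₀ x) ^ (a + b) ≠ 0 := pow_ne_zero _ (hc₀' x hx)
    rw [h2] at h1
    apply mul_right_cancel₀ h3
    linear_combination h1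
  refine ⟨C, ?_, ?_⟩
  · -- `C ≠ 0`
    rintro rfl
    obtain ⟨x₃, hx₃⟩ := n₃
    obtain ⟨x₁, hx₁, hx₁'⟩ := (h₁.dense n₁).inter_open_nonempty _ h₃.isOpen_nz ⟨x₃, hx₃⟩
    obtain ⟨x, ⟨hx1, hx3⟩, hx2⟩ := (h₂.dense n₂).inter_open_nonempty _
      (h₁.isOpen_nz.inter h₃.isOpen_nz) ⟨x₁, hx₁', hx₁⟩
    obtain ⟨i, hi⟩ := L.cover x
    have he := at_chartAt (d := d) x
    set e := chartAt (Cm d) x
    have hne := hx2 i e he hi
    obtain ⟨g₁, hg₁⟩ := h12.exists_smul he hi hne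
    obtain ⟨g₃, hg₃⟩ := h32.exists_smul he hi hne
    obtain ⟨c, hc⟩ := Function.ne_iff.1 hne
    have hg₁0 : g₁ ≠ 0 := by
      rintro rfl
      exact hx1 i e he hi (by rw [hg₁, zero_smul])
    have hg₃0 : g₃ ≠ 0 := by
      rintro rfl
      exact hx3 i e he hi (by rw [hg₃, zero_smul])
    have h1 := hK i e x he hi hx2 c
    rw [hg₁, hg₃, zero_mul] at h1
    simp only [Pi.smul_apply, smul_eq_mul] at h1
    have hc' : W₂ i e (e x) c ≠ 0 := hc
    have h2 : (g₁ * W₂ i e (e x) c) ^ a * (g₃ * W₂ i e (e x) c) ^ b ≠ 0 :=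
      mul_ne_zero (pow_ne_zero _ (mul_ne_zero hg₁0 hc')) (pow_ne_zero _ (mul_ne_zero hg₃0 hc'))
    exact h2 h1
  · intro i e x he hi c
    have hf : ∃ᶠ y in 𝓝 x, W₁ i e (e y) c ^ a * W₃ i e (e y) c ^ b -
        C * W₂ i e (e y) c ^ (a + b) = 0 := by
      have h1 : ∃ᶠ y in 𝓝 x, Nz L W₂ y := mem_closure_iff_frequently.1 (h₂.dense n₂ x)
      refine (h1.and_eventually ((at_eventually he).and ((L.isOpen i).mem_nhds hi))).mono ?_
      rintro y ⟨hy, hey, hiy⟩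
      rw [hK i e y hey hiy hy c, sub_self]
    have hct : ∀ (W : ι → Chart d X → Cm d → B → ℂ) {m : ℕ} (_ : IsSec L Λ m W),
        ContinuousAt (fun y => W i e (e y) c) x := fun W m hW =>
      ContinuousAt.comp (g := fun z => W i e z c) (hW.holo i e x he hi c).continuousAt
        (e.continuousAt he.2)
    have hcont : ContinuousAt (fun y => W₁ i e (e y) c ^ a * W₃ i e (e y) c ^ b -
        C * W₂ i e (e y) c ^ (a + b)) x :=
      (((hct W₁ h₁).pow a).mul ((hct W₃ h₃).pow b)).sub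
        (continuousAt_const.mul ((hct W₂ h₂).pow (a + b)))
    have := eq_zero_of_freq hcont hf
    linear_combination this

end rankone

end Vale.Agent.P301.H724
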