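import Vale.Agent.P301.H599.Stmt
import Mathlib.LinearAlgebra.Matrix.Determinant.Basic
import Mathlib.Analysis.Analytic.Uniqueness

/-! # Sections of `V ⊗ L^m` and meromorphic functions -/

open scoped Manifold ContDiff ComplexOrder Topology
open Filter Metric Set

noncomputable section

namespace Vale.Agent.P301.H724

open Vale.Agent.P272.K Vale.Agent.P301.H599

variable {d : ℕ} {X : Type} [TopologicalSpace X] [ChartedSpace (Cm d) X] {ι : Type}

/-- `s` is a holomorphic section of `V ⊗ L^m`, where `V` is the holomorphic vector bundle whose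
sections are the families `v e` of vector functions in the charts `e` with
`v e = Λ e e' * v e'`. -/
structure IsSec {A : Type} [Fintype A] (L : LineBundle d X ι)
    (Λ : Chart d X → Chart d X → X → Matrix A A ℂ) (m : ℕ)
    (s : ι → Chart d X → Cm d → A → ℂ) : Prop where
  holo : ∀ i e x, At e x → x ∈ L.U i → ∀ a, AnalyticAt ℂ (fun z => s i e z a) (e x)
  chL : ∀ i j e x, At e x → x ∈ L.U i → x ∈ L.U j →
    s i e (e x) = L.g i j x ^ m • s j e (e x)
  chV : ∀ i e e' x, At e x → At e' x → x ∈ L.U i →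
    s i e (e x) = (Λ e e' x).mulVec (s i e' (e' x))

variable (d X) in
/-- A meromorphic function on `X`, given by the quotients `a i / b i` of holomorphic functions on
the members `V i` of an open cover; `b i` does not vanish identically on any nonempty open subset
of `V i`. -/
structure Mero (κ : Type) where
  V : κ → Set X
  isOpen : ∀ i, IsOpen (V i)
  cover : ∀ x, ∃ i, x ∈ V i
  a : κ → X → ℂ
  b : κ → X → ℂ
  holo_a : ∀ i (e : Chart d X) x, At e x → x ∈ V i → AnalyticAt ℂ (fun z => a i (e.symm z)) (e x)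
  holo_b : ∀ i (e : Chart d X) x, At e x → x ∈ V i → AnalyticAt ℂ (fun z => b i (e.symm z)) (e x)
  nz : ∀ i x, x ∈ V i → ∃ᶠ y in 𝓝 x, b i y ≠ 0
  compat : ∀ i j x, x ∈ V i → x ∈ V j → a i x * b j x = a j x * b i x

/-- The meromorphic function is constant. -/
def Mero.IsConst {κ : Type} (M : Mero d X κ) : Prop :=
  ∃ c : ℂ, ∀ i x, x ∈ M.V i → M.a i x = c * M.b i x

variable (d X) in
/-- Every meromorphic function on `X` is constant. -/
def NoMero : Prop := ∀ (κ : Type) (M : Mero d X κ), M.IsConst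

/-- The line bundle `L^k` has a nonzero holomorphic section. -/
def HasSec (L : LineBundle d X ι) (k : ℕ) : Prop :=
  ∃ f : ι → X → ℂ, (∀ i (e : Chart d X) x, At e x → x ∈ L.U i →
      AnalyticAt ℂ (fun z => f i (e.symm z)) (e x)) ∧
    (∀ i j x, x ∈ L.U i → x ∈ L.U j → f i x = L.g i j x ^ k * f j x) ∧
    ∃ i x, x ∈ L.U i ∧ f i x ≠ 0

section general

variable {A : Type} [Fintype A] {L : LineBundle d X ι}
  {Λ : Chart d X → Chart d X → X → Matrix A A ℂ} {m : ℕ} {s : ι → Chart d X → Cm d → A → ℂ}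

theorem at_chartAt (x : X) : At (chartAt (Cm d) x) x := ⟨chart_mem_atlas _ _, mem_chart_source _ _⟩

theorem at_eventually {e : Chart d X} {x : X} (h : At e x) : ∀ᶠ y in 𝓝 x, At e y := by
  filter_upwards [e.open_source.mem_nhds h.2] with y hy using ⟨h.1, hy⟩

/-- The section `s` does not vanish at `x`. -/
def Nz (L : LineBundle d X ι) (s : ι → Chart d X → Cm d → A → ℂ) (x : X) : Prop :=
  ∀ i e, At e x → x ∈ L.U i → s i e (e x) ≠ 0

theorem IsSec.nz (hs : IsSec L Λ m s) {i : ι} {e : Chart d X} {x : X} (he : At e x)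
    (hi : x ∈ L.U i) (h : s i e (e x) ≠ 0) : Nz L s x := by
  intro j e' he' hj h0
  apply h
  rw [hs.chV i e e' x he he' hi, hs.chL i j e' x he' hi hj, h0]
  simp

theorem IsSec.zero_of (hs : IsSec L Λ m s) {i j : ι} {e e' : Chart d X} {x : X} (he : At e x)
    (he' : At e' x) (hi : x ∈ L.U i) (hj : x ∈ L.U j) (h : s i e (e x) = 0) :
    s j e' (e' x) = 0 := by
  by_contra h1
  exact hs.nz he' hj h1 i e he hi h

theorem nz_iff (hs : IsSec L Λ m s) {x : X} : Nz L s x ↔
    s (L.cover x).choose (chartAt (Cm d) x) (chartAt (Cm d) x x) ≠ 0 :=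
  ⟨fun h => h _ _ (at_chartAt x) (L.cover x).choose_spec,
    fun h => hs.nz (at_chartAt x) (L.cover x).choose_spec h⟩

/-- Analyticity of the components on the part of the chart where everything is defined. -/
theorem IsSec.analyticOnNhd (hs : IsSec L Λ m s) {e : Chart d X} (he : e ∈ atlas (Cm d) X) (i : ι)
    (a : A) : AnalyticOnNhd ℂ (fun z => s i e z a) (e.target ∩ e.symm ⁻¹' L.U i) := by
  intro z hz
  have h1 : At e (e.symm z) := ⟨he, e.map_target hz.1⟩
  have h2 := hs.holo i e (e.symm z) h1 hz.2 a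
  rwa [e.right_inv hz.1] at h2

theorem isOpen_dom (L : LineBundle d X ι) (e : Chart d X) (i : ι) :
    IsOpen (e.target ∩ e.symm ⁻¹' L.U i) :=
  e.isOpen_inter_preimage_symm (L.isOpen i)

theorem IsSec.isOpen_nz (hs : IsSec L Λ m s) : IsOpen {x | Nz L s x} := by
  rw [isOpen_iff_mem_nhds]
  intro x hx
  obtain ⟨i, hi⟩ := L.cover x
  set e := chartAt (Cm d) x with he
  have hex : At e x := at_chartAt x
  have h1 : s i e (e x) ≠ 0 := hx i e hex hi
  obtain ⟨a, ha⟩ := Function.ne_iff.1 h1
  have h2 : ContinuousAt (fun z => s i e z a) (e x) := (hs.holo i e x hex hi a).continuousAt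
  have h3 : ContinuousAt (fun y => s i e (e y) a) x :=
    ContinuousAt.comp (g := fun z => s i e z a) h2 (e.continuousAt hex.2)
  have h4 : ∀ᶠ y in 𝓝 x, s i e (e y) a ≠ 0 := h3.eventually_ne ha
  filter_upwards [h4, at_eventually hex, (L.isOpen i).mem_nhds hi] with y hy hey hiy
  exact hs.nz hey hiy fun h0 => hy (by rw [h0]; rfl)

/-- A small ball in a chart. -/
theorem exists_ball (L : LineBundle d X ι) {e : Chart d X} {x : X} {i : ι} (he : At e x)
    (hi : x ∈ L.U i) : ∃ R : ℝ, 0 < R ∧ ball (e x) R ⊆ e.target ∩ e.symm ⁻¹' L.U i := by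
  have h1 : e.target ∩ e.symm ⁻¹' L.U i ∈ 𝓝 (e x) := by
    refine (isOpen_dom L e i).mem_nhds ⟨e.map_source he.2, ?_⟩
    show e.symm (e x) ∈ L.U i
    rwa [e.left_inv he.2]
  exact Metric.mem_nhds_iff.1 h1

/-- The identity theorem for sections. -/
theorem IsSec.dense [PreconnectedSpace X] (hs : IsSec L Λ m s) (hne : ∃ x, Nz L s x) :
    Dense {x | Nz L s x} := by
  set Z : Set X := {x | ∀ᶠ y in 𝓝 x, ¬ Nz L s y} with hZ
  have hZo : IsOpen Z := by
    rw [isOpen_iff_mem_nhds]
    intro x hx
    exact Filter.Eventually.eventually_nhds hx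
  have hZc : IsClosed Z := by
    rw [← closure_subset_iff_isClosed]
    intro x hx
    obtain ⟨i, hi⟩ := L.cover x
    set e := chartAt (Cm d) x with he
    have hex : At e x := at_chartAt x
    obtain ⟨R, hR, hb⟩ := exists_ball L hex hi
    have hN : e.source ∩ e ⁻¹' ball (e x) R ∈ 𝓝 x := by
      refine inter_mem (e.open_source.mem_nhds hex.2) ?_
      exact (e.continuousAt hex.2).preimage_mem_nhds (ball_mem_nhds _ hR)
    obtain ⟨y, hyN, hyZ⟩ := mem_closure_iff_nhds.1 hx _ hN
    have hyb : e y ∈ ball (e x) R := hyN.2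
    have hey : At e y := ⟨hex.1, hyN.1⟩
    have hz : ∀ a, EqOn (fun z => s i e z a) 0 (ball (e x) R) := by
      intro a
      refine ((hs.analyticOnNhd hex.1 i a).mono hb).eqOn_zero_of_preconnected_of_eventuallyEq_zero
        (convex_ball _ _).isPreconnected hyb ?_
      have h1 : ∀ᶠ z in 𝓝 (e y), ¬ Nz L s (e.symm z) := by
        have hc : ContinuousAt e.symm (e y) := e.continuousAt_symm (e.map_source hyN.1)
        have h2 : Tendsto e.symm (𝓝 (e y)) (𝓝 y) := by
          have := hc.tendsto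
          rwa [e.left_inv hyN.1] at this
        exact h2.eventually hyZ
      filter_upwards [h1, isOpen_ball.mem_nhds hyb] with z hz hzb
      by_contra hne'
      have hzt := hb hzb
      apply hz
      refine hs.nz (i := i) (e := e) ⟨hex.1, e.map_target hzt.1⟩ hzt.2 ?_
      rw [e.right_inv hzt.1]
      intro h0
      apply hne'
      simp [h0]
    show ∀ᶠ y in 𝓝 x, ¬ Nz L s y
    filter_upwards [hN, (L.isOpen i).mem_nhds hi] with w hw hwi hnz
    have h3 : At e w := ⟨hex.1, hw.1⟩
    refine hnz i e h3 hwi ?_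
    funext a
    exact hz a hw.2
  rcases isClopen_iff.1 ⟨hZc, hZo⟩ with h | h
  · intro x
    rw [mem_closure_iff_frequently]
    have h1 : x ∉ Z := by rw [h]; exact notMem_empty x
    intro h2
    exact h1 h2
  · exfalso
    obtain ⟨x, hx⟩ := hne
    have : x ∈ Z := by rw [h]; exact mem_univ x
    exact this.self_of_nhds hx

end general

end Vale.Agent.P301.H724
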