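import Vale.Agent.P301.H862.KZero
import Vale.Agent.P301.H599.CY5
import Vale.Agent.P301.H794.CYMain
import Vale.Agent.P301.H724.Ten

/-! # Holomorphic forms with values in the powers of an invariant line bundle

If `Σ (-1)^p h⁰(Ω^p) ≠ 0`, then for the line bundle `L` of a parabolic automorphism there is some
`p` such that `H⁰(Ω^p ⊗ L^m) ≠ 0` for arbitrarily large `m`. -/

open scoped Manifold ContDiff ComplexOrder Topology Matrix ENNReal
open Filter Metric Set MeasureTheory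

set_option linter.all false

noncomputable section

namespace Vale.Agent.P301.H724

open Vale.Agent.P272.K Vale.Agent.P278.H837 Vale.Agent.P299.IX
open Vale.Agent.P301.H599 Vale.Agent.P301.H862 Vale.Agent.P299.H954

variable {d : ℕ} {X : Type} [TopologicalSpace X] [ChartedSpace (Cm d) X]
variable {ι : Type} {L : LineBundle d X ι} {α : Type*}
variable [IsManifold 𝓘(ℂ, Cm d) ω X] [CompactSpace X] [T2Space X]

/-- The limits of almost orthonormal approximate kernel elements with respect to the metrics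
`ρ₀ + v N` are linearly independent holomorphic sections. -/
theorem lim_linInd (l : Ultrafilter α)
    {w : Fm d X} (hw : IsKahler w) {ρ₀ : ι → X → ℝ} (hρ₀ : IsMetric L ρ₀)
    {v : α → X → ℝ} (hv : ∀ N, Smooth (d := d) (v N)) {C1 : ℝ} (hvC : ∀ N x, v N x ≤ C1)
    (hexp : ∀ e ∈ atlas (Cm d) X, ∀ K : Set (Cm d), IsCompact K → K ⊆ e.target →
      ∃ B : ℝ≥0∞, B ≠ ⊤ ∧ ∀ N,
        ∫⁻ z in K, ENNReal.ofReal (Real.exp (-((2 * d + 1) * v N (e.symm z)))) ≤ B)
    {ε : α → ℝ} (hε0 : ∀ N, 0 ≤ ε N) (hε : Tendsto ε l (𝓝 0))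
    (hcurv : ∀ N, ∀ i (e : Chart d X) x, At e x → x ∈ L.U i →
      (cHess (fun z => ρ₀ i (e.symm z) + v N (e.symm z)) (e x) +
        ((ε N : ℝ) : ℂ) • w e (e x)).PosSemidef)
    {r : ℕ} {g : α → Fin r → H862.Fam d X ι} (hg : ∀ N c, H862.IsSec L (g N c))
    {η : α → ℝ} (hη : Tendsto η l (𝓝 0)) (hη1 : ∀ N, η N ≤ 1)
    (horth : ∀ N c c', ‖H862.ip L (fun i x => ρ₀ i x + v N x) w (g N c) (g N c') -
      (if c = c' then 1 else 0)‖ ≤ η N)
    {δ : α → ℝ} (hδ : Tendsto δ l (𝓝 0)) (hgk : ∀ N c,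
      (H862.ip L (fun i x => ρ₀ i x + v N x) w (DX (fun i x => ρ₀ i x + v N x) (g N c))
        (DX (fun i x => ρ₀ i x + v N x) (g N c))).re +
      (H862.ip L (fun i x => ρ₀ i x + v N x) w (dX w (g N c)) (dX w (g N c))).re ≤ δ N) :
    ∃ u : Fin r → H862.Fam d X ι, (∀ c, H897.IsHol L (u c)) ∧
      (∀ c (I : FI d), (∀ N i e x, At e x → x ∈ L.U i → g N c i e (e x) I = 0) →
        ∀ i e x, At e x → x ∈ L.U i → u c i e (e x) I = 0) ∧
      H724.LinInd L u := by
  have hρN : ∀ N, IsMetric L (fun i x => ρ₀ i x + v N x) := fun N =>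
    H897.IsMetric.add hρ₀ (hv N)
  have hgn : ∀ N c, (H862.ip L (fun i x => ρ₀ i x + v N x) w (g N c) (g N c)).re ≤ 2 := by
    intro N c
    have h1 := horth N c c
    rw [if_pos rfl] at h1
    have h2 := (Complex.abs_re_le_norm _).trans h1
    rw [Complex.sub_re, Complex.one_re, abs_le] at h2
    linarith [hη1 N]
  have hgrad : ∀ c, Tendsto (fun N => (intC L
      (gradX (fun i x => ρ₀ i x + v N x) w (g N c) (g N c))).re) l (𝓝 0) := by
    intro c
    have h1 : Tendsto (fun N => δ N + ε N * d * 2) l (𝓝 (0 + 0 * d * 2)) :=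
      hδ.add ((hε.mul_const _).mul_const _)
    have h2 : (0 : ℝ) + 0 * d * 2 = 0 := by ring
    rw [h2] at h1
    refine tendsto_of_tendsto_of_tendsto_of_le_of_le tendsto_const_nhds h1 (fun N => ?_)
      fun N => ?_
    · exact intC_re_nonneg fun i e x hx _ => H897.gradX_nonneg hw _ hx
    · have h3 := H794.intC_grad_le hw (hρN N) (hε0 N) (hcurv N) (hg N c)
      have h4 : ε N * d * (H862.ip L (fun i x => ρ₀ i x + v N x) w (g N c) (g N c)).re ≤
          ε N * d * 2 :=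
        mul_le_mul_of_nonneg_left (hgn N c) (mul_nonneg (hε0 N) (Nat.cast_nonneg d))
      have h5 := hgk N c
      show (intC L (gradX (fun i x => ρ₀ i x + v N x) w (g N c) (g N c))).re ≤ _
      linarith
  have key := fun c => H897.lim_main hw hρ₀ l hv hvC (g := fun N => g N c) (fun N => hg N c)
    (M := 2) (fun N => hgn N c) (hgrad c)
  choose u hu hK1 hI hlast using key
  refine ⟨u, hu, fun c I => hI c I, ?_⟩
  refine H794.linInd_of_lim (l := (l : Filter α)) hw (Eventually.of_forall hρN)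
    (Eventually.of_forall hg) (fun c => (hu c).isSec) (fun c => hlast c hexp) ?_
  intro c c'
  rw [tendsto_iff_norm_sub_tendsto_zero]
  exact squeeze_zero (fun _ => norm_nonneg _) (fun N => horth N c c') hη

variable {w : Fm d X} {ρ : ι → X → ℝ} {F : Auto d X} {c : ℝ} {u h : X → ℝ}

/-- A nonzero holomorphic form with values in `L^{m k0}`, `m ≥ 1`. -/
theorem exists_form [ConnectedSpace X] (D : Dat F w L ρ c u h) (hχ : HB.chi0 d X ≠ 0) (k0 : ℕ) :
    ∃ m p : ℕ, 1 ≤ m ∧ p ≤ d ∧ ∃ v : H862.Fam d X ι, H897.IsHol (powL L (m * k0)) v ∧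
      (∀ i e x, At e x → x ∈ L.U i → ∀ I : FI d, I.card ≠ p → v i e (e x) I = 0) ∧
      ∃ i e x, At e x ∧ x ∈ L.U i ∧ v i e (e x) ≠ 0 := by
  classical
  have hw := D.kahler
  have hρ := D.metric
  have hf : Smooth (d := d) (fun x => u x / c) := by
    have h1 : (fun x => u x / c) = fun x => (1 / c) * u x := by funext x; ring
    rw [h1]; exact D.su.const_mul (1 / c)
  obtain ⟨A, C₀, C₁, C₂, hA, hfam⟩ := H794.exists_fam D hf
  obtain ⟨B, hB0, hB⟩ := exists_B F D.kahler D.metric D.cpos D.su D.dd D.sh D.pdd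
  set U : ℕ → X → ℝ := fun N x => UU F h c (N + 1) x + u x / c with hU
  have hUs : ∀ N, Smooth (d := d) (U N) := fun N => (hfam (N + 1) (by omega)).smooth
  have hUC : ∀ N x, U N x ≤ C₀ := fun N => (hfam (N + 1) (by omega)).upper
  have hmet : ∀ N, IsMetric L (fun i x => ρ i x + U N x) := fun N =>
    H897.IsMetric.add hρ (hUs N)
  have hcurv : ∀ N i (e : Chart d X) x, At e x → x ∈ L.U i →
      (cHess (fun z => ρ i (e.symm z) + U N (e.symm z)) (e x) +
        ((B / (N + 1 : ℕ) : ℝ) : ℂ) • w e (e x)).PosSemidef := by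
    intro N i e x hx hi
    have h1 := hB (N + 1) (by omega) i e x hx hi
    have e1 : (fun z => (2 / c) * (S3 F h (N + 1) (e.symm z) / ((N + 1 : ℕ) : ℝ) ^ 2) +
        (ρ i (e.symm z) + u (e.symm z) / c)) = fun z => ρ i (e.symm z) + U N (e.symm z) := by
      funext z
      simp only [hU, UU]
      ring
    rw [e1] at h1
    exact h1
  obtain ⟨M, hM⟩ := exists_forms_chi L k0 hχ
  have hstep : ∀ N : ℕ, ∃ m p : ℕ, 1 ≤ m ∧ m ≤ M ∧ p ≤ d ∧ ∃ g : Fam d X ι,
      H862.IsSec (powL L (m * k0)) g ∧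
      (∀ i e x, At e x → x ∈ L.U i → ∀ I : FI d, I.card ≠ p → g i e (e x) I = 0) ∧
      ‖ip (powL L (m * k0)) (fun i x => (m * k0 : ℕ) * (ρ i x + U N x)) w g g - 1‖ ≤
        1 / ((N : ℝ) + 1) ∧
      (ip (powL L (m * k0)) (fun i x => (m * k0 : ℕ) * (ρ i x + U N x)) w
          (DX (fun i x => (m * k0 : ℕ) * (ρ i x + U N x)) g)
          (DX (fun i x => (m * k0 : ℕ) * (ρ i x + U N x)) g)).re +
        (ip (powL L (m * k0)) (fun i x => (m * k0 : ℕ) * (ρ i x + U N x)) w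
          (dX w g) (dX w g)).re ≤ 1 / ((N : ℝ) + 1) := by
    intro N
    obtain ⟨m, hm1, hm2, σ, r, hr, hg⟩ := hM _ (hmet N) w hw (1 / ((N : ℝ) + 1)) (by positivity)
    have h1 : 0 < (∑ p ∈ Finset.range (d + 1), if ((-1) ^ p = σ) then r p else 0) :=
      lt_of_lt_of_le (Int.natAbs_pos.2 hχ) hr
    obtain ⟨p, hp, hp1⟩ := Finset.exists_ne_zero_of_sum_ne_zero h1.ne'
    have hps : (-1 : ℤˣ) ^ p = σ := by
      by_contra h2
      exact hp1 (if_neg h2)
    rw [if_pos hps] at hp1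
    obtain ⟨g, hg1, hg2, hg3, hg4⟩ := hg p hp hps
    have hrp : 0 < r p := Nat.pos_of_ne_zero hp1
    refine ⟨m, p, hm1, hm2, by simpa [Nat.lt_succ_iff] using hp, g ⟨0, hrp⟩, hg1 _, hg2 _, ?_,
      hg4 _⟩
    have h3 := hg3 ⟨0, hrp⟩ ⟨0, hrp⟩
    rwa [if_pos rfl] at h3
  choose m p hm1 hm2 hp g hg1 hg2 hg3 hg4 using hstep
  -- pigeonhole
  obtain ⟨⟨m₀, p₀⟩, hinf⟩ := Finite.exists_infinite_fiber
    (fun N : ℕ => ((⟨m N, Nat.lt_succ_of_le (hm2 N)⟩, ⟨p N, Nat.lt_succ_of_le (hp N)⟩) :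
      Fin (M + 1) × Fin (d + 1)))
  set S : Set ℕ := (fun N : ℕ => ((⟨m N, Nat.lt_succ_of_le (hm2 N)⟩,
    ⟨p N, Nat.lt_succ_of_le (hp N)⟩) : Fin (M + 1) × Fin (d + 1))) ⁻¹' {(m₀, p₀)} with hS
  haveI : Infinite S := hinf
  have hSm : ∀ N : S, m N = m₀ ∧ p N = p₀ := by
    intro N
    have h1 : ((⟨m N, Nat.lt_succ_of_le (hm2 N)⟩, ⟨p N, Nat.lt_succ_of_le (hp N)⟩) :
      Fin (M + 1) × Fin (d + 1)) = (m₀, p₀) := N.2
    constructor
    · rw [← congrArg (fun q => (q.1 : ℕ)) h1]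
    · rw [← congrArg (fun q => (q.2 : ℕ)) h1]
  set l : Ultrafilter S := Filter.hyperfilter S with hl
  have hval : Tendsto (fun N : S => (N : ℕ)) l atTop := by
    rw [← Nat.cofinite_eq_atTop]
    exact (Subtype.val_injective.tendsto_cofinite).mono_left (Filter.hyperfilter_le_cofinite)
  obtain ⟨N₀⟩ : Nonempty S := inferInstance
  have hm01 : 1 ≤ (m₀ : ℕ) := by rw [← (hSm N₀).1]; exact hm1 _
  have hp0 : (p₀ : ℕ) ≤ d := Nat.le_of_lt_succ p₀.2
  set q : ℕ := m₀ * k0 with hq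
  have hinv : Tendsto (fun N : S => 1 / (((N : ℕ) : ℝ) + 1)) l (𝓝 0) :=
    tendsto_one_div_add_atTop_nhds_zero_nat.comp hval
  have hwt : ∀ N : ℕ, (fun (i : ι) (x : X) => ((q : ℕ) : ℝ) * (ρ i x + U N x)) =
      fun i x => (q : ℝ) * ρ i x + q * U N x := fun N => by funext i x; ring
  obtain ⟨v, hv1, hv2, hv3⟩ := lim_linInd (L := powL L q) (α := S) l hw (powL_metric hρ q)
    (v := fun N x => q * U N x) (fun N => (hUs N).const_mul q) (C1 := q * |C₀|)
    (fun N x => mul_le_mul_of_nonneg_left ((hUC N x).trans (le_abs_self _)) (Nat.cast_nonneg q))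
    (fun e he K hK hKe => by
      obtain ⟨B', hB', hB''⟩ := H794.Dat_exp_bound D hf (p := (2 * d + 1) * q) (by positivity)
        he hK hKe
      refine ⟨B', hB', fun N => ?_⟩
      have h1 := hB'' ((N : ℕ) + 1) (by omega)
      refine le_trans (le_of_eq ?_) h1
      refine lintegral_congr fun z => ?_
      congr 3
      simp only [hU]
      ring)
    (ε := fun N : S => (q : ℝ) * B * (1 / (((N : ℕ) : ℝ) + 1))) (fun N => by positivity)
    (by simpa using hinv.const_mul ((q : ℝ) * B))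
    (fun N i e x hx hi => by
      have h1 := hcurv N i e x hx hi
      have h2 := h1.smul (a := (q : ℂ)) (by exact_mod_cast Nat.cast_nonneg q)
      have s2 : ContDiffAt ℝ 2 (fun z => ρ i (e.symm z) + U N (e.symm z)) (e x) :=
        ((hmet N).smooth i e x hx hi).of_le (by norm_cast)
      have e1 : (fun z => (q : ℝ) * ρ i (e.symm z) + q * U N (e.symm z)) =
          fun z => (q : ℝ) * (ρ i (e.symm z) + U N (e.symm z)) := by funext z; ring
      have e2 : cHess (fun z => (q : ℝ) * (ρ i (e.symm z) + U N (e.symm z))) (e x) =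
          (q : ℂ) • cHess (fun z => ρ i (e.symm z) + U N (e.symm z)) (e x) := by
        have := cHess_const_mul (q : ℝ) s2
        simpa using this
      show (cHess (fun z => (q : ℝ) * ρ i (e.symm z) + q * U N (e.symm z)) (e x) + _).PosSemidef
      rw [e1, e2]
      have e3 : (((q : ℝ) * B * (1 / (((N : ℕ) : ℝ) + 1)) : ℝ) : ℂ) • w e (e x) =
          (q : ℂ) • (((B / (((N : ℕ) + 1 : ℕ) : ℝ) : ℝ) : ℂ) • w e (e x)) := by
        rw [smul_smul]
        congr 1
        push_cast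
        ring
      rw [e3, ← smul_add]
      exact h2)
    (r := 1) (g := fun N _ => g N)
    (fun N _ => by
      have h1 := hg1 N
      rw [(hSm N).1] at h1
      exact h1)
    (η := fun N : S => 1 / (((N : ℕ) : ℝ) + 1)) hinv
    (fun N => by
      rw [div_le_one (by positivity)]
      have : (0 : ℝ) ≤ ((N : ℕ) : ℝ) := Nat.cast_nonneg _
      linarith)
    (fun N a b => by
      have h1 := hg3 N
      rw [(hSm N).1] at h1
      rw [if_pos (Subsingleton.elim a b)]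
      have h2 := hwt N
      simp only [hq] at h2 h1 ⊢
      rw [h2] at h1
      exact h1)
    (δ := fun N : S => 1 / (((N : ℕ) : ℝ) + 1)) hinv
    (fun N a => by
      have h1 := hg4 N
      rw [(hSm N).1] at h1
      have h2 := hwt N
      simp only [hq] at h2 h1 ⊢
      rw [h2] at h1
      exact h1)
  refine ⟨m₀, p₀, hm01, hp0, v 0, hv1 0, ?_, ?_⟩
  · intro i e x hx hi I hI
    refine hv2 0 I (fun N i e x hx hi => ?_) i e x hx hi
    have h1 := hg2 N
    rw [(hSm N).2] at h1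
    exact h1 i e x hx hi I hI
  · by_contra hcon
    push Not at hcon
    have h1 := hv3 (fun _ => 1) (fun i e x hx hi => by simp [hcon i e x hx hi])
    have h2 := congrFun h1 0
    simp at h2

/-- Nonzero holomorphic `L^m`-valued forms for arbitrarily large `m`. -/
theorem exists_form_large [ConnectedSpace X] (D : Dat F w L ρ c u h) (hχ : HB.chi0 d X ≠ 0)
    (N : ℕ) : ∃ m p : ℕ, N ≤ m ∧ p ≤ d ∧ ∃ v : H862.Fam d X ι, H724.IsSec L H897.LamF m v ∧
      Homog L p v ∧ ∃ x, Nz L v x := by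
  obtain ⟨m, p, hm, hp, v, hv, hh, i, e, x, hx, hi, hne⟩ := exists_form D hχ (N + 1)
  have h1 : N ≤ m * (N + 1) := by nlinarith
  exact ⟨m * (N + 1), p, h1, hp, v, H794.isSec_of_isHol hv, hh, x,
    (H794.isSec_of_isHol hv).nz hx hi hne⟩

/-- The same for a fixed degree `p`. -/
theorem exists_form_degree [ConnectedSpace X] (D : Dat F w L ρ c u h) (hχ : HB.chi0 d X ≠ 0) :
    ∃ p : ℕ, p ≤ d ∧ ∀ N : ℕ, ∃ m : ℕ, N ≤ m ∧ ∃ v : H862.Fam d X ι,
      H724.IsSec L H897.LamF m v ∧ Homog L p v ∧ ∃ x, Nz L v x := by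
  choose m p hm hp v hv using fun N => exists_form_large D hχ N
  obtain ⟨p₀, hinf⟩ := Finite.exists_infinite_fiber
    (fun N : ℕ => (⟨p N, Nat.lt_succ_of_le (hp N)⟩ : Fin (d + 1)))
  refine ⟨p₀, Nat.le_of_lt_succ p₀.2, fun N => ?_⟩
  have h1 : (((fun N : ℕ => (⟨p N, Nat.lt_succ_of_le (hp N)⟩ : Fin (d + 1))) ⁻¹' {p₀}) :
      Set ℕ).Infinite := Set.infinite_coe_iff.1 hinf
  obtain ⟨N', hN', hle⟩ := h1.exists_gt N
  have h2 : p N' = p₀ := congrArg Fin.val hN'
  refine ⟨m N', hle.le.trans (hm N'), v N', (hv N').1, ?_, (hv N').2.2⟩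
  rw [← h2]
  exact (hv N').2.1

/-- The same in terms of tensors. -/
theorem exists_tensor_degree [ConnectedSpace X] (D : Dat F w L ρ c u h)
    (hχ : HB.chi0 d X ≠ 0) :
    ∃ p : ℕ, p ≤ d ∧ ∀ N : ℕ, ∃ m : ℕ, N ≤ m ∧ ∃ s : ι → Chart d X → Cm d → (Fin p → Fin d) → ℂ,
      H724.IsSec L (LamT d X p) m s ∧ ∃ x, Nz L s x := by
  obtain ⟨p, hp, h⟩ := exists_form_degree D hχ
  refine ⟨p, hp, fun N => ?_⟩
  obtain ⟨m, hm, v, hv, hh, x, hx⟩ := h N
  have hv' : IsSec L LamE m v := hv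
  refine ⟨m, hm, _, isSec_ten hv' p, x, ?_⟩
  obtain ⟨i, hi⟩ := L.cover x
  refine (isSec_ten hv' p).nz (at_chartAt x) hi fun h0 => hx i _ (at_chartAt x) hi ?_
  funext K
  by_cases hK : K.card = p
  · exact eq_zero_of_ten (fun I => congrFun h0 I) hK
  · exact hh i _ x (at_chartAt x) hi K hK

end Vale.Agent.P301.H724
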