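import Vale.Agent.P301.H724.Quot

/-! # Proportional sections of exterior powers, of arbitrarily large weights -/

open scoped Manifold ContDiff ComplexOrder Topology
open Filter Metric Set

noncomputable section

namespace Vale.Agent.P301.H724

open Vale.Agent.P272.K Vale.Agent.P301.H599

variable {d : ℕ} {X : Type} [TopologicalSpace X] [ChartedSpace (Cm d) X] {ι : Type}

/-- (K') If `V ⊗ L^m` has nonzero sections for arbitrarily large `m`, then for some `r` there are
nonzero sections `W` of `Λ^r V ⊗ L^M` for arbitrarily large `M`, any two of which are pointwise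
proportional. They are vectors of minors of `r`-tuples of sections of `V ⊗ L^m`. -/
theorem exists_prop_family [ConnectedSpace X] {A : Type} [Fintype A]
    {L : LineBundle d X ι} {Λ : Chart d X → Chart d X → X → Matrix A A ℂ}
    (h : ∀ N : ℕ, ∃ (m : ℕ) (s : ι → Chart d X → Cm d → A → ℂ), N ≤ m ∧ IsSec L Λ m s ∧
      ∃ x, Nz L s x) :
    ∃ (r : ℕ) (M : ℕ → ℕ) (W : ℕ → ι → Chart d X → Cm d → (Fin r → A) → ℂ), StrictMono M ∧
      (∀ n, IsSec L (lamPow r Λ) (M n) (W n)) ∧ (∀ n, ∃ x, Nz L (W n) x) ∧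
      (∀ n n', Prop2 L (W n) (W n')) ∧
      ∀ n, ∃ (m : Fin r → ℕ) (u : Fin r → ι → Chart d X → Cm d → A → ℂ),
        (∀ b, IsSec L Λ (m b) (u b)) ∧ M n = ∑ b, m b ∧ W n = wedge u := by
  obtain ⟨r, m₀, u₀, hu₀, hne₀, hmax⟩ := exists_maxRank (L := L) (Λ := Λ)
  have hlarge : ∀ N : ℕ, ∃ (m' : Fin r → ℕ) (u' : Fin r → ι → Chart d X → Cm d → A → ℂ),
      (∀ b, IsSec L Λ (m' b) (u' b)) ∧ (∃ x, Nz L (wedge u') x) ∧ N ≤ ∑ b, m' b := by
    intro N
    obtain ⟨k, v, hk, hv, hvne⟩ := h N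
    obtain ⟨m', u', h1, h2, h3⟩ := hmax.exists_large hu₀ hne₀ hv hvne
    exact ⟨m', u', h1, h2, hk.trans h3⟩
  choose m u hu hne hN using hlarge
  -- a strictly increasing sequence of weights
  let g : ℕ → ℕ := fun n => Nat.rec 0 (fun _ N => ∑ b, m N b + 1) n
  have hg : ∀ n, g (n + 1) = ∑ b, m (g n) b + 1 := fun n => rfl
  refine ⟨r, fun n => ∑ b, m (g n) b, fun n => wedge (u (g n)), ?_, fun n => isSec_wedge (hu _),
    fun n => hne _, fun n n' i e x he hi c c' => hmax.prop (hu _) (hu _) he hi c c',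
    fun n => ⟨m (g n), u (g n), hu _, rfl, rfl⟩⟩
  refine strictMono_nat_of_lt_succ fun n => ?_
  have h1 := hN (g (n + 1))
  rw [hg n] at h1
  show ∑ b, m (g n) b < ∑ b, m (g (n + 1)) b
  rw [hg n]
  omega

/-- Transition matrices of the `q`-th tensor power. -/
theorem lamPow_apply {A : Type} [Fintype A] (r : ℕ)
    (Λ : Chart d X → Chart d X → X → Matrix A A ℂ) (e e' : Chart d X) (x : X)
    (c c' : Fin r → A) : lamPow r Λ e e' x c c' = ∏ a, Λ e e' x (c a) (c' a) := rfl

/-- Uniqueness up to constants: if all meromorphic functions are constant then two proportional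
nonzero sections of the same weight are proportional with a constant factor. -/
theorem exists_const_mul [ConnectedSpace X] [IsManifold 𝓘(ℂ, Cm d) ω X] (hno : NoMero d X)
    {B : Type} [Fintype B] {L : LineBundle d X ι} {Λ : Chart d X → Chart d X → X → Matrix B B ℂ}
    {M : ℕ} {W₁ W₂ : ι → Chart d X → Cm d → B → ℂ} (h₁ : IsSec L Λ M W₁) (h₂ : IsSec L Λ M W₂)
    (n₁ : ∃ x, Nz L W₁ x) (n₂ : ∃ x, Nz L W₂ x) (h12 : Prop2 L W₁ W₂) :
    ∃ C : ℂ, C ≠ 0 ∧ ∀ i e x, At e x → x ∈ L.U i → W₁ i e (e x) = C • W₂ i e (e x) := by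
  obtain ⟨C, hC0, hC⟩ := exists_const hno h₁ h₂ h₂ n₁ n₂ n₂ h12
    (fun i e x _ _ c c' => mul_comm _ _) (a := 1) (b := 0) (by norm_num) (by ring)
  refine ⟨C, hC0, fun i e x he hi => ?_⟩
  funext c
  have := hC i e x he hi c
  simpa using this

end Vale.Agent.P301.H724
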