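import Vale.Agent.P301.H724.Indep

/-! # Linearly independent sections with vanishing wedge give a proportional pair

If `u₁, …, u_r` are `ℂ`-linearly independent sections of `V ⊗ L^m` and `u₁ ∧ … ∧ u_r = 0`, then
there are, for some `1 ≤ r' < r`, two nonzero pointwise proportional sections of
`Λ^{r'} V ⊗ L^{r' m}` which are linearly independent over `ℂ`. No hypothesis on meromorphic
functions is needed. -/

open scoped Manifold ContDiff ComplexOrder Topology
open Filter Metric Set

noncomputable section

namespace Vale.Agent.P301.H724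

open Vale.Agent.P272.K Vale.Agent.P301.H599

variable {d : ℕ} {X : Type} [TopologicalSpace X] [ChartedSpace (Cm d) X] {ι : Type}
variable {A : Type} [Fintype A] {L : LineBundle d X ι}
  {Λ : Chart d X → Chart d X → X → Matrix A A ℂ} {r : ℕ} {m : ℕ}

/-- One step: `w` is a generically independent tuple, `v` depends on it at every point, but `v, w`
are independent over `ℂ`. -/
theorem exists_not_const [ConnectedSpace X] {r : ℕ}
    {u : Fin (r + 1) → ι → Chart d X → Cm d → A → ℂ} (hu : ∀ b, IsSec L Λ m (u b))
    (hind : LinInd L u) (hz : ∀ i e x, At e x → x ∈ L.U i → wedge u i e (e x) = 0)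
    (hwne : ∃ x, Nz L (wedge fun b : Fin r => u b.succ) x) :
    ∃ k : Fin r, (∀ b, IsSec L Λ m (Function.update (fun b : Fin r => u b.succ) k (u 0) b)) ∧
      Prop2 L (wedge (Function.update (fun b : Fin r => u b.succ) k (u 0)))
        (wedge fun b : Fin r => u b.succ) ∧
      ∀ C : ℂ, ∃ i e x, At e x ∧ x ∈ L.U i ∧
        wedge (Function.update (fun b : Fin r => u b.succ) k (u 0)) i e (e x) ≠
          C • wedge (fun b : Fin r => u b.succ) i e (e x) := by
  classical
  set v := u 0 with hv
  set w : Fin r → ι → Chart d X → Cm d → A → ℂ := fun b => u b.succ with hw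
  have hws : ∀ b, IsSec L Λ m (w b) := fun b => hu b.succ
  have hvs : IsSec L Λ m v := hu 0
  have hcons : ∀ i e x, At e x → x ∈ L.U i → ∀ c' : Fin (r + 1) → A,
      mnr (Fin.cons (v i e (e x)) (fun b => w b i e (e x)) : Fin (r + 1) → A → ℂ) c' = 0 := by
    intro i e x he hi c'
    have h1 := congrFun (hz i e x he hi) c'
    have h2 : (fun b => u b i e (e x)) =
        (Fin.cons (v i e (e x)) (fun b => w b i e (e x)) : Fin (r + 1) → A → ℂ) := by
      funext b
      refine Fin.cases ?_ (fun j => ?_) b
      · simp [hv]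
      · simp [hw]
    simp only [wedge, h2, Pi.zero_apply] at h1
    exact h1
  have hsec : ∀ k : Fin r, ∀ b, IsSec L Λ m (Function.update w k v b) := by
    intro k b
    by_cases hb : b = k
    · subst hb; simpa using hvs
    · simpa [hb] using hws b
  have hupd : ∀ (k : Fin r) i e x, (fun b => Function.update w k v b i e (e x)) =
      Function.update (fun b => w b i e (e x)) k (v i e (e x)) := by
    intro k i e x
    funext b
    by_cases hb : b = k
    · subst hb; simp
    · simp [hb]
  have hprop : ∀ k : Fin r, Prop2 L (wedge (Function.update w k v)) (wedge w) := by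
    intro k i e x he hi c c'
    simp only [wedge]
    refine mnr_prop (fun b c'' => ?_) c c'
    by_cases hb : b = k
    · subst hb
      simpa using hcons i e x he hi c''
    · have := mnr_cons_repeat (fun b => w b i e (e x)) b c''
      simpa [hb] using this
  by_contra hcon
  push Not at hcon
  have hconst : ∀ k : Fin r, ∃ C : ℂ, ∀ i e x, At e x → x ∈ L.U i →
      wedge (Function.update w k v) i e (e x) = C • wedge w i e (e x) :=
    fun k => hcon k (hsec k) (hprop k)
  choose C hC using hconst
  -- the relation `v = ∑ C k • w k`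
  set t : Fin (r + 1) → ℂ := Fin.cons 1 (fun k => -C k) with ht
  have hrel := IsSec.sum_smul hu t
  have hall : ∀ i e x, At e x → x ∈ L.U i → ∑ b, t b • u b i e (e x) = 0 := by
    by_contra hne
    push Not at hne
    obtain ⟨i, e, x, he, hi, hne⟩ := hne
    have hnz : Nz L (fun i e z a => ∑ b, t b * u b i e z a) x := by
      refine hrel.nz he hi ?_
      intro h0
      apply hne
      funext a
      have := congrFun h0 a
      simpa using this
    obtain ⟨y, hy1, hy2⟩ := ((isSec_wedge hws).dense hwne).inter_open_nonempty _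
      hrel.isOpen_nz ⟨x, hnz⟩
    obtain ⟨j, hj⟩ := L.cover y
    have hey := at_chartAt (d := d) y
    set e' := chartAt (Cm d) y
    have h1 : wedge w j e' (e' y) ≠ 0 := hy2 j e' hey hj
    obtain ⟨c, hc⟩ := Function.ne_iff.1 h1
    have hc' : mnr (fun b => w b j e' (e' y)) c ≠ 0 := hc
    obtain ⟨s, hs⟩ := exists_comb hc' (hcons j e' y hey hj)
    have hsC : ∀ k, s k = C k := by
      intro k
      have h2 := congrFun (hC k j e' y hey hj) c
      simp only [wedge, hupd, Pi.smul_apply, smul_eq_mul] at h2
      rw [mnr_update_comb hs k c] at h2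
      exact mul_right_cancel₀ hc' h2
    apply hy1 j e' hey hj
    funext a
    have h3 := congrFun hs a
    simp only [Finset.sum_apply, Pi.smul_apply, smul_eq_mul] at h3
    show ∑ b, t b * u b j e' (e' y) a = 0
    rw [Fin.sum_univ_succ]
    simp only [ht, Fin.cons_zero, Fin.cons_succ, one_mul, neg_mul, Finset.sum_neg_distrib]
    show v j e' (e' y) a + -∑ k, C k * w k j e' (e' y) a = 0
    rw [h3]
    simp only [hsC]
    ring
  have h0 := congrFun (hind t hall) 0
  simp [ht] at h0

/-- **RANKPROP.** Linearly independent sections `u₁, …, u_r` of `V ⊗ L^m` with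
`u₁ ∧ … ∧ u_r = 0` give two nonzero pointwise proportional sections of
`Λ^{r'} V ⊗ L^{r' m}`, `1 ≤ r' < r`, which are not proportional over `ℂ`. -/
theorem exists_prop_pair [ConnectedSpace X] :
    ∀ {r : ℕ} {u : Fin r → ι → Chart d X → Cm d → A → ℂ}, (∀ b, IsSec L Λ m (u b)) →
      LinInd L u → (∀ i e x, At e x → x ∈ L.U i → wedge u i e (e x) = 0) →
      ∃ (r' : ℕ) (σ₀ σ₁ : ι → Chart d X → Cm d → (Fin r' → A) → ℂ), 1 ≤ r' ∧ r' < r ∧
        IsSec L (lamPow r' Λ) (r' * m) σ₀ ∧ IsSec L (lamPow r' Λ) (r' * m) σ₁ ∧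
        (∃ x, Nz L σ₀ x) ∧ (∃ x, Nz L σ₁ x) ∧ Prop2 L σ₁ σ₀ ∧
        ∀ C : ℂ, ∃ i e x, At e x ∧ x ∈ L.U i ∧ σ₁ i e (e x) ≠ C • σ₀ i e (e x) := by
  classical
  intro r
  induction r with
  | zero =>
    intro u hu _ hz
    exfalso
    obtain ⟨x⟩ : Nonempty X := inferInstance
    obtain ⟨i, hi⟩ := L.cover x
    have h1 := congrFun (hz i _ x (at_chartAt x) hi) Fin.elim0
    simp [wedge, mnr] at h1
  | succ r ih =>
    intro u hu hind hz
    set w : Fin r → ι → Chart d X → Cm d → A → ℂ := fun b => u b.succ with hw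
    have hws : ∀ b, IsSec L Λ m (w b) := fun b => hu b.succ
    have hwind : LinInd L w := by
      intro t ht
      have h1 := hind (Fin.cons 0 t) (fun i e x he hi => by
        rw [Fin.sum_univ_succ]
        simpa using ht i e x he hi)
      funext b
      have h2 := congrFun h1 b.succ
      simpa using h2
    by_cases hwne : ∃ x, Nz L (wedge w) x
    · obtain ⟨k, hk1, hk2, hk3⟩ := exists_not_const hu hind hz hwne
      have hs0 := isSec_wedge hws
      have hs1 := isSec_wedge hk1
      have hm : ∑ _b : Fin r, m = r * m := by simp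
      rw [hm] at hs0 hs1
      refine ⟨r, wedge w, wedge (Function.update w k (u 0)), ?_, Nat.lt_succ_self r, hs0, hs1,
        hwne, ?_, hk2, hk3⟩
      · exact k.pos
      · obtain ⟨i, e, x, he, hi, hne⟩ := hk3 0
        rw [zero_smul] at hne
        exact ⟨x, hs1.nz he hi hne⟩
    · have hz' : ∀ i e x, At e x → x ∈ L.U i → wedge w i e (e x) = 0 := by
        intro i e x he hi
        by_contra h0
        exact hwne ⟨x, (isSec_wedge hws).nz he hi h0⟩
      obtain ⟨r', σ₀, σ₁, h1, h2, h3⟩ := ih hws hwind hz'
      exact ⟨r', σ₀, σ₁, h1, h2.trans (Nat.lt_succ_self r), h3⟩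

end Vale.Agent.P301.H724
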