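import Vale.Agent.P301.H450.EffForms
import Vale.Agent.P301.H949.ConstAbs
import Vale.Agent.P301.H794.KapFour
import Vale.Agent.P301.H949.NoDep

/-!
# P301: limit forms, with a bound on the weight which only depends on the dimension and on `χ`
-/

open scoped Manifold ContDiff ComplexOrder Topology Matrix ComplexConjugate ENNReal
open Vale.Agent.P272.K Vale.Agent.P272.K.C2 Vale.Agent.P299.H954 Vale.Agent.P299.IX
open Vale.Agent.P301.H599 MeasureTheory Set Filter Vale.Agent.P299.H863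
open Vale.Agent.P299.IX.Fock Vale.Agent.P301.H103 Vale.Agent.P301.H862

set_option linter.unusedSectionVars false
set_option linter.all false

noncomputable section

namespace Vale.Agent.P301.H724

section approx

variable {d : ℕ} {X : Type} [TopologicalSpace X] {ι : Type} [ChartedSpace (Cm d) X]
  [IsManifold 𝓘(ℂ, Cm d) ω X] [T2Space X] [CompactSpace X]
  {L : LineBundle d X ι} {B : HB d X ι} {k0 N : ℕ}
  {i j : ι} {e e' : Chart d X} {x : X} {z : Cm d}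

/-- the bound on the weight -/
def Mbd (d : ℕ) (χ : ℤ) : ℕ := (2 * (χ.natAbs - 1) + 1) * (d + 1)

/-- a polynomial sequence takes a value of absolute value at least `|P 0|` early -/
theorem exists_large_value (P : ℕ → ℤ) (N : ℕ)
    (h : ∀ b, ∑ S : Finset (Fin N), (-1 : ℤ) ^ S.card * P (b + S.card) = 0) (h0 : P 0 ≠ 0)
    (hN : 1 ≤ N) :
    ∃ m, 1 ≤ m ∧ m ≤ (2 * ((P 0).natAbs - 1) + 1) * N ∧ (P 0).natAbs ≤ (P m).natAbs := by
  by_contra hcon
  push Not at hcon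
  have hpos : 1 ≤ (P 0).natAbs := Nat.one_le_iff_ne_zero.2 (Int.natAbs_ne_zero.2 h0)
  have h1 := H949.const_of_bdd P N h ((P 0).natAbs - 1) (fun j hj1 hj2 => by
    have h2 := hcon j hj1 hj2
    have h3 : (P j).natAbs ≤ (P 0).natAbs - 1 := by omega
    rw [Int.abs_eq_natAbs]
    exact_mod_cast h3)
  have h2 := hcon 1 le_rfl (by nlinarith)
  rw [h1 1] at h2
  exact lt_irrefl _ h2

theorem exists_approx_chi (L : LineBundle d X ι) (k0 : ℕ) {χ : ℤ} (hχ : χ ≠ 0)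
    (h0 : ∀ B : HB d X ι, (∀ s, FiniteDimensional ℂ ((B.pow 0).ell.sk s)) →
      (B.pow 0).ell.P = χ) : ∀ B : HB d X ι, B.L = L → ∀ η : ℝ, 0 < η →
    ∃ m, 1 ≤ m ∧ m ≤ Mbd d χ ∧ ∃ (σ : ℤˣ) (r : ℕ → ℕ),
      χ.natAbs ≤ (∑ p ∈ Finset.range (d + 1), if ((-1) ^ p = σ) then r p else 0) ∧
      ∀ p ∈ Finset.range (d + 1), (-1) ^ p = σ → ∃ g : Fin (r p) → (B.pow (m * k0)).S,
        (∀ a, (B.pow (m * k0)).dg p (g a) = g a) ∧
        (∀ a b, ‖(inner ℂ (g a) (g b) : ℂ) - if a = b then 1 else 0‖ ≤ η) ∧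
        ∀ a, ‖(B.pow (m * k0)).D (g a)‖ ^ 2 ≤ η := by
  intro B hB η hη
  subst hB
  obtain ⟨K⟩ := H450.exists_KS_dim B.L k0
  have hfin : ∀ m s, FiniteDimensional ℂ ((B.pow (m * k0)).ell.sk s) := fun m s =>
    (HB.index_rel K m).1 ∅ s
  have hP0 : (B.pow (0 * k0)).ell.P = χ := by
    have h1 : ∀ n, n = 0 → (∀ s, FiniteDimensional ℂ ((B.pow n).ell.sk s)) →
        (B.pow n).ell.P = χ := by
      rintro n rfl h; exact h0 B h
    exact h1 _ (zero_mul k0) (hfin 0)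
  have hrel : ∀ P : ℕ → ℤ, P = (fun m => (B.pow (m * k0)).ell.P) → ∀ b,
      ∑ S : Finset (Fin (d + 1)), (-1 : ℤ) ^ S.card * P (b + S.card) = 0 := by
    rintro P rfl b
    exact (HB.index_rel K b).2
  obtain ⟨m, hm1, hm2, hm3⟩ := exists_large_value (fun m => (B.pow (m * k0)).ell.P) (d + 1)
    (hrel _ rfl) (by show (B.pow (0 * k0)).ell.P ≠ 0; rw [hP0]; exact hχ) (by omega)
  have hm2' : m ≤ Mbd d χ := by
    rw [hP0] at hm2
    exact hm2
  have hm3' : χ.natAbs ≤ ((B.pow (m * k0)).ell.P).natAbs := by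
    rw [hP0] at hm3
    exact hm3
  obtain ⟨σ, hσ⟩ := finrank_ge (n := χ.natAbs) _ hm3'
  have := hfin m σ
  obtain ⟨r, hr1, hr2⟩ := extraction (B.pow (m * k0)).ell (B.pow (m * k0)).grading σ hη
  refine ⟨m, hm1, hm2', σ, r, ?_, hr2⟩
  rw [hr1]; exact hσ

/-- **Approximate kernels**: at least `|χ|` forms, the weight is at most `Mbd d χ * k0`. -/
theorem exists_forms_chi_eff (L : LineBundle d X ι) (k0 : ℕ) (hχ : HB.chi0 d X ≠ 0) :
    ∀ (ρ : ι → X → ℝ), IsMetric L ρ →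
      ∀ w : Chart d X → Cm d → Matrix (Fin d) (Fin d) ℂ, IsKahler w → ∀ η : ℝ, 0 < η →
      ∃ m, 1 ≤ m ∧ m ≤ Mbd d (HB.chi0 d X) ∧ ∃ (σ : ℤˣ) (r : ℕ → ℕ),
        (HB.chi0 d X).natAbs ≤
          (∑ p ∈ Finset.range (d + 1), if ((-1) ^ p = σ) then r p else 0) ∧
        ∀ p ∈ Finset.range (d + 1), (-1) ^ p = σ → ∃ g : Fin (r p) → Fam d X ι,
          (∀ a, H862.IsSec (powL L (m * k0)) (g a)) ∧
          (∀ a i e x, At e x → x ∈ L.U i → ∀ I : FI d, I.card ≠ p → g a i e (e x) I = 0) ∧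
          (∀ a b, ‖ip (powL L (m * k0)) (fun i x => (m * k0 : ℕ) * ρ i x) w (g a) (g b) -
            if a = b then 1 else 0‖ ≤ η) ∧
          ∀ a, (ip (powL L (m * k0)) (fun i x => (m * k0 : ℕ) * ρ i x) w
              (DX (fun i x => (m * k0 : ℕ) * ρ i x) (g a))
              (DX (fun i x => (m * k0 : ℕ) * ρ i x) (g a))).re +
            (ip (powL L (m * k0)) (fun i x => (m * k0 : ℕ) * ρ i x) w
              (dX w (g a)) (dX w (g a))).re ≤ η := by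
  intro ρ hρ w hw η hη
  obtain ⟨m, hm1, hm2, σ, r, hr, hg⟩ := exists_approx_chi L k0 hχ (fun B h => HB.P_zero B h)
    ⟨L, ρ, w, hρ, hw⟩ rfl η hη
  refine ⟨m, hm1, hm2, σ, r, hr, fun p hp hs => ?_⟩
  obtain ⟨g, h1, h2, h3⟩ := hg p hp hs
  refine ⟨fun a => (g a).f, fun a => (g a).isSec, fun a i e x hx hi I hI =>
    HB.deg_of_dg (h1 a) hx hi hI, fun a b => ?_, fun a => ?_⟩
  · have h4 := h2 b a
    simp only [eq_comm (a := b) (b := a)] at h4
    exact h4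
  · refine le_trans (le_of_eq ?_) (h3 a)
    rw [HB.norm_D_sq, HB.norm_sq_eq, HB.norm_sq_eq,
      HB.ipB_congr (g := (HB.Dp _ (g a)).f) (h := (HB.Dp _ (g a)).f)
        (fun i e x hx hi => HB.Dp_at (g a) hx hi) (fun i e x hx hi => HB.Dp_at (g a) hx hi),
      HB.ipB_congr (g := (HB.Dd _ (g a)).f) (h := (HB.Dd _ (g a)).f)
        (fun i e x hx hi => HB.Dd_at (g a) hx hi) (fun i e x hx hi => HB.Dd_at (g a) hx hi)]
    rfl

end approx

section limit

open Vale.Agent.P301.H794 Vale.Agent.P301.H85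

variable {d : ℕ} {X : Type} [TopologicalSpace X] [ChartedSpace (Cm d) X]
variable {ι : Type} {L : LineBundle d X ι}
variable [IsManifold 𝓘(ℂ, Cm d) ω X] [CompactSpace X] [T2Space X]
variable {w s : Fm d X} {ρ : ι → X → ℝ} {F : X → X}

/-- **Limit forms.** Linearly independent holomorphic `L^q`-valued forms of fixed parity, at least
`|χ|` in number, any `cnt d n p + 1` of those of degree `p` being dependent at every point. The
weight is at most `Mbd d χ`. -/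
theorem exists_limit_forms_eff (hw : IsKahler w) (hρ : IsMetric L ρ) {n : ℕ} (hd : d = 2 * n)
    (hn : 0 < n) (hCY : ∀ p : ℝ, 0 ≤ p → CYStatement F L ρ w n 1 p) (hχ : HB.chi0 d X ≠ 0)
    {k0 : ℕ} (hk0 : 1 ≤ k0) :
    ∃ (m : ℕ) (σ : ℤˣ) (r : ℕ → ℕ), 1 ≤ m ∧ m ≤ Mbd d (HB.chi0 d X) ∧
      (∀ p, r p ≤ (HB.chi0 d X).natAbs) ∧
      (HB.chi0 d X).natAbs ≤ (∑ p ∈ Finset.range (d + 1), if (-1) ^ p = σ then r p else 0) ∧
      ∀ p ∈ Finset.range (d + 1), (-1) ^ p = σ →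
        ∃ v : Fin (r p) → H862.Fam d X ι, (∀ a, H724.IsSec L H897.LamF (m * k0) (v a)) ∧
          (∀ a, H724.Homog L p (v a)) ∧ H724.LinInd L v ∧
          ∀ {r' : ℕ} (f : Fin r' → Fin (r p)), cnt d n p < r' →
            ∀ i (e : Chart d X) x, At e x → x ∈ L.U i →
              H724.wedge (fun a => v (f a)) i e (e x) = 0 := by
  classical
  set M : ℕ := Mbd d (HB.chi0 d X) with hMdef
  have hM := exists_forms_chi_eff L k0 hχ
  obtain ⟨δ, C, C₁, c₀, K, hδ, -, hC, hc₀, φ, τ, hA, hexp⟩ :=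
    hCY ((2 * d + 1) * ((M * k0 : ℕ) : ℝ)) (by positivity)
  set χ : ℕ := (HB.chi0 d X).natAbs with hχdef
  set ε : ℕ → ℝ := fun N => 1 / ((N : ℝ) + 1) with hε
  have hε0 : ∀ N, 0 < ε N := fun N => by positivity
  have hε1 : ∀ N, ε N ≤ 1 := fun N => by
    rw [hε]
    simp only
    rw [div_le_one (by positivity)]
    have : (0 : ℝ) ≤ N := Nat.cast_nonneg _
    linarith
  have hεm : ∀ {N N' : ℕ}, N ≤ N' → ε N' ≤ ε N := fun {N N'} h => by
    have : (N : ℝ) ≤ N' := by exact_mod_cast h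
    exact one_div_le_one_div_of_le (by positivity) (by linarith)
  have hstep : ∀ N : ℕ, ∃ (m : ℕ) (σ : ℤˣ) (r : ℕ → ℕ), 1 ≤ m ∧ m ≤ M ∧
      χ ≤ (∑ p ∈ Finset.range (d + 1), if (-1) ^ p = σ then r p else 0) ∧ (∀ p, r p ≤ χ) ∧
      ∀ p ∈ Finset.range (d + 1), (-1) ^ p = σ →
        Good L w (fun i x => ρ i x + φ (ε N) x) (m * k0) p (r p) (ε N) := by
    intro N
    obtain ⟨m, hm1, hm2, σ, r, hr, hg⟩ := hM _
      (isMetric_add hρ (hA _ (hε0 N) (hε1 N)).smooth) w hw (ε N) (hε0 N)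
    refine ⟨m, σ, fun p => min (r p) χ, hm1, hm2, sum_min_le hr, fun p => min_le_right _ _,
      fun p hp hps => ?_⟩
    exact Good.mono (hg p hp hps) (min_le_left _ _)
  choose m σ r hm1 hm2 hr hrχ hG using hstep
  obtain ⟨⟨m₀, σ₀, r₀⟩, ψ, hψ, hψc⟩ := exists_const_sub (β := Fin (M + 1) × ℤˣ ×
    (Fin (d + 1) → Fin (χ + 1))) fun N => (⟨m N, Nat.lt_succ_of_le (hm2 N)⟩, σ N,
      fun p => ⟨r N p, Nat.lt_succ_of_le (hrχ N p)⟩)
  have e1 : ∀ K, m (ψ K) = m₀ := fun K => congrArg (fun q => (q.1 : ℕ)) (hψc K)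
  have e2 : ∀ K, σ (ψ K) = σ₀ := fun K => congrArg (fun q => q.2.1) (hψc K)
  have e3 : ∀ K (p : Fin (d + 1)), r (ψ K) p = r₀ p := fun K p =>
    congrArg (fun q => ((q.2.2 p : Fin (χ + 1)) : ℕ)) (hψc K)
  have hm0M : (m₀ : ℕ) ≤ M := Nat.le_of_lt_succ m₀.2
  refine ⟨m₀, σ₀, r (ψ 0), by rw [← e1 0]; exact hm1 _, hm0M, fun p => hrχ _ _,
    by rw [← e2 0]; exact hr _, ?_⟩
  intro p hp hps
  have hpd : p < d + 1 := Finset.mem_range.1 hp
  have hrr : ∀ K, r (ψ K) p = r (ψ 0) p := fun K => by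
    rw [show p = ((⟨p, hpd⟩ : Fin (d + 1)) : ℕ) from rfl, e3 K, e3 0]
  have hm01 : 1 ≤ (m₀ : ℕ) := by rw [← e1 0]; exact hm1 _
  refine good_limit (F := F) hw hρ (ε := fun K => ε (ψ K)) (fun K => hε0 _)
    (fun K => hε1 _) ?_ (φ := fun K => φ (ε (ψ K))) (τ := fun K => τ (ε (ψ K))) (n := n)
    (by omega) (by omega) hδ hC hc₀ (fun K => hA _ (hε0 _) (hε1 _))
    (P := (2 * d + 1) * ((M * k0 : ℕ) : ℝ)) (fun e he S hS hSe => ?_) (q := m₀ * k0)
    (Nat.mul_pos hm01 hk0) ?_ (p := p) (r := r (ψ 0) p) fun K => ?_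
  · refine squeeze_zero (fun K => (hε0 _).le) (fun K => hεm (hψ K)) ?_
    exact tendsto_one_div_add_atTop_nhds_zero_nat
  · obtain ⟨B, hB, hB'⟩ := hexp e he S hS hSe
    exact ⟨B, hB, fun K => hB' _ (hε0 _) (hε1 _)⟩
  · have : ((m₀ * k0 : ℕ) : ℝ) ≤ ((M * k0 : ℕ) : ℝ) := by
      exact_mod_cast Nat.mul_le_mul_right k0 hm0M
    exact mul_le_mul_of_nonneg_left this (by positivity)
  · have h1 := hG (ψ K) p hp (by rw [e2 K]; exact hps)
    rw [e1 K, hrr K] at h1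
    exact h1

end limit

section four

open Vale.Agent.P301.H794 Vale.Agent.P301.H85

variable {X : Type} [TopologicalSpace X] [ChartedSpace (Cm 4) X] [T2Space X] [CompactSpace X]
  [SimplyConnectedSpace X] [IsManifold 𝓘(ℂ, Cm 4) ω X]
variable {ι : Type} {L : LineBundle 4 X ι}
variable {w s : Fm 4 X} {ρ : ι → X → ℝ} {F : X → X}

/-- **Dependent forms in dimension four**, the weight is at most `25`. -/
theorem exists_dependent_four_eff (hs : IsSymplectic 4 X w s) (hρ : IsMetric L ρ)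
    (hCY : ∀ p : ℝ, 0 ≤ p → CYStatement F L ρ w 2 1 p) {k0 : ℕ} (hk0 : 1 ≤ k0) :
    ∃ m p r : ℕ, 1 ≤ m ∧ m ≤ 25 ∧ r ≤ 3 ∧ ∃ v : Fin r → H862.Fam 4 X ι,
      (∀ a, H724.IsSec L H897.LamF (m * k0) (v a)) ∧ (∀ a, H724.Homog L p (v a)) ∧
      H724.LinInd L v ∧ ∀ i (e : Chart 4 X) x, At e x → x ∈ L.U i →
        H724.wedge v i e (e x) = 0 := by
  classical
  have hχ := chi0_four hs
  obtain ⟨m, σ, r, hm, hmM, hr3, hr, hv⟩ := exists_limit_forms_eff (n := 2) hs.kahler hρ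
    (by norm_num) (by norm_num) hCY (by rw [hχ]; norm_num) hk0
  rw [hχ] at hr hmM hr3
  have hM : Mbd 4 3 = 25 := rfl
  rw [hM] at hmM
  have h1 : (∑ p ∈ Finset.range (4 + 1), if (-1 : ℤˣ) ^ p = σ then cnt 4 2 p else 0) ≤ 2 := by
    rcases Int.units_eq_one_or σ with rfl | rfl
    · decide
    · decide
  have h2 : ∃ p ∈ Finset.range (4 + 1), (-1 : ℤˣ) ^ p = σ ∧ cnt 4 2 p < r p := by
    by_contra hcon
    push Not at hcon
    have h3 : (∑ p ∈ Finset.range (4 + 1), if (-1 : ℤˣ) ^ p = σ then r p else 0) ≤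
        ∑ p ∈ Finset.range (4 + 1), if (-1 : ℤˣ) ^ p = σ then cnt 4 2 p else 0 := by
      refine Finset.sum_le_sum fun p hp => ?_
      split_ifs with h
      · exact hcon p hp h
      · exact le_rfl
    have h4 : (3 : ℤ).natAbs = 3 := rfl
    omega
  obtain ⟨p, hp, hps, hpr⟩ := h2
  obtain ⟨v, hv1, hv2, hv3, hv4⟩ := hv p hp hps
  exact ⟨m, p, r p, hm, hmM, hr3 p, v, hv1, hv2, hv3, fun i e x hx hi => hv4 id hpr i e x hx hi⟩

/-- **The fractional pencil in dimension four**: a line bundle of class `τ c₁(L)`, `0 ≤ τ ≤ 50`,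
has a pencil without fixed divisor. -/
theorem frac_four (hs : IsSymplectic 4 X w s) (hρ : IsMetric L ρ)
    (hn : H450.IsNef w (curvature L ρ)) (hq : H450.q s (curvature L ρ) (curvature L ρ) = 0)
    (hne : ¬ H450.IsExact (curvature L ρ))
    (hCY : ∀ p : ℝ, 0 ≤ p → CYStatement F L ρ w 2 1 p) : H450.HasFracPair L ρ 50 := by
  obtain ⟨m, p, r, hm, hmM, hr3, v, hv, hh, hi, hw⟩ := exists_dependent_four_eff hs hρ hCY
    (k0 := 1) le_rfl
  obtain ⟨r', -, hr', hF⟩ := H949.kappa_frac (by norm_num) hs hρ hn hq hne hv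
    (fun b i e x hx hi => hh b i e x hx hi) hi hw
  refine H949.hasFracPair_mono hF ?_
  have h1 : r' * (m * 1) ≤ 2 * 25 := Nat.mul_le_mul (by omega) (by omega)
  have h2 : ((r' * (m * 1) : ℕ) : ℝ) ≤ ((2 * 25 : ℕ) : ℝ) := by exact_mod_cast h1
  refine h2.trans (le_of_eq (by norm_num))

end four

end Vale.Agent.P301.H724
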