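import Vale.Agent.P301.H450.Kap
import Vale.Agent.P301.H794.FInv
import Vale.Agent.P301.H724.Asm
import Vale.Agent.P301.H949.Flat
import Vale.Agent.P301.H599.Final

/-! # Nonvanishing for the line bundle of a parabolic automorphism -/

open scoped Manifold ContDiff ComplexOrder Topology
open Filter Metric Set

set_option linter.all false

noncomputable section

namespace Vale.Agent.P301.H724

open Vale.Agent.P272.K
open Vale.Agent.P301.H599 Vale.Agent.P301.H862

variable {d : ℕ} {X : Type} [TopologicalSpace X] [ChartedSpace (Cm d) X] {ι : Type}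
  [IsManifold 𝓘(ℂ, Cm d) ω X] [CompactSpace X] [T2Space X] [ConnectedSpace X]
  {L : LineBundle d X ι} {w s : Fm d X} {ρ : ι → X → ℝ}

/-- The data of the proof. -/
theorem exists_dat (hs : IsSymplectic d X w s) (hρ : IsMetric L ρ) (F : Auto d X) {c : ℝ}
    (hc : 0 < c) (hθ : SameClass (pull F (curvature L ρ)) (curvature L ρ))
    (hdd : SameClass (fun e z => pull F (pull F w) e z - (2 : ℂ) • pull F w e z + w e z)
      (fun e z => (c : ℂ) • curvature L ρ e z)) : ∃ u h : X → ℝ, Dat F w L ρ c u h := by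
  obtain ⟨v, hv, hve⟩ := hθ
  obtain ⟨u, hu, hue⟩ := hdd
  have hF := F.contMDiff
  have hDD : FEq (DD F w) (fun e z => (c : ℂ) • curvature L ρ e z + ddc u e z) := hue
  have huF : Smooth (d := d) (fun y => u (F y)) := Smooth.comp hF hu
  set h₀ : X → ℝ := fun y => (c * v y + u (F y)) - u y with hh₀
  have hh₀s : Smooth (d := d) h₀ := ((hv.const_mul c).add huF).sub hu
  have hD₀ : FEq (pull F (DD F w)) (fun e z => DD F w e z + ddc h₀ e z) := by
    intro e x hx
    rw [pull_congr F hDD e x hx, pull_add F (fun e z => (c : ℂ) • curvature L ρ e z) (ddc u),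
      pull_smul]
    show (c : ℂ) • pull F (curvature L ρ) e (e x) + pull F (ddc u) e (e x) =
      DD F w e (e x) + ddc h₀ e (e x)
    rw [hve e x hx, hDD e x hx, ← ddc_comp hF hu e x hx, hh₀,
      ddc_sub ((hv.const_mul c).add huF) hu e x hx]
    show _ = _ + (ddc (fun y => c * v y + u (F y)) e (e x) - ddc u e (e x))
    rw [ddc_add (hv.const_mul c) huF e x hx]
    show _ = _ + (ddc (fun y => c * v y) e (e x) + ddc (fun y => u (F y)) e (e x) - ddc u e (e x))
    rw [ddc_const_mul c hv e x hx]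
    simp only [smul_add]
    abel
  obtain ⟨t, hup, hD, horb⟩ := exists_data F hs hh₀s hD₀
  exact ⟨u, fun y => h₀ y - t, hs.kahler, hρ, hc, hu, hh₀s.sub (Smooth.const _), hDD, hD, hup,
    horb⟩

theorem hasSec_of_exact [SimplyConnectedSpace X] (hρ : IsMetric L ρ)
    (hex : H450.IsExact (curvature L ρ)) (k : ℕ) : HasSec L k := by
  obtain ⟨v, hv, hve⟩ := hex
  have hvs : Smooth (d := d) v := hv
  have hv' : Smooth (d := d) (fun x => (-1) * v x) := hvs.const_mul (-1)
  have hρ' : IsMetric L (fun i x => ρ i x + (-1) * v x) := H897.IsMetric.add hρ hv'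
  obtain ⟨s, hs1, hs2, hs3, -⟩ := H949.exists_flat_section hρ' (fun e x hx => by
    obtain ⟨i, hi⟩ := L.cover x
    have h2 : ContDiffAt ℝ 2 (fun z => ρ i (e.symm z)) (e x) :=
      (hρ.smooth i e x hx hi).of_le (by norm_cast)
    rw [curvature_eq hρ' hx hi]
    have e1 : cHess (fun z => ρ i (e.symm z) + (-1) * v (e.symm z)) (e x) =
        cHess (fun z => ρ i (e.symm z)) (e x) + cHess (fun z => (-1) * v (e.symm z)) (e x) :=
      cHess_add h2 (hv'.two e x hx)
    have e2 := hve e x hx
    rw [curvature_eq hρ hx hi] at e2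
    have e3 : cHess (fun z => (-1) * v (e.symm z)) (e x) = ((-1 : ℝ) : ℂ) •
        cHess (fun z => v (e.symm z)) (e x) := cHess_const_mul (-1) (hvs.two e x hx)
    have e4 : cHess (fun z => v (e.symm z)) (e x) = ddc v e (e x) := rfl
    have e5 : cHess (fun z => ρ i (e.symm z)) (e x) = ddc v e (e x) := e2
    show cHess (fun z => ρ i (e.symm z) + (-1) * v (e.symm z)) (e x) = 0
    rw [e1, e3, e5, e4]
    push_cast
    module)
  obtain ⟨x⟩ : Nonempty X := inferInstance
  obtain ⟨i, hi⟩ := L.cover x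
  refine ⟨fun i x => s i x ^ k, fun i e x hx hi => ?_, fun i j x hi hj => ?_, i, x, hi,
    pow_ne_zero k (hs3 i x hi)⟩
  · exact (hs1 i x hi e hx).pow k
  · show s i x ^ k = _ * s j x ^ k
    rw [hs2 i j x hi hj, mul_pow]

/-- **Nonvanishing.** -/
theorem hasSec_of_parabolic [SimplyConnectedSpace X] (hd : 0 < d) (hs : IsSymplectic d X w s)
    (hρ : IsMetric L ρ) (F : Auto d X) {c : ℝ} (hc : 0 < c)
    (hθ : SameClass (pull F (curvature L ρ)) (curvature L ρ))
    (hdd : SameClass (fun e z => pull F (pull F w) e z - (2 : ℂ) • pull F w e z + w e z)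
      (fun e z => (c : ℂ) • curvature L ρ e z)) (hχ : HB.chi0 d X ≠ 0) :
    ∃ k, 0 < k ∧ HasSec L k := by
  by_cases hex : H450.IsExact (curvature L ρ)
  · exact ⟨1, one_pos, hasSec_of_exact hρ hex 1⟩
  · obtain ⟨u, h, D⟩ := exists_dat hs hρ F hc hθ hdd
    have hw := hs.kahler
    obtain ⟨v, κ, -, hHK⟩ := H450.exists_rf hs hw
    have S : H450.SData s (addH w v) κ := H450.SData.of hs hHK
    haveI : Nonempty X := inferInstance
    have hq : H450.q s (curvature L ρ) (curvature L ρ) = 0 :=
      H794.q_fixed_theta F hs S (isClosedForm_curvature hρ) (INT.IsKahler.isClosedForm hw)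
        (isClosedForm_curvature hρ) hθ hc.ne' hdd
    refine H450.kappa_nonneg hd hs hρ D.isNef hq hex fun N => ?_
    obtain ⟨m, p, hm, hp, v, hv, hh, hx⟩ := exists_form_large D hχ N
    exact ⟨m, v, hm, hv, hx⟩

end Vale.Agent.P301.H724
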