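import Vale.Agent.P301.H724.FinalN
import Vale.Agent.P301.H450.ParKap
import Vale.Agent.P301.H599.BE.End4

/-! # Nonvanishing for the line bundle of a parabolic automorphism, without conditions -/

open scoped Manifold ContDiff ComplexOrder Topology
open Filter Metric Set

set_option linter.all false

noncomputable section

namespace Vale.Agent.P301.H724

open Vale.Agent.P272.K
open Vale.Agent.P301.H599 Vale.Agent.P301.H862

variable {d : ℕ} {X : Type} [TopologicalSpace X] [ChartedSpace (Cm d) X] {ι : Type}
  [IsManifold 𝓘(ℂ, Cm d) ω X] [CompactSpace X] [T2Space X]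
  {L : LineBundle d X ι} {w s : Fm d X} {ρ : ι → X → ℝ}

/-- **Nonvanishing** in the parabolic case, all dimensions. -/
theorem nonvanishing [SimplyConnectedSpace X] (hs : IsSymplectic d X w s)
    (hρ : IsMetric L ρ) (F : Auto d X) {c : ℝ} (hc : 0 < c)
    (hθ : SameClass (pull F (curvature L ρ)) (curvature L ρ))
    (hdd : SameClass (fun e z => pull F (pull F w) e z - (2 : ℂ) • pull F w e z + w e z)
      (fun e z => (c : ℂ) • curvature L ρ e z)) :
    ∃ k, 0 < k ∧ HasSec L k := by
  by_cases hex : H450.IsExact (curvature L ρ)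
  · exact ⟨1, one_pos, hasSec_of_exact hρ hex 1⟩
  · have hd : 0 < d := H450.pos_of_not_exact hex
    obtain ⟨u, h, D⟩ := exists_dat hs hρ F hc hθ hdd
    exact hasSec_of_parabolic hd hs hρ F hc hθ hdd
      (H599.BE.chi0_pos_of_nef hd hs (isReal11_curvature hρ) D.isNef hex
        (H450.q_par hs hρ F hc hθ hdd)).ne'

end Vale.Agent.P301.H724
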