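import Vale.Agent.P301.H724.Beau
import Vale.Agent.P299.H954.TenZero

/-! # The Gram matrix of the alternating tensor of a form -/

open scoped Matrix ComplexConjugate ComplexOrder Manifold
open Finset Vale.Agent.P299 Vale.Agent.P299.IX Vale.Agent.P299.IX.Fock Vale.Agent.P299.H954
open Vale.Agent.P272.K

noncomputable section

namespace Vale.Agent.P301.H724

variable {d p : ℕ} {X : Type*} [TopologicalSpace X] [ChartedSpace (Cm d) X]

theorem gramT_ten (w : D.FormM d X) (u : Chart d X → Cm d → FI d → ℂ) (e : Chart d X) (z : Cm d)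
    (hu : ∀ I, I.card ≠ p + 1 → u e z I = 0) (i j : Fin d) :
    gramT w (fun e z => ten (p + 1) (u e z)) e z i j =
      (p.factorial : ℂ) * pr (lam (w e z)⁻¹ *ᵥ (iot i *ᵥ u e z)) (iot j *ᵥ u e z) := by
  rw [← sum_ten_ten (w e z)⁻¹ p (iot j *ᵥ u e z) (iot_degree hu i)]
  simp only [gramT, Matrix.mul_apply, Matrix.conjTranspose_apply, Finset.sum_mul]
  rw [Finset.sum_comm]
  refine Finset.sum_congr rfl fun J _ => Finset.sum_congr rfl fun K _ => ?_
  simp only [matT, Matrix.of_apply, ten_succ, Fin.cons_zero, Fin.tail_cons, metT, tp_apply,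
    dual, Matrix.transpose_apply]
  rfl

end Vale.Agent.P301.H724
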