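import Vale.Agent.P301.H724.Pair

/-! # Linearly independent sections are generically independent

If all meromorphic functions on `X` are constant, then sections of `V ⊗ L^m` which are linearly
independent over `ℂ` are linearly independent at the general point. Contrapositive: linearly
independent sections `u₁, …, u_r` of the same bundle with `u₁ ∧ … ∧ u_r = 0` give a nonconstant
meromorphic function. -/

open scoped Manifold ContDiff ComplexOrder Topology
open Filter Metric Set

noncomputable section

namespace Vale.Agent.P301.H724

open Vale.Agent.P272.K Vale.Agent.P301.H599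

variable {d : ℕ} {X : Type} [TopologicalSpace X] [ChartedSpace (Cm d) X] {ι : Type}
variable {A : Type} [Fintype A] {L : LineBundle d X ι}
  {Λ : Chart d X → Chart d X → X → Matrix A A ℂ} {r : ℕ} {m : ℕ}

/-- Linear independence over `ℂ` of a tuple of sections. -/
def LinInd (L : LineBundle d X ι) (u : Fin r → ι → Chart d X → Cm d → A → ℂ) : Prop :=
  ∀ t : Fin r → ℂ, (∀ i e x, At e x → x ∈ L.U i → ∑ b, t b • u b i e (e x) = 0) → t = 0

theorem IsSec.sum_smul {u : Fin r → ι → Chart d X → Cm d → A → ℂ}
    (hu : ∀ b, IsSec L Λ m (u b)) (t : Fin r → ℂ) :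
    IsSec L Λ m (fun i e z a => ∑ b, t b * u b i e z a) where
  holo i e x he hi a := by
    refine Finset.analyticAt_fun_sum _ fun b _ => ?_
    exact analyticAt_const.mul ((hu b).holo i e x he hi a)
  chL i j e x he hi hj := by
    funext a
    simp only [Pi.smul_apply, smul_eq_mul, Finset.mul_sum]
    refine Finset.sum_congr rfl fun b _ => ?_
    rw [(hu b).chL i j e x he hi hj]
    simp only [Pi.smul_apply, smul_eq_mul]
    ring
  chV i e e' x he he' hi := by
    funext a
    have h1 : (fun a' => ∑ b, t b * u b i e' (e' x) a') = ∑ b, t b • u b i e' (e' x) := by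
      funext a'
      simp
    simp only [h1, Matrix.mulVec_sum, Matrix.mulVec_smul, Finset.sum_apply, Pi.smul_apply,
      smul_eq_mul]
    refine Finset.sum_congr rfl fun b _ => ?_
    rw [(hu b).chV i e e' x he he' hi]

theorem mnr_cons_repeat (w : Fin r → A → ℂ) (b : Fin r) (c' : Fin (r + 1) → A) :
    mnr (Fin.cons (w b) w : Fin (r + 1) → A → ℂ) c' = 0 := by
  unfold mnr
  refine Matrix.det_zero_of_column_eq (i := 0) (j := b.succ) (Fin.succ_ne_zero b).symm ?_
  intro a
  simp

theorem mnr_update_comb {w : Fin r → A → ℂ} {v : A → ℂ} {t : Fin r → ℂ}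
    (h : v = ∑ b, t b • w b) (b : Fin r) (c : Fin r → A) :
    mnr (Function.update w b v) c = t b * mnr w c := by
  classical
  have h3 := Matrix.det_updateCol_sum (Matrix.of fun a k => w k (c a)) b t
  unfold mnr
  rw [← smul_eq_mul, ← h3]
  congr 1
  ext a k
  by_cases hk : k = b
  · subst hk
    simp [h]
  · simp [hk]

/-- If all meromorphic functions are constant, linearly independent sections are generically
independent. -/
theorem nz_wedge_of_linInd [ConnectedSpace X] [IsManifold 𝓘(ℂ, Cm d) ω X] (hno : NoMero d X) :
    ∀ {r : ℕ} {u : Fin r → ι → Chart d X → Cm d → A → ℂ}, (∀ b, IsSec L Λ m (u b)) →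
      LinInd L u → ∃ x, Nz L (wedge u) x := by
  classical
  intro r
  induction r with
  | zero =>
    intro u hu _
    obtain ⟨x⟩ : Nonempty X := inferInstance
    refine ⟨x, fun i e he hi h0 => ?_⟩
    have h1 := congrFun h0 Fin.elim0
    simp [wedge, mnr] at h1
  | succ r ih =>
    intro u hu hind
    set v := u 0 with hv
    set w : Fin r → ι → Chart d X → Cm d → A → ℂ := fun b => u b.succ with hw
    have hws : ∀ b, IsSec L Λ m (w b) := fun b => hu b.succ
    have hvs : IsSec L Λ m v := hu 0
    have hwind : LinInd L w := by
      intro t ht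
      have h1 := hind (Fin.cons 0 t) (fun i e x he hi => by
        rw [Fin.sum_univ_succ]
        simpa using ht i e x he hi)
      funext b
      have h2 := congrFun h1 b.succ
      simpa using h2
    obtain hwne := ih hws hwind
    by_contra hcon
    have hzero : ∀ i e x, At e x → x ∈ L.U i → wedge u i e (e x) = 0 := by
      intro i e x he hi
      by_contra h0
      exact hcon ⟨x, (isSec_wedge hu).nz he hi h0⟩
    have hcons : ∀ i e x, At e x → x ∈ L.U i → ∀ c' : Fin (r + 1) → A,
        mnr (Fin.cons (v i e (e x)) (fun b => w b i e (e x)) : Fin (r + 1) → A → ℂ) c' = 0 := by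
      intro i e x he hi c'
      have h1 := congrFun (hzero i e x he hi) c'
      have h2 : (fun b => u b i e (e x)) =
          (Fin.cons (v i e (e x)) (fun b => w b i e (e x)) : Fin (r + 1) → A → ℂ) := by
        funext b
        refine Fin.cases ?_ (fun j => ?_) b
        · simp [hv]
        · simp [hw]
      simp only [wedge, h2, Pi.zero_apply] at h1
      exact h1
    -- the wedges with one section replaced by `v`
    have hsec : ∀ k : Fin r, ∀ b, IsSec L Λ m (Function.update w k v b) := by
      intro k b
      by_cases hb : b = k
      · subst hb; simpa using hvs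
      · simpa [hb] using hws b
    have hupd : ∀ (k : Fin r) i e x, (fun b => Function.update w k v b i e (e x)) =
        Function.update (fun b => w b i e (e x)) k (v i e (e x)) := by
      intro k i e x
      funext b
      by_cases hb : b = k
      · subst hb; simp
      · simp [hb]
    have hprop : ∀ k : Fin r, Prop2 L (wedge (Function.update w k v)) (wedge w) := by
      intro k i e x he hi c c'
      simp only [wedge]
      refine mnr_prop (fun b c'' => ?_) c c'
      by_cases hb : b = k
      · subst hb
        simpa using hcons i e x he hi c''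
      · have := mnr_cons_repeat (fun b => w b i e (e x)) b c''
        simpa [hb] using this
    have hconst : ∀ k : Fin r, ∃ C : ℂ, ∀ i e x, At e x → x ∈ L.U i →
        wedge (Function.update w k v) i e (e x) = C • wedge w i e (e x) := by
      intro k
      by_cases hk : ∃ x, Nz L (wedge (Function.update w k v)) x
      · have hs := isSec_wedge (hsec k)
        obtain ⟨C, -, hC⟩ := exists_const_mul hno hs (isSec_wedge hws) hk hwne (hprop k)
        exact ⟨C, hC⟩
      · refine ⟨0, fun i e x he hi => ?_⟩
        rw [zero_smul]
        by_contra h0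
        exact hk ⟨x, (isSec_wedge (hsec k)).nz he hi h0⟩
    choose C hC using hconst
    -- the relation `v = ∑ C k • w k`
    set t : Fin (r + 1) → ℂ := Fin.cons 1 (fun k => -C k) with ht
    have hrel := IsSec.sum_smul hu t
    have hall : ∀ i e x, At e x → x ∈ L.U i → ∑ b, t b • u b i e (e x) = 0 := by
      by_contra hne
      push Not at hne
      obtain ⟨i, e, x, he, hi, hne⟩ := hne
      have hnz : Nz L (fun i e z a => ∑ b, t b * u b i e z a) x := by
        refine hrel.nz he hi ?_
        intro h0
        apply hne
        funext a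
        have := congrFun h0 a
        simpa using this
      obtain ⟨y, hy1, hy2⟩ := ((isSec_wedge hws).dense hwne).inter_open_nonempty _
        hrel.isOpen_nz ⟨x, hnz⟩
      obtain ⟨j, hj⟩ := L.cover y
      have hey := at_chartAt (d := d) y
      set e' := chartAt (Cm d) y
      have h1 : wedge w j e' (e' y) ≠ 0 := hy2 j e' hey hj
      obtain ⟨c, hc⟩ := Function.ne_iff.1 h1
      have hc' : mnr (fun b => w b j e' (e' y)) c ≠ 0 := hc
      obtain ⟨s, hs⟩ := exists_comb hc' (hcons j e' y hey hj)
      have hsC : ∀ k, s k = C k := by
        intro k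
        have h2 := congrFun (hC k j e' y hey hj) c
        simp only [wedge, hupd, Pi.smul_apply, smul_eq_mul] at h2
        rw [mnr_update_comb hs k c] at h2
        exact mul_right_cancel₀ hc' h2
      apply hy1 j e' hey hj
      funext a
      have h3 := congrFun hs a
      simp only [Finset.sum_apply, Pi.smul_apply, smul_eq_mul] at h3
      show ∑ b, t b * u b j e' (e' y) a = 0
      rw [Fin.sum_univ_succ]
      simp only [ht, Fin.cons_zero, Fin.cons_succ, one_mul, neg_mul, Finset.sum_neg_distrib]
      show v j e' (e' y) a + -∑ k, C k * w k j e' (e' y) a = 0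
      rw [h3]
      simp only [hsC]
      ring
    have h0 := congrFun (hind t hall) 0
    simp [ht] at h0

/-- Linearly independent sections `u₁, …, u_r` of `V ⊗ L^m` with `u₁ ∧ … ∧ u_r = 0` give a
nonconstant meromorphic function. -/
theorem not_noMero [ConnectedSpace X] [IsManifold 𝓘(ℂ, Cm d) ω X]
    {u : Fin r → ι → Chart d X → Cm d → A → ℂ} (hu : ∀ b, IsSec L Λ m (u b))
    (hind : LinInd L u) (hz : ∀ i e x, At e x → x ∈ L.U i → wedge u i e (e x) = 0) :
    ∃ (κ : Type) (M : Mero d X κ), ¬ M.IsConst := by
  by_contra hcon
  push Not at hcon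
  obtain ⟨x, hx⟩ := nz_wedge_of_linInd (fun κ M => hcon κ M) hu hind
  obtain ⟨i, hi⟩ := L.cover x
  exact hx i _ (at_chartAt x) hi (hz i _ x (at_chartAt x) hi)

end Vale.Agent.P301.H724
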