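import Vale.Agent.P301.H85.PW
import Vale.Agent.P299.H954.IX.Loc
import Vale.Agent.P299.H835.IX.TenF
import Mathlib.LinearAlgebra.Lagrange
import Mathlib.Analysis.MeanInequalities

/-! # BEAU-ALG: linear algebra for forms with scalar Gram matrix -/

open scoped Matrix ComplexConjugate ComplexOrder
open Finset Vale.Agent.P299.IX Vale.Agent.P299.IX.Fock Vale.Agent.P301.H85

noncomputable section

namespace Vale.Agent.P301.H724

variable {d : ℕ}

/-- simultaneous diagonalisation of a positive definite and a Hermitian form -/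
theorem exists_frame_herm {g h : Matrix (Fin d) (Fin d) ℂ} (hg : g.PosDef) (hh : h.IsHermitian) :
    ∃ (T U : Matrix (Fin d) (Fin d) ℂ) (η : Fin d → ℝ), U * T = 1 ∧ T * U = 1 ∧
      g = T * Tᴴ ∧ h = T * Matrix.diagonal (fun k => ((η k : ℝ) : ℂ)) * Tᴴ := by
  obtain ⟨B, hgB⟩ := Vale.Agent.P272.K.C2.exists_factor hg.posSemidef
  have hdet : IsUnit B.det := by
    refine isUnit_iff_ne_zero.2 fun h0 => ?_
    have := hg.det_pos
    rw [hgB, Matrix.det_mul, h0, mul_zero] at this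
    exact lt_irrefl _ this
  set T0 : Matrix (Fin d) (Fin d) ℂ := Bᴴ with hT0
  set U0 : Matrix (Fin d) (Fin d) ℂ := (B⁻¹)ᴴ with hU0
  have h1 : T0 * U0 = 1 := by
    rw [hT0, hU0, ← Matrix.conjTranspose_mul, Matrix.nonsing_inv_mul _ hdet,
      Matrix.conjTranspose_one]
  have h2 : U0 * T0 = 1 := by
    rw [hT0, hU0, ← Matrix.conjTranspose_mul, Matrix.mul_nonsing_inv _ hdet,
      Matrix.conjTranspose_one]
  set h' : Matrix (Fin d) (Fin d) ℂ := U0 * h * U0ᴴ with hh'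
  have hher : h'.IsHermitian := by
    rw [hh', Matrix.IsHermitian, Matrix.conjTranspose_mul, Matrix.conjTranspose_mul,
      Matrix.conjTranspose_conjTranspose, hh.eq, Matrix.mul_assoc]
  set V : Matrix (Fin d) (Fin d) ℂ := (hher.eigenvectorUnitary : Matrix (Fin d) (Fin d) ℂ) with hV
  have hVV : V * Vᴴ = 1 := by
    have := Unitary.coe_mul_star_self hher.eigenvectorUnitary
    simpa [Matrix.star_eq_conjTranspose] using this
  have hVV' : Vᴴ * V = 1 := by
    have := Unitary.coe_star_mul_self hher.eigenvectorUnitary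
    simpa [Matrix.star_eq_conjTranspose] using this
  have hsp : h' = V * Matrix.diagonal (fun k => ((hher.eigenvalues k : ℝ) : ℂ)) * Vᴴ := by
    have := hher.spectral_theorem
    rw [Unitary.conjStarAlgAut_apply] at this
    exact this
  refine ⟨T0 * V, Vᴴ * U0, hher.eigenvalues, ?_, ?_, ?_, ?_⟩
  · calc Vᴴ * U0 * (T0 * V) = Vᴴ * (U0 * T0) * V := by noncomm_ring
      _ = 1 := by rw [h2]; simp [hVV']
  · calc T0 * V * (Vᴴ * U0) = T0 * (V * Vᴴ) * U0 := by noncomm_ring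
      _ = 1 := by rw [hVV]; simp [h1]
  · rw [Matrix.conjTranspose_mul]
    calc g = Bᴴ * B := hgB
      _ = T0 * T0ᴴ := by rw [hT0, Matrix.conjTranspose_conjTranspose]
      _ = T0 * (V * Vᴴ) * T0ᴴ := by rw [hVV]; simp
      _ = _ := by noncomm_ring
  · rw [Matrix.conjTranspose_mul]
    have e : T0 * (V * Matrix.diagonal (fun k => ((hher.eigenvalues k : ℝ) : ℂ)) * Vᴴ) * T0ᴴ =
        h := by
      rw [← hsp, hh']
      have h3 : U0ᴴ * T0ᴴ = 1 := by rw [← Matrix.conjTranspose_mul, h1, Matrix.conjTranspose_one]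
      calc T0 * (U0 * h * U0ᴴ) * T0ᴴ = (T0 * U0) * h * (U0ᴴ * T0ᴴ) := by noncomm_ring
        _ = h := by rw [h1, h3]; simp
    rw [← e]
    noncomm_ring

theorem lam_diagonal_mulVec (μ : Fin d → ℂ) (a : FI d → ℂ) (I : FI d) :
    (lam (Matrix.diagonal μ) *ᵥ a) I = (∏ i ∈ I, μ i) * a I := by
  rw [Matrix.mulVec, dotProduct, Finset.sum_eq_single I]
  · rw [← mulVec_ev (lam (Matrix.diagonal μ)) I I, lam_diagonal_ev, Pi.smul_apply, ev,
      Pi.single_eq_same, smul_eq_mul, mul_one]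
  · intro K _ hK
    rw [← mulVec_ev (lam (Matrix.diagonal μ)) K I, lam_diagonal_ev, Pi.smul_apply, ev, Pi.single_eq_of_ne (Ne.symm hK),
      smul_zero, zero_mul]
  · intro h
    exact absurd (Finset.mem_univ _) h

variable {w T U : Matrix (Fin d) (Fin d) ℂ} {μ : Fin d → ℂ}

theorem inv_diag (hUT : U * T = 1) (hTU : T * U = 1) (hμ : ∀ i, μ i ≠ 0)
    (hw : w = T * Matrix.diagonal μ * Tᴴ) : w⁻¹ = Uᴴ * Matrix.diagonal (fun i => (μ i)⁻¹) * U := by
  have h3 : Tᴴ * Uᴴ = 1 := by rw [← Matrix.conjTranspose_mul, hUT, Matrix.conjTranspose_one]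
  apply Matrix.inv_eq_right_inv
  rw [hw]
  calc T * Matrix.diagonal μ * Tᴴ * (Uᴴ * Matrix.diagonal (fun i => (μ i)⁻¹) * U)
      = T * Matrix.diagonal μ * (Tᴴ * Uᴴ) * Matrix.diagonal (fun i => (μ i)⁻¹) * U := by
        noncomm_ring
    _ = T * (Matrix.diagonal μ * Matrix.diagonal (fun i => (μ i)⁻¹)) * U := by
        rw [h3]; noncomm_ring
    _ = 1 := by
        rw [Matrix.diagonal_mul_diagonal]
        have : (fun i => μ i * (μ i)⁻¹) = fun _ => (1 : ℂ) := by
          funext i; exact mul_inv_cancel₀ (hμ i)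
        rw [this, Matrix.diagonal_one, Matrix.mul_one, hTU]

/-- the Hermitian product of forms in a frame -/
theorem pr_frame (hUT : U * T = 1) (hTU : T * U = 1) (hμ : ∀ i, μ i ≠ 0)
    (hw : w = T * Matrix.diagonal μ * Tᴴ) (a b : FI d → ℂ) :
    pr (lam w⁻¹ *ᵥ a) b =
      ∑ I, (∏ i ∈ I, (μ i)⁻¹) * ((lam U *ᵥ a) I * conj ((lam U *ᵥ b) I)) := by
  rw [inv_diag hUT hTU hμ hw, lam_mul, lam_mul, lam_conjTranspose, ← Matrix.mulVec_mulVec,
    ← Matrix.mulVec_mulVec, pr_mulVec_left, Matrix.conjTranspose_conjTranspose, pr]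
  refine Finset.sum_congr rfl fun I _ => ?_
  rw [lam_diagonal_mulVec]
  ring

/-- the norm square of a form -/
def nsq (w : Matrix (Fin d) (Fin d) ℂ) (u : FI d → ℂ) : ℝ := (pr (lam w⁻¹ *ᵥ u) u).re

theorem nsq_frame {η : Fin d → ℝ} (hUT : U * T = 1) (hTU : T * U = 1) (hη : ∀ i, η i ≠ 0)
    (hw : w = T * Matrix.diagonal (fun k => ((η k : ℝ) : ℂ)) * Tᴴ) (u : FI d → ℂ) :
    nsq w u = ∑ I, (∏ i ∈ I, (η i)⁻¹) * ‖(lam U *ᵥ u) I‖ ^ 2 := by
  rw [nsq, pr_frame hUT hTU (fun i => by exact_mod_cast hη i) hw, Complex.re_sum]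
  refine Finset.sum_congr rfl fun I _ => ?_
  rw [Complex.mul_conj, Complex.normSq_eq_norm_sq]
  have h1 : (∏ i ∈ I, (((η i : ℝ) : ℂ))⁻¹) = ((∏ i ∈ I, (η i)⁻¹ : ℝ) : ℂ) := by push_cast; rfl
  rw [h1, ← Complex.ofReal_mul, Complex.ofReal_re]

theorem det_frame {η : Fin d → ℝ} (hw : w = T * Matrix.diagonal (fun k => ((η k : ℝ) : ℂ)) * Tᴴ) :
    w.det = ((‖T.det‖ ^ 2 * ∏ i, η i : ℝ) : ℂ) := by
  rw [hw, Matrix.det_mul, Matrix.det_mul, Matrix.det_conjTranspose, Matrix.det_diagonal]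
  have h1 : T.det * star T.det = ((‖T.det‖ ^ 2 : ℝ) : ℂ) := by
    rw [Complex.star_def, Complex.mul_conj, Complex.normSq_eq_norm_sq]
  have h2 : (∏ i, ((η i : ℝ) : ℂ)) = ((∏ i, η i : ℝ) : ℂ) := by push_cast; rfl
  calc T.det * (∏ i, ((η i : ℝ) : ℂ)) * star T.det
      = (T.det * star T.det) * ∏ i, ((η i : ℝ) : ℂ) := by ring
    _ = _ := by rw [h1, h2]; push_cast; ring

theorem frame_pos {η : Fin d → ℝ} (hUT : U * T = 1)
    (hw : w = T * Matrix.diagonal (fun k => ((η k : ℝ) : ℂ)) * Tᴴ) (hp : w.PosDef) (i : Fin d) :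
    0 < η i := by
  have h3 : Tᴴ * Uᴴ = 1 := by rw [← Matrix.conjTranspose_mul, hUT, Matrix.conjTranspose_one]
  have h1 : U * w * Uᴴ = Matrix.diagonal (fun k => ((η k : ℝ) : ℂ)) := by
    rw [hw]
    calc U * (T * Matrix.diagonal (fun k => ((η k : ℝ) : ℂ)) * Tᴴ) * Uᴴ
        = (U * T) * Matrix.diagonal (fun k => ((η k : ℝ) : ℂ)) * (Tᴴ * Uᴴ) := by noncomm_ring
      _ = _ := by rw [hUT, h3, Matrix.one_mul, Matrix.mul_one]
  have h2 : (U * w * Uᴴ).PosDef := by
    have hU : Function.Injective Uᴴ.mulVec := by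
      intro a b hab
      have := congrArg (fun v => Tᴴ *ᵥ v) hab
      simpa [Matrix.mulVec_mulVec, h3] using this
    have := hp.conjTranspose_mul_mul_same hU
    rwa [Matrix.conjTranspose_conjTranspose] at this
  rw [h1] at h2
  have h4 := h2.diag_pos (i := i)
  rw [Matrix.diagonal_apply_eq] at h4
  exact_mod_cast h4

/-- `lam U` preserves the degree -/
theorem lam_degree {p : ℕ} (J : Matrix (Fin d) (Fin d) ℂ) {u : FI d → ℂ}
    (hu : ∀ I, I.card ≠ p → u I = 0) (I : FI d) (hI : I.card ≠ p) : (lam J *ᵥ u) I = 0 := by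
  have h1 : (dg p : FM d) *ᵥ u = u := by
    funext K
    rw [dg_mulVec]
    split_ifs with h
    · rfl
    · exact (hu K h).symm
  have h2 : (dg p : FM d) * lam J = lam J * dg p := dg_lam p J
  rw [← h1, Matrix.mulVec_mulVec, ← h2, ← Matrix.mulVec_mulVec, dg_mulVec, if_neg hI]

/-- the Gram matrix in a frame -/
theorem gram_frame {w₀ : Matrix (Fin d) (Fin d) ℂ} (hUT : U * T = 1) (hTU : T * U = 1)
    (hw : w₀ = T * Tᴴ) {u : FI d → ℂ} {c : ℂ}
    (hc : ∀ i j, pr (lam w₀⁻¹ *ᵥ (iot i *ᵥ u)) (iot j *ᵥ u) = c * w₀ i j) (l m : Fin d) :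
    pr (iot l *ᵥ (lam U *ᵥ u)) (iot m *ᵥ (lam U *ᵥ u)) = if l = m then c else 0 := by
  have hw' : w₀ = T * Matrix.diagonal (fun _ => (1 : ℂ)) * Tᴴ := by
    rw [Matrix.diagonal_one, Matrix.mul_one, hw]
  have key : ∀ a b : FI d → ℂ, pr (lam w₀⁻¹ *ᵥ a) b = pr (lam U *ᵥ a) (lam U *ᵥ b) := by
    intro a b
    rw [pr_frame hUT hTU (fun _ => one_ne_zero) hw' a b, pr]
    simp
  have h1 : ∀ l, iot l *ᵥ (lam U *ᵥ u) = ∑ i, U l i • (lam U *ᵥ (iot i *ᵥ u)) := by
    intro l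
    rw [Matrix.mulVec_mulVec, iot_lam, ← Matrix.mulVec_mulVec, Matrix.sum_mulVec,
      Matrix.mulVec_sum]
    refine Finset.sum_congr rfl fun i _ => ?_
    rw [Matrix.smul_mulVec, Matrix.mulVec_smul]
  rw [h1 l, h1 m, pr_sum_left]
  have h2 : ∀ i, pr (U l i • (lam U *ᵥ (iot i *ᵥ u))) (∑ j, U m j • (lam U *ᵥ (iot j *ᵥ u))) =
      ∑ j, U l i * conj (U m j) * (c * w₀ i j) := by
    intro i
    rw [pr_sum_right]
    refine Finset.sum_congr rfl fun j _ => ?_
    rw [pr_smul_left, pr_smul_right, ← key, hc]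
    ring
  rw [Finset.sum_congr rfl fun i _ => h2 i]
  have h3 : Tᴴ * Uᴴ = 1 := by rw [← Matrix.conjTranspose_mul, hUT, Matrix.conjTranspose_one]
  have h4 : U * w₀ * Uᴴ = 1 := by
    rw [hw]
    calc U * (T * Tᴴ) * Uᴴ = (U * T) * (Tᴴ * Uᴴ) := by noncomm_ring
      _ = 1 := by rw [hUT, h3, Matrix.one_mul]
  have h5 : ∑ i, ∑ j, U l i * conj (U m j) * (c * w₀ i j) = c * (U * w₀ * Uᴴ) l m := by
    simp only [Matrix.mul_apply, Matrix.conjTranspose_apply, Finset.sum_mul, Finset.mul_sum]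
    rw [Finset.sum_comm]
    refine Finset.sum_congr rfl fun j _ => Finset.sum_congr rfl fun i _ => ?_
    rw [Complex.star_def]
    ring
  rw [h5, h4, Matrix.one_apply]
  split_ifs <;> simp

theorem pr_iot_self (l : Fin d) (v : FI d → ℂ) :
    pr (iot l *ᵥ v) (iot l *ᵥ v) = ((∑ I, if l ∈ I then ‖v I‖ ^ 2 else 0 : ℝ) : ℂ) := by
  have h1 : pr (iot l *ᵥ v) (iot l *ᵥ v) = pr ((eps l * iot l) *ᵥ v) v := by
    rw [pr_mulVec_right, iot_conjTranspose, Matrix.mulVec_mulVec]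
  rw [h1, pr]
  push_cast
  refine Finset.sum_congr rfl fun I _ => ?_
  rw [eps_iot_mulVec]
  split_ifs with h
  · rw [Complex.mul_conj, Complex.normSq_eq_norm_sq, Complex.ofReal_pow]
  · simp

/-- the weighted arithmetic-geometric mean inequality -/
theorem jensen_aux {p : ℕ} (hd : 0 < d) {a : FI d → ℝ} (ha : ∀ I, 0 ≤ a I)
    (hap : ∀ I : FI d, I.card ≠ p → a I = 0) {c : ℝ}
    (hc : ∀ l, (∑ I : FI d, if l ∈ I then a I else 0) = c) {η : Fin d → ℝ}
    (hη : ∀ i, 0 < η i) :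
    (p : ℝ) * (∑ I, a I) = d * c ∧
      (∑ I, a I) * ((∏ i, η i)⁻¹) ^ ((p : ℝ) / d) ≤ ∑ I, (∏ i ∈ I, (η i)⁻¹) * a I := by
  have h1 : (p : ℝ) * (∑ I, a I) = d * c := by
    have e1 : ∑ l : Fin d, ∑ I : FI d, (if l ∈ I then a I else 0) = d * c := by
      rw [Finset.sum_congr rfl fun l _ => hc l]
      simp
    rw [← e1, Finset.sum_comm, Finset.mul_sum]
    refine Finset.sum_congr rfl fun I _ => ?_
    rw [Finset.sum_ite_mem, Finset.univ_inter, Finset.sum_const, nsmul_eq_mul]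
    by_cases hI : I.card = p
    · rw [hI]
    · rw [hap I hI, mul_zero, mul_zero]
  refine ⟨h1, ?_⟩
  set A : ℝ := ∑ I, a I with hA
  have hA0 : 0 ≤ A := Finset.sum_nonneg fun I _ => ha I
  rcases hA0.eq_or_lt with h0 | hpos
  · rw [← h0, zero_mul]
    exact Finset.sum_nonneg fun I _ => mul_nonneg (Finset.prod_nonneg fun i _ =>
      inv_nonneg.2 (hη i).le) (ha I)
  · have h2 := Real.geom_mean_le_arith_mean_weighted (Finset.univ : Finset (FI d))
      (fun I => a I / A) (fun I => ∏ i ∈ I, (η i)⁻¹) (fun I _ => div_nonneg (ha I) hA0)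
      (by rw [← Finset.sum_div, ← hA, div_self hpos.ne'])
      (fun I _ => Finset.prod_nonneg fun i _ => inv_nonneg.2 (hη i).le)
    have hd' : (0 : ℝ) < d := by exact_mod_cast hd
    have h3 : ∏ I : FI d, (∏ i ∈ I, (η i)⁻¹) ^ (a I / A) = ((∏ i, η i)⁻¹) ^ ((p : ℝ) / d) := by
      have e1 : ∀ I : FI d, (∏ i ∈ I, (η i)⁻¹) ^ (a I / A) =
          ∏ i, ((η i)⁻¹) ^ (if i ∈ I then a I / A else 0) := by
        intro I
        rw [← Real.finsetProd_rpow _ _ fun i _ => inv_nonneg.2 (hη i).le]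
        rw [← Finset.prod_subset (Finset.subset_univ I)]
        · refine Finset.prod_congr rfl fun i hi => ?_
          rw [if_pos hi]
        · intro i _ hi
          rw [if_neg hi, Real.rpow_zero]
      rw [Finset.prod_congr rfl fun I _ => e1 I, Finset.prod_comm, ← Finset.prod_inv_distrib,
        ← Real.finsetProd_rpow _ _ fun i _ => inv_nonneg.2 (hη i).le]
      refine Finset.prod_congr rfl fun i _ => ?_
      rw [← Real.rpow_sum_of_pos (inv_pos.2 (hη i))]
      congr 1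
      have e2 : ∑ I : FI d, (if i ∈ I then a I / A else 0) = c / A := by
        rw [← hc i, Finset.sum_div]
        refine Finset.sum_congr rfl fun I _ => ?_
        split_ifs <;> simp
      rw [e2, div_eq_div_iff hpos.ne' hd'.ne']
      linarith
    rw [h3] at h2
    calc A * ((∏ i, η i)⁻¹) ^ ((p : ℝ) / d)
        ≤ A * ∑ I : FI d, a I / A * ∏ i ∈ I, (η i)⁻¹ := mul_le_mul_of_nonneg_left h2 hA0
      _ = ∑ I, (∏ i ∈ I, (η i)⁻¹) * a I := by
        rw [Finset.mul_sum]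
        refine Finset.sum_congr rfl fun I _ => ?_
        field_simp

/-- **BEAU-ALG (a).** -/
theorem jensen {w₀ w₁ : Matrix (Fin d) (Fin d) ℂ} (h0 : w₀.PosDef) (h1 : w₁.PosDef) {p : ℕ}
    (hd : 0 < d) {u : FI d → ℂ} (hu : ∀ I, I.card ≠ p → u I = 0) {c : ℂ}
    (hc : ∀ i j, pr (lam w₀⁻¹ *ᵥ (iot i *ᵥ u)) (iot j *ᵥ u) = c * w₀ i j) :
    (((p : ℝ) * nsq w₀ u : ℝ) : ℂ) = d * c ∧
      nsq w₀ u * (w₀.det.re / w₁.det.re) ^ ((p : ℝ) / d) ≤ nsq w₁ u := by
  obtain ⟨T, U, η, hUT, hTU, hwT, hτT⟩ := exists_frame_herm h0 h1.isHermitian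
  have hη : ∀ i, 0 < η i := frame_pos hUT hτT h1
  have hw' : w₀ = T * Matrix.diagonal (fun k : Fin d => (((fun _ => (1 : ℝ)) k : ℝ) : ℂ)) * Tᴴ := by
    simp only [Complex.ofReal_one, Matrix.diagonal_one, Matrix.mul_one]
    exact hwT
  set v : FI d → ℂ := lam U *ᵥ u with hv
  have hgr := gram_frame hUT hTU hwT hc
  obtain ⟨l₀⟩ : Nonempty (Fin d) := ⟨⟨0, hd⟩⟩
  have hcl : ∀ l, ((∑ I, if l ∈ I then ‖v I‖ ^ 2 else 0 : ℝ) : ℂ) = c := by
    intro l
    rw [← pr_iot_self, hgr l l, if_pos rfl]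
  have hcr : (c.re : ℂ) = c := by rw [← hcl l₀, Complex.ofReal_re]
  have hcl' : ∀ l, (∑ I, if l ∈ I then ‖v I‖ ^ 2 else 0 : ℝ) = c.re := by
    intro l
    have := congrArg Complex.re (hcl l)
    rwa [Complex.ofReal_re] at this
  obtain ⟨k1, k2⟩ := jensen_aux (p := p) hd (a := fun I => ‖v I‖ ^ 2) (fun I => by positivity)
    (fun I hI => by rw [hv, lam_degree U hu I hI]; simp) hcl' hη
  have hn0 : nsq w₀ u = ∑ I, ‖v I‖ ^ 2 := by
    rw [nsq_frame hUT hTU (fun _ => one_ne_zero) hw']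
    simp [hv]
  have hn1 : nsq w₁ u = ∑ I, (∏ i ∈ I, (η i)⁻¹) * ‖v I‖ ^ 2 :=
    nsq_frame hUT hTU (fun i => (hη i).ne') hτT u
  have hT : ‖T.det‖ ≠ 0 := by
    rw [norm_ne_zero_iff]
    intro h
    have := congrArg Matrix.det hUT
    rw [Matrix.det_mul, h, mul_zero, Matrix.det_one] at this
    exact zero_ne_one this
  have hdet : w₀.det.re / w₁.det.re = (∏ i, η i)⁻¹ := by
    rw [det_frame hτT, det_frame hw', Complex.ofReal_re, Complex.ofReal_re]
    simp only [Finset.prod_const_one, mul_one]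
    rw [div_mul_eq_div_div, div_self (by positivity), one_div]
  refine ⟨?_, ?_⟩
  · rw [hn0, k1, ← hcr]
    push_cast
    rw [Complex.ofReal_re]
  · rw [hn0, hn1, hdet]
    exact k2

/-- **BEAU-ALG (b).** -/
theorem exists_poly {w₀ θ : Matrix (Fin d) (Fin d) ℂ} (h0 : w₀.PosDef) (hθ : θ.IsHermitian)
    (u : FI d → ℂ) : ∃ P : Polynomial ℝ, P.natDegree ≤ d ∧ ∀ t : ℝ,
      (w₀ + (t : ℂ) • θ).PosDef →
        nsq (w₀ + (t : ℂ) • θ) u * (w₀ + (t : ℂ) • θ).det.re = P.eval t := by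
  classical
  obtain ⟨T, U, η, hUT, hTU, hwT, hτT⟩ := exists_frame_herm h0 hθ
  refine ⟨Polynomial.C (‖T.det‖ ^ 2) * ∑ I : FI d, Polynomial.C (‖(lam U *ᵥ u) I‖ ^ 2) *
    ∏ i ∈ Iᶜ, (1 + Polynomial.C (η i) * Polynomial.X), ?_, fun t ht => ?_⟩
  · refine (Polynomial.natDegree_C_mul_le _ _).trans ?_
    refine Polynomial.natDegree_sum_le_of_forall_le _ _ fun I _ => ?_
    refine (Polynomial.natDegree_C_mul_le _ _).trans ?_
    refine (Polynomial.natDegree_prod_le _ _).trans ?_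
    calc ∑ i ∈ Iᶜ, (1 + Polynomial.C (η i) * Polynomial.X).natDegree ≤ ∑ i ∈ Iᶜ, 1 := by
          refine Finset.sum_le_sum fun i _ => ?_
          refine (Polynomial.natDegree_add_le _ _).trans ?_
          have h3 : (Polynomial.C (η i) * Polynomial.X : Polynomial ℝ).natDegree ≤ 1 :=
            (Polynomial.natDegree_C_mul_le _ _).trans Polynomial.natDegree_X_le
          simpa using h3
      _ ≤ d := by
          rw [Finset.sum_const, smul_eq_mul, mul_one]
          simpa using Finset.card_le_univ Iᶜ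
  · have hw : w₀ + (t : ℂ) • θ =
        T * Matrix.diagonal (fun k => (((1 + t * η k : ℝ)) : ℂ)) * Tᴴ := by
      have e1 : Matrix.diagonal (fun k => (((1 + t * η k : ℝ)) : ℂ)) =
          1 + (t : ℂ) • Matrix.diagonal (fun k => ((η k : ℝ) : ℂ)) := by
        rw [← Matrix.diagonal_one, ← Matrix.diagonal_smul, Matrix.diagonal_add]
        congr 1
        funext k
        simp
      rw [e1, Matrix.mul_add, Matrix.add_mul, Matrix.mul_one, ← hwT, Matrix.mul_smul,
        Matrix.smul_mul, ← hτT]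
    have hpos : ∀ i, 0 < 1 + t * η i := frame_pos hUT hw ht
    rw [nsq_frame hUT hTU (fun i => (hpos i).ne') hw, det_frame hw, Complex.ofReal_re,
      Polynomial.eval_mul, Polynomial.eval_C, Polynomial.eval_finsetSum]
    simp only [Polynomial.eval_mul, Polynomial.eval_C, Polynomial.eval_prod, Polynomial.eval_add,
      Polynomial.eval_one, Polynomial.eval_X]
    rw [mul_left_comm, Finset.sum_mul]
    congr 1
    refine Finset.sum_congr rfl fun I _ => ?_
    rw [← Finset.prod_mul_prod_compl I (fun i => 1 + t * η i)]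
    have e2 : (∏ i ∈ I, (1 + t * η i)⁻¹) * ∏ i ∈ I, (1 + t * η i) = 1 := by
      rw [← Finset.prod_mul_distrib]
      exact Finset.prod_eq_one fun i _ => inv_mul_cancel₀ (hpos i).ne'
    calc (∏ i ∈ I, (1 + t * η i)⁻¹) * ‖(lam U *ᵥ u) I‖ ^ 2 *
          ((∏ i ∈ I, (1 + t * η i)) * ∏ i ∈ Iᶜ, (1 + t * η i))
        = ((∏ i ∈ I, (1 + t * η i)⁻¹) * ∏ i ∈ I, (1 + t * η i)) * (‖(lam U *ᵥ u) I‖ ^ 2 *
          ∏ i ∈ Iᶜ, (1 + t * η i)) := by ring
      _ = ‖(lam U *ᵥ u) I‖ ^ 2 * ∏ i ∈ Iᶜ, (1 + η i * t) := by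
        rw [e2, one_mul]
        congr 1
        exact Finset.prod_congr rfl fun i _ => by ring

/-- a polynomial of degree `≤ N` is determined by its values at `N + 1` points -/
theorem eval_eq_lagrange (N : ℕ) {x : Fin (N + 1) → ℝ} (hx : Function.Injective x)
    {P : Polynomial ℝ} (hP : P.natDegree ≤ N) (t : ℝ) :
    P.eval t = ∑ i, P.eval (x i) * (Lagrange.basis Finset.univ x i).eval t := by
  have h1 : P.degree < (Finset.univ : Finset (Fin (N + 1))).card := by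
    rw [Finset.card_univ, Fintype.card_fin]
    refine lt_of_le_of_lt Polynomial.degree_le_natDegree ?_
    exact_mod_cast Nat.lt_succ_of_le hP
  have h2 := Lagrange.eq_interpolate (s := Finset.univ) (v := x) hx.injOn h1
  conv_lhs => rw [h2, Lagrange.interpolate_apply, Polynomial.eval_finsetSum]
  refine Finset.sum_congr rfl fun i _ => ?_
  rw [Polynomial.eval_mul, Polynomial.eval_C]

theorem iot_degree {p : ℕ} {a : FI d → ℂ} (ha : ∀ I, I.card ≠ p + 1 → a I = 0) (l : Fin d)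
    (I : FI d) (hI : I.card ≠ p) : (iot l *ᵥ a) I = 0 := by
  rw [iot_mulVec]
  split_ifs with h
  · rfl
  · rw [ha _ (by rw [Finset.card_insert_of_notMem h]; omega), mul_zero]

theorem sum_eps_iot {p : ℕ} {a : FI d → ℂ} (ha : ∀ I, I.card ≠ p → a I = 0) :
    ∑ l, (eps l * iot l) *ᵥ a = (p : ℂ) • a := by
  funext I
  rw [Finset.sum_apply, Finset.sum_congr rfl fun l _ => eps_iot_mulVec l a I, Finset.sum_ite_mem,
    Finset.univ_inter, Finset.sum_const, nsmul_eq_mul, Pi.smul_apply, smul_eq_mul]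
  by_cases hI : I.card = p
  · rw [hI]
  · rw [ha I hI, mul_zero, mul_zero]

/-- **BEAU-ALG (c).** The tensor product metric of the alternating tensors of forms. -/
theorem sum_ten_ten (W : Matrix (Fin d) (Fin d) ℂ) (p : ℕ) : ∀ {a : FI d → ℂ} (b : FI d → ℂ),
    (∀ I, I.card ≠ p → a I = 0) →
    ∑ J : Fin p → Fin d, ∑ K : Fin p → Fin d,
      ten p a J * (∏ m, W (K m) (J m)) * conj (ten p b K) =
      (p.factorial : ℂ) * pr (lam W *ᵥ a) b := by
  induction p with
  | zero =>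
    intro a b ha
    rw [Fintype.sum_unique, Fintype.sum_unique, Nat.factorial_zero, Nat.cast_one, one_mul, pr,
      Finset.sum_eq_single ∅]
    · rw [Finset.univ_eq_empty, Finset.prod_empty, mul_one, ten_zero_apply, ten_zero_apply]
      congr 1
      rw [Matrix.mulVec, dotProduct, Finset.sum_eq_single ∅]
      · rw [lam_apply_empty, if_pos rfl, one_mul]
      · intro K _ hK
        rw [lam_apply_empty, if_neg hK, zero_mul]
      · intro h
        exact absurd (Finset.mem_univ _) h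
    · intro I _ hI
      rw [lam_degree W ha I (by rwa [Ne, Finset.card_eq_zero]), zero_mul]
    · intro h
      exact absurd (Finset.mem_univ _) h
  | succ p ih =>
    intro a b ha
    have h1 : ∑ J : Fin (p + 1) → Fin d, ∑ K : Fin (p + 1) → Fin d,
        ten (p + 1) a J * (∏ m, W (K m) (J m)) * conj (ten (p + 1) b K) =
        ∑ j, ∑ k, W k j * ∑ J : Fin p → Fin d, ∑ K : Fin p → Fin d,
          ten p (iot j *ᵥ a) J * (∏ m, W (K m) (J m)) * conj (ten p (iot k *ᵥ b) K) := by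
      rw [← (Fin.consEquiv fun _ => Fin d).sum_comp, Fintype.sum_prod_type]
      refine Finset.sum_congr rfl fun j _ => ?_
      have e1 : ∀ J : Fin p → Fin d, ∑ K : Fin (p + 1) → Fin d,
          ten (p + 1) a ((Fin.consEquiv fun _ => Fin d) (j, J)) *
            (∏ m, W (K m) ((Fin.consEquiv fun _ => Fin d) (j, J) m)) *
            conj (ten (p + 1) b K) =
          ∑ k, W k j * ∑ K : Fin p → Fin d, ten p (iot j *ᵥ a) J *
            (∏ m, W (K m) (J m)) * conj (ten p (iot k *ᵥ b) K) := by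
        intro J
        rw [← (Fin.consEquiv fun _ => Fin d).sum_comp, Fintype.sum_prod_type]
        refine Finset.sum_congr rfl fun k _ => ?_
        rw [Finset.mul_sum]
        refine Finset.sum_congr rfl fun K _ => ?_
        have c1 : (Fin.consEquiv fun _ => Fin d) (j, J) = (Fin.cons j J : Fin (p + 1) → Fin d) :=
          rfl
        have c2 : (Fin.consEquiv fun _ => Fin d) (k, K) = (Fin.cons k K : Fin (p + 1) → Fin d) :=
          rfl
        rw [c1, c2, ten_succ, ten_succ, Fin.prod_univ_succ]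
        simp only [Fin.cons_zero, Fin.cons_succ, Fin.tail_cons]
        ring
      rw [Finset.sum_congr rfl fun J _ => e1 J, Finset.sum_comm]
      refine Finset.sum_congr rfl fun k _ => ?_
      rw [Finset.mul_sum]
    rw [h1]
    have h2 : ∀ j k, ∑ J : Fin p → Fin d, ∑ K : Fin p → Fin d,
        ten p (iot j *ᵥ a) J * (∏ m, W (K m) (J m)) * conj (ten p (iot k *ᵥ b) K) =
        (p.factorial : ℂ) * pr (lam W *ᵥ (iot j *ᵥ a)) (iot k *ᵥ b) := fun j k =>
      ih _ (iot_degree ha j)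
    simp only [h2]
    have h3 : ∀ j, ∑ k, W k j * ((p.factorial : ℂ) * pr (lam W *ᵥ (iot j *ᵥ a)) (iot k *ᵥ b)) =
        (p.factorial : ℂ) * pr (lam W *ᵥ ((eps j * iot j) *ᵥ a)) b := by
      intro j
      have e1 : lam W *ᵥ ((eps j * iot j) *ᵥ a) =
          ∑ k, W k j • (eps k *ᵥ (lam W *ᵥ (iot j *ᵥ a))) := by
        rw [← Matrix.mulVec_mulVec, Matrix.mulVec_mulVec, lam_eps, ← Matrix.mulVec_mulVec,
          Matrix.sum_mulVec]
        exact Finset.sum_congr rfl fun k _ => Matrix.smul_mulVec _ _ _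
      rw [e1, pr_sum_left, Finset.mul_sum]
      refine Finset.sum_congr rfl fun k _ => ?_
      rw [pr_smul_left, pr_mulVec_left (eps k) (lam W *ᵥ (iot j *ᵥ a)) b, eps_conjTranspose]
      ring
    rw [Finset.sum_congr rfl fun j _ => h3 j, ← Finset.mul_sum, ← pr_sum_left,
      ← Matrix.mulVec_sum, sum_eps_iot ha, Matrix.mulVec_smul, pr_smul_left, Nat.factorial_succ]
    push_cast
    ring

end Vale.Agent.P301.H724
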