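import Vale.Agent.P301.H450.Boch
import Vale.Agent.P301.H724.Rank
import Vale.Agent.P299.H954.VF

/-! # Hermitian metrics of nonpositive mean curvature on tensor bundles

For a Kähler metric `w` with `Ric w ≥ 0`, the bundles `(Ω¹)^{⊗p}` and their tensor powers, with
the induced metrics, satisfy `HBun`. -/

open scoped Manifold ContDiff ComplexOrder Topology Matrix Kronecker
open Vale.Agent.P272.K Vale.Agent.P272.K.C2 Vale.Agent.P272.K.AMP
open Vale.Agent.P299 Vale.Agent.P299.H954 Vale.Agent.P299.H937 Vale.Agent.P301.H599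

noncomputable section

namespace Vale.Agent.P301.H724

open Vale.Agent.P301.H450 (HBun)

variable {d : ℕ} {X : Type} [TopologicalSpace X] [ChartedSpace (Cm d) X]
  {w : Chart d X → Cm d → Matrix (Fin d) (Fin d) ℂ} {A : Type} [Fintype A] [DecidableEq A]
  {Λ : Chart d X → Chart d X → X → Matrix A A ℂ} {H : Chart d X → Cm d → Matrix A A ℂ}

theorem lamPow_eq (r : ℕ) (e e' : Chart d X) (x : X) : lamPow r Λ e e' x = tp r (Λ e e' x) := rfl

theorem tp_map_conj (r : ℕ) (M : Matrix A A ℂ) :
    (tp r M).map (starRingEnd ℂ) = tp r (M.map (starRingEnd ℂ)) := by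
  ext I J
  simp [tp_apply]

/-- The tensor power of a Hermitian bundle of nonpositive mean curvature. -/
theorem hBun_lamPow (h : HBun w Λ H) (r : ℕ) :
    HBun w (lamPow r Λ) (fun e z => tp r (H e z)) where
  smooth e x hx := MC_tp r (h.smooth e x hx)
  pos e x hx := tp_posDef r (h.pos e x hx)
  change e e' x hx hx' := by
    rw [lamPow_eq, ← tp_transpose, tp_map_conj, ← tp_mul, ← tp_mul, h.change e e' x hx hx']
  curv e x hx := neg_RmS_tp r (fun i j => (h.smooth e x hx i j).of_le (by norm_cast))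
    (h.pos e x hx) (h.curv e x hx)

variable (d X) in
/-- The transition matrices of the bundle `Ω¹`. -/
def Lam1 (e e' : Chart d X) (x : X) : Matrix (Fin d) (Fin d) ℂ := (jacM e e' x)ᵀ

/-- The cotangent bundle of a Kähler manifold with `Ric ≥ 0`. -/
theorem hBun_one [IsManifold 𝓘(ℂ, Cm d) ω X] (hw : IsKahler w) (hric : D.RicNonneg w) :
    HBun w (Lam1 d X) (fun e z => dual (w e) z) where
  smooth e x hx := MC_dual (hw.toIsHermitian.smooth e x hx) (hw.posDef e x hx).det_pos.ne'
  pos e x hx := dual_posDef (hw.posDef e x hx)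
  change e e' x hx hx' := by
    have h1 := hw.change e e' x hx hx'
    have hJ : IsUnit (jacM e e' x).det := jacM_isUnit hx hx'
    have hJc : IsUnit ((jacM e e' x).map (starRingEnd ℂ)).det := by
      have h2 : ((jacM e e' x).map (starRingEnd ℂ)).det = starRingEnd ℂ (jacM e e' x).det :=
        (RingHom.map_det _ _).symm
      rw [h2]
      exact hJ.map _
    simp only [dual, Lam1, h1, Matrix.mul_inv_rev, Matrix.transpose_mul,
      Matrix.transpose_transpose, Matrix.transpose_nonsing_inv, Matrix.transpose_map]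
    rw [← Matrix.mul_assoc, ← Matrix.mul_assoc, Matrix.mul_nonsing_inv _ hJ, Matrix.one_mul,
      Matrix.mul_assoc]
    rw [Matrix.nonsing_inv_mul, Matrix.mul_one]
    rwa [Matrix.det_transpose]
  curv e x hx := posSemidef_of_ric_nonneg hw hric hx

variable (d X) in
/-- The transition matrices of the bundle `(Ω¹)^{⊗p}`. -/
def LamT (p : ℕ) : Chart d X → Chart d X → X → Matrix (Fin p → Fin d) (Fin p → Fin d) ℂ :=
  lamPow p (Lam1 d X)

/-- `(Ω¹)^{⊗p}` -/
theorem hBun_LamT [IsManifold 𝓘(ℂ, Cm d) ω X] (hw : IsKahler w) (hric : D.RicNonneg w) (p : ℕ) :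
    HBun w (LamT d X p) (fun e z => tp p (dual (w e) z)) :=
  hBun_lamPow (hBun_one hw hric) p

/-- `(Ω¹)^{⊗p})^{⊗r}` -/
theorem hBun_lamPow_LamT [IsManifold 𝓘(ℂ, Cm d) ω X] (hw : IsKahler w) (hric : D.RicNonneg w)
    (p r : ℕ) : HBun w (lamPow r (LamT d X p)) (fun e z => tp r (tp p (dual (w e) z))) :=
  hBun_lamPow (hBun_LamT hw hric p) r

end Vale.Agent.P301.H724
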