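import Vale.Agent.P301.H98.Ibp
import Vale.Agent.P299.H863.Rell
import Vale.Agent.P299.H863.Gard
import Vale.Agent.P272.K.AMP.Calc

/-!
# P301, N3-PHI: local compactness of quasi-plurisubharmonic functions
-/

open scoped Manifold ContDiff ComplexOrder Topology Matrix ComplexConjugate ENNReal
open Vale.Agent.P272.K Vale.Agent.P272.K.C2 MeasureTheory Set Filter
open Vale.Agent.P301.H98 Vale.Agent.P299.H863

set_option linter.all false

noncomputable section

namespace Vale.Agent.P301.H724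

variable {d : ℕ}

lemma le_two_infty : ((0 : WithTop ℕ∞) + 1 + 1) ≤ (∞ : WithTop ℕ∞) := by
  have : ((0 : WithTop ℕ∞) + 1 + 1) = ((2 : ℕ∞) : WithTop ℕ∞) := by
    rw [zero_add]; norm_cast
  rw [this]
  exact_mod_cast le_top

lemma lv_single (j : Fin d) (u : Cm d → ℝ) (z : Cm d) :
    lv (Pi.single j 1) u z = cHess u z j j := by
  unfold lv
  rw [Finset.sum_eq_single j, Finset.sum_eq_single j]
  · simp
  · intro k _ hk
    simp [Pi.single_eq_of_ne hk]
  · simp
  · intro k _ hk
    simp [Pi.single_eq_of_ne hk]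
  · simp

lemma dv_const (v : Cm d) (c : ℂ) (z : Cm d) : dv v (fun _ => c) z = 0 := by
  unfold dv
  exact Finset.sum_eq_zero fun j _ => by rw [C2.dz_const, mul_zero]

lemma dz_mul_dzb_real {v : Cm d → ℝ} {z : Cm d} (hv : DifferentiableAt ℝ v z) (j : Fin d) :
    dz j (fun y => (v y : ℂ)) z * dzb j (fun y => (v y : ℂ)) z =
      ((‖dz j (fun y => (v y : ℂ)) z‖ ^ 2 : ℝ) : ℂ) := by
  rw [C2.dzb_real j hv, Complex.mul_conj, Complex.normSq_eq_norm_sq]

/-- the Levi form of `exp (2 v)` -/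
lemma cHess_exp_two {v : Cm d → ℝ} {z : Cm d} (hv : ContDiffAt ℝ 2 v z) (j : Fin d) :
    (cHess (fun y => Real.exp (2 * v y)) z j j).re = 2 * Real.exp (2 * v z) * (cHess v z j j).re +
      4 * (Real.exp (2 * v z) * ‖dz j (fun y => (v y : ℂ)) z‖ ^ 2) := by
  have h1 := C2.cHess_comp (ψ := fun s => Real.exp (2 * s)) (ψ₁ := fun s => 2 * Real.exp (2 * s))
    (ψ₂ := 4 * Real.exp (2 * v z)) (u := v) (z := z)
    (Eventually.of_forall fun s => by
      have h2 : HasDerivAt (fun s : ℝ => 2 * s) 2 s := by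
        simpa using (hasDerivAt_id s).const_mul (2 : ℝ)
      exact h2.exp.congr_deriv (by ring))
    (by
      have h2 : HasDerivAt (fun s : ℝ => 2 * s) 2 (v z) := by
        simpa using (hasDerivAt_id (v z)).const_mul (2 : ℝ)
      exact (h2.exp.const_mul 2).congr_deriv (by ring)) hv j j
  rw [h1, dz_mul_dzb_real (hv.differentiableAt (by norm_num)) j, Complex.add_re,
    Complex.re_ofReal_mul, ← Complex.ofReal_mul, Complex.ofReal_re]
  ring

/-- **Caccioppoli.** -/
theorem cacc {Ω : Set (Cm d)} {χ : Cm d → ℝ} (hχ : ContDiff ℝ ∞ χ) (hc : HasCompactSupport χ)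
    (hs : tsupport χ ⊆ Ω) (hχ0 : ∀ z, 0 ≤ χ z) (C₁ A : ℝ) (j : Fin d) :
    ∃ C, 0 ≤ C ∧ ∀ v : Cm d → ℝ, (∀ z ∈ Ω, ContDiffAt ℝ ∞ v z) → (∀ z ∈ tsupport χ, v z ≤ C₁) →
      (∀ z ∈ tsupport χ, -A ≤ (cHess v z j j).re) →
      ∫ z, χ z * (Real.exp (2 * v z) * ‖dz j (fun y => (v y : ℂ)) z‖ ^ 2) ≤ C := by
  have hχi : Integrable χ := hχ.continuous.integrable_of_hasCompactSupport hc
  have hHc : Continuous fun z => cHess χ z j j :=
    continuous_iff_continuousAt.2 fun z => (C2.contDiffAt_cHess (m := 0) (k := ∞)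
      hχ.contDiffAt le_two_infty j j).continuousAt
  have hH0 : ∀ z, z ∉ tsupport χ → cHess χ z j j = 0 := fun z hz => by
    rw [INT.cHess_zero_of_notMem hz]; rfl
  have hHi : Integrable fun z => cHess χ z j j :=
    hHc.integrable_of_hasCompactSupport (HasCompactSupport.intro hc hH0)
  refine ⟨Real.exp (2 * C₁) * (∫ z, ‖cHess χ z j j‖) + 2 * |A| * Real.exp (2 * C₁) * ∫ z, χ z,
    by
      have h1 : 0 ≤ ∫ z, ‖cHess χ z j j‖ := integral_nonneg fun z => norm_nonneg _
      have h2 : 0 ≤ ∫ z, χ z := integral_nonneg hχ0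
      positivity, ?_⟩
  intro v hv hvC hvA
  set u : Cm d → ℝ := fun y => Real.exp (2 * v y) with hu
  have hus : ∀ z ∈ Ω, ContDiffAt ℝ ∞ u z := fun z hz =>
    Real.contDiff_exp.contDiffAt.comp z (contDiffAt_const.mul (hv z hz))
  have key := integral_parts (χ := χ) (ψ := fun _ => 1) (u := u) (v := Pi.single j 1) hχ hc hs
    (fun z _ => contDiffAt_const) hus (fun z _ => by
      show dv _ (fun _ => (((1 : ℝ)) : ℂ)) z = 0
      exact dv_const _ _ _)
  simp only [mul_one, one_mul, lv_single] at key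
  -- integrability of the left side
  have hLc : ContDiff ℝ 0 fun z => ((χ z : ℝ) : ℂ) * cHess u z j j := by
    refine contDiff_of_supp (isClosed_tsupport χ) (fun z hz => ?_) fun z hz => ?_
    · exact (C2.contDiffAt_ofReal (hχ.contDiffAt.of_le (by norm_cast))).mul
        (C2.contDiffAt_cHess (m := 0) (k := ∞) (hus z (hs hz)) le_two_infty j j)
    · rw [image_eq_zero_of_notMem_tsupport hz]; simp
  have hLi : Integrable fun z => ((χ z : ℝ) : ℂ) * cHess u z j j :=
    hLc.continuous.integrable_of_hasCompactSupport (HasCompactSupport.intro hc fun z hz => by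
      rw [image_eq_zero_of_notMem_tsupport hz]; simp)
  have hpt : ∀ z, 4 * (χ z * (Real.exp (2 * v z) * ‖dz j (fun y => (v y : ℂ)) z‖ ^ 2)) ≤
      (((χ z : ℝ) : ℂ) * cHess u z j j).re + 2 * |A| * Real.exp (2 * C₁) * χ z := by
    intro z
    by_cases hz : z ∈ tsupport χ
    · have h1 := cHess_exp_two ((hv z (hs hz)).of_le (by norm_cast)) j
      rw [Complex.re_ofReal_mul, h1]
      have h2 := hvA z hz
      have h3 := hvC z hz
      have h4 : Real.exp (2 * v z) ≤ Real.exp (2 * C₁) := Real.exp_le_exp.2 (by linarith)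
      have h5 : -(|A| * Real.exp (2 * C₁)) ≤ Real.exp (2 * v z) * (cHess v z j j).re := by
        have h6 : -|A| ≤ (cHess v z j j).re := (neg_le_neg (le_abs_self A)).trans h2
        have h7 : Real.exp (2 * v z) * (-|A|) ≤ Real.exp (2 * v z) * (cHess v z j j).re :=
          mul_le_mul_of_nonneg_left h6 (Real.exp_pos _).le
        have h8 : Real.exp (2 * v z) * |A| ≤ Real.exp (2 * C₁) * |A| :=
          mul_le_mul_of_nonneg_right h4 (abs_nonneg _)
        linarith
      have h9 := mul_le_mul_of_nonneg_left h5 (hχ0 z)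
      nlinarith
    · rw [image_eq_zero_of_notMem_tsupport hz]; simp
  have h1 : ∫ z, 4 * (χ z * (Real.exp (2 * v z) * ‖dz j (fun y => (v y : ℂ)) z‖ ^ 2)) ≤
      ∫ z, ((((χ z : ℝ) : ℂ) * cHess u z j j).re + 2 * |A| * Real.exp (2 * C₁) * χ z) := by
    refine integral_mono_of_nonneg (Eventually.of_forall fun z => ?_)
      (hLi.re.add (hχi.const_mul _)) (Eventually.of_forall hpt)
    have := hχ0 z
    show (0 : ℝ) ≤ _
    positivity
  have hadd : ∫ z, ((((χ z : ℝ) : ℂ) * cHess u z j j).re + 2 * |A| * Real.exp (2 * C₁) * χ z) =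
      (∫ z, (((χ z : ℝ) : ℂ) * cHess u z j j).re) + ∫ z, 2 * |A| * Real.exp (2 * C₁) * χ z :=
    integral_add hLi.re (hχi.const_mul _)
  rw [integral_const_mul, hadd, integral_const_mul] at h1
  have h2 : ∫ z, (((χ z : ℝ) : ℂ) * cHess u z j j).re = (∫ z, ((u z : ℝ) : ℂ) * cHess χ z j j).re := by
    rw [← key]
    exact integral_re hLi
  have h3 : ‖∫ z, ((u z : ℝ) : ℂ) * cHess χ z j j‖ ≤ ∫ z, Real.exp (2 * C₁) * ‖cHess χ z j j‖ := by
    refine norm_integral_le_of_norm_le (hHi.norm.const_mul _) (Eventually.of_forall fun z => ?_)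
    by_cases hz : z ∈ tsupport χ
    · rw [norm_mul, Complex.norm_real, Real.norm_of_nonneg (Real.exp_pos _).le]
      refine mul_le_mul_of_nonneg_right ?_ (norm_nonneg _)
      exact Real.exp_le_exp.2 (by linarith [hvC z hz])
    · rw [hH0 z hz]; simp
  rw [integral_const_mul] at h3
  have h4 := (Complex.re_le_norm (∫ z, ((u z : ℝ) : ℂ) * cHess χ z j j)).trans h3
  have h5 : 0 ≤ ∫ z, χ z * (Real.exp (2 * v z) * ‖dz j (fun y => (v y : ℂ)) z‖ ^ 2) :=
    integral_nonneg fun z => by have := hχ0 z; positivity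
  rw [h2] at h1
  linarith

lemma cont_mul_of_supp {χ f : Cm d → ℝ} (hχ : Continuous χ)
    (hf : ∀ z ∈ tsupport χ, ContinuousAt f z) : Continuous fun z => χ z * f z := by
  rw [continuous_iff_continuousAt]
  intro z
  by_cases hz : z ∈ tsupport χ
  · exact hχ.continuousAt.mul (hf z hz)
  · refine (continuousAt_const (y := (0 : ℝ))).congr ?_
    filter_upwards [notMem_tsupport_iff_eventuallyEq.1 hz] with y hy
    rw [hy]; simp

theorem norm_le_dirs (T : Cm d →L[ℝ] ℝ) :
    ‖T‖ ≤ ∑ j, (‖T (Pi.single j 1)‖ + ‖T (Pi.single j Complex.I)‖) := by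
  refine T.opNorm_le_bound (Finset.sum_nonneg fun j _ => by positivity) fun h => ?_
  have e : h = ∑ j, ((h j).re • (Pi.single j 1 : Cm d) +
      (h j).im • (Pi.single j Complex.I : Cm d)) := by
    funext k
    rw [Finset.sum_apply, Finset.sum_eq_single k]
    · simp only [Pi.add_apply, Pi.smul_apply, Pi.single_eq_same, Complex.real_smul, mul_one]
      exact (Complex.re_add_im (h k)).symm
    · intro j _ hj
      simp [Pi.single_eq_of_ne (Ne.symm hj)]
    · simp
  have e' : T h = T (∑ j, ((h j).re • (Pi.single j 1 : Cm d) +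
      (h j).im • (Pi.single j Complex.I : Cm d))) := congrArg T e
  rw [e', map_sum, Finset.sum_mul]
  refine (norm_sum_le _ _).trans (Finset.sum_le_sum fun j _ => ?_)
  rw [map_add, map_smul, map_smul]
  refine (norm_add_le _ _).trans ?_
  rw [norm_smul, norm_smul, add_mul, mul_comm ‖T (Pi.single j 1)‖,
    mul_comm ‖T (Pi.single j Complex.I)‖]
  have h1 : ‖(h j).re‖ ≤ ‖h‖ := (Complex.abs_re_le_norm _).trans (norm_le_pi_norm h j)
  have h2 : ‖(h j).im‖ ≤ ‖h‖ := (Complex.abs_im_le_norm _).trans (norm_le_pi_norm h j)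
  exact add_le_add (mul_le_mul_of_nonneg_right h1 (norm_nonneg _))
    (mul_le_mul_of_nonneg_right h2 (norm_nonneg _))

lemma norm_fderiv_le_dz {F : Cm d → ℝ} {z : Cm d} (hF : DifferentiableAt ℝ F z) :
    ‖fderiv ℝ F z‖ ≤ ∑ j, 4 * ‖dz j (fun y => (F y : ℂ)) z‖ := by
  refine (norm_le_dirs (fderiv ℝ F z)).trans (Finset.sum_le_sum fun j _ => ?_)
  have h1 : dz j (fun y => (F y : ℂ)) z = (1 / 2 : ℂ) * (((fderiv ℝ F z (Pi.single j 1) : ℝ) : ℂ) -
      Complex.I * ((fderiv ℝ F z (Pi.single j Complex.I) : ℝ) : ℂ)) := by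
    rw [← AMP.fderiv_ofReal' hF, ← AMP.fderiv_ofReal' hF, INT.dz_fun_eq]
  have hre : (dz j (fun y => (F y : ℂ)) z).re = 1 / 2 * fderiv ℝ F z (Pi.single j 1) := by
    rw [h1]; simp
  have him : (dz j (fun y => (F y : ℂ)) z).im = -(1 / 2) * fderiv ℝ F z (Pi.single j Complex.I) := by
    rw [h1]; simp
  have h2 := Complex.abs_re_le_norm (dz j (fun y => (F y : ℂ)) z)
  have h3 := Complex.abs_im_le_norm (dz j (fun y => (F y : ℂ)) z)
  rw [hre, abs_mul] at h2
  rw [him, abs_mul] at h3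
  rw [Real.norm_eq_abs, Real.norm_eq_abs]
  have h4 : |(1 / 2 : ℝ)| = 1 / 2 := by norm_num
  have h5 : |(-(1 / 2) : ℝ)| = 1 / 2 := by norm_num
  rw [h4] at h2
  rw [h5] at h3
  linarith

lemma eLpNorm_two_le {g : Cm d → ℝ} (hg : Continuous g) (hgc : HasCompactSupport g) {C : ℝ}
    (h : ∫ z, g z ^ 2 ≤ C) : eLpNorm g 2 volume ≤ ENNReal.ofReal (Real.sqrt C) := by
  have hm : MemLp g 2 volume := hg.memLp_of_hasCompactSupport hgc
  rw [hm.eLpNorm_eq_integral_rpow_norm (by norm_num) (by norm_num)]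
  refine ENNReal.ofReal_le_ofReal ?_
  have h2 : (2 : ℝ≥0∞).toReal = 2 := by norm_num
  rw [h2]
  have h3 : ∫ z, ‖g z‖ ^ (2 : ℝ) = ∫ z, g z ^ 2 := by
    refine integral_congr_ae (Eventually.of_forall fun z => ?_)
    simp only []
    rw [Real.rpow_two, Real.norm_eq_abs, sq_abs]
  rw [h3, Real.sqrt_eq_rpow, one_div]
  exact Real.rpow_le_rpow (integral_nonneg fun z => sq_nonneg _) h (by norm_num)

/-- the functions `χ exp v` are bounded in `W^{1,2}` -/
theorem exists_RF {Ω : Set (Cm d)} {χ : Cm d → ℝ} (hχ : ContDiff ℝ ∞ χ)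
    (hc : HasCompactSupport χ) (hs : tsupport χ ⊆ Ω) (hχ0 : ∀ z, 0 ≤ χ z) (C₁ A : ℝ) :
    ∃ C : ℝ≥0∞, C ≠ ⊤ ∧ ∀ v : Cm d → ℝ, (∀ z ∈ Ω, ContDiffAt ℝ ∞ v z) →
      (∀ z ∈ tsupport χ, v z ≤ C₁) → (∀ z ∈ tsupport χ, ∀ j, -A ≤ (cHess v z j j).re) →
      RF volume (tsupport χ) C (fun z => χ z * Real.exp (v z)) := by
  have hc2 : HasCompactSupport fun z => χ z ^ 2 := by
    refine HasCompactSupport.intro hc fun z hz => ?_
    rw [image_eq_zero_of_notMem_tsupport hz]; simp
  have hts : tsupport (fun z => χ z ^ 2) ⊆ tsupport χ := by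
    refine closure_mono fun z hz => ?_
    rw [Function.mem_support] at hz ⊢
    intro h; rw [h] at hz; simp at hz
  have hcacc := fun j => cacc (Ω := Ω) (χ := fun z => χ z ^ 2) (hχ.pow 2) hc2 (hts.trans hs)
    (fun z => sq_nonneg _) C₁ A j
  choose B hB0 hB using hcacc
  set Ca : ℝ≥0∞ := eLpNorm (fun z => Real.exp C₁ * χ z) 2 volume with hCa
  set D : Fin d → Cm d → ℝ := fun j z => 4 * (Real.exp C₁ * ‖dz j (fun y => (χ y : ℂ)) z‖) with hD
  have hDc : ∀ j, Continuous (D j) := fun j => by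
    have h1 : Continuous (dz j fun y => (χ y : ℂ)) :=
      continuous_iff_continuousAt.2 fun z => (C2.contDiffAt_dz (m := 0) (k := ∞) j
        (C2.contDiffAt_ofReal hχ.contDiffAt) (by rw [zero_add]; exact_mod_cast le_top)).continuousAt
    exact continuous_const.mul (continuous_const.mul h1.norm)
  have hdz0 : ∀ j z, z ∉ tsupport χ → dz j (fun y => (χ y : ℂ)) z = 0 := fun j z hz => by
    have h0 : (fun y => (χ y : ℂ)) =ᶠ[𝓝 z] fun _ => 0 := by
      filter_upwards [notMem_tsupport_iff_eventuallyEq.1 hz] with y hy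
      rw [hy]; simp
    rw [C2.dz_congr j h0, C2.dz_const]
  have hDs : ∀ j, HasCompactSupport (D j) := fun j => HasCompactSupport.intro hc fun z hz => by
    simp only [hD]; rw [hdz0 j z hz]; simp
  have hDm : ∀ j, MemLp (D j) 2 volume := fun j => (hDc j).memLp_of_hasCompactSupport (hDs j)
  set Cb : ℝ≥0∞ := ∑ j, (eLpNorm (D j) 2 volume + ENNReal.ofReal (Real.sqrt (16 * B j))) with hCb
  have hCac : Continuous fun z => Real.exp C₁ * χ z := continuous_const.mul hχ.continuous
  have hCas : HasCompactSupport fun z => Real.exp C₁ * χ z :=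
    HasCompactSupport.intro hc fun z hz => by
      rw [image_eq_zero_of_notMem_tsupport hz, mul_zero]
  have hCat : Ca ≠ ⊤ := (hCac.memLp_of_hasCompactSupport hCas).eLpNorm_ne_top
  have hCbt : Cb ≠ ⊤ := by
    rw [hCb]
    exact (ENNReal.sum_lt_top.2 fun j _ => ENNReal.add_lt_top.2
      ⟨(hDm j).eLpNorm_lt_top, ENNReal.ofReal_lt_top⟩).ne
  refine ⟨max Ca Cb, by simp [hCat, hCbt], fun v hv hvC hvA => ?_⟩
  set F : Cm d → ℝ := fun z => χ z * Real.exp (v z) with hF
  have hFs : ContDiff ℝ ∞ F := by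
    rw [contDiff_iff_contDiffAt]
    intro z
    by_cases hz : z ∈ tsupport χ
    · exact hχ.contDiffAt.mul (Real.contDiff_exp.contDiffAt.comp z (hv z (hs hz)))
    · refine (contDiffAt_const (c := (0 : ℝ))).congr_of_eventuallyEq ?_
      filter_upwards [notMem_tsupport_iff_eventuallyEq.1 hz] with y hy
      simp only [hF]; rw [hy]; simp
  set g : Fin d → Cm d → ℝ := fun j z =>
    χ z * (4 * (Real.exp (v z) * ‖dz j (fun y => (v y : ℂ)) z‖)) with hg
  have hgc : ∀ j, Continuous (g j) := fun j => cont_mul_of_supp hχ.continuous fun z hz => by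
    have h1 : ContinuousAt (dz j fun y => (v y : ℂ)) z :=
      (C2.contDiffAt_dz (m := 0) (k := ∞) j
        (C2.contDiffAt_ofReal (hv z (hs hz))) (by rw [zero_add]; exact_mod_cast le_top)).continuousAt
    have h2 : ContinuousAt v z := (hv z (hs hz)).continuousAt
    exact continuousAt_const.mul ((Real.continuous_exp.continuousAt.comp h2).mul h1.norm)
  have hgs : ∀ j, HasCompactSupport (g j) := fun j => HasCompactSupport.intro hc fun z hz => by
    simp only [hg]; rw [image_eq_zero_of_notMem_tsupport hz]; simp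
  have hpt : ∀ z, ‖fderiv ℝ F z‖ ≤ ∑ j, (D j z + g j z) := by
    intro z
    refine (norm_fderiv_le_dz (hFs.contDiffAt.differentiableAt (by simp))).trans
      (Finset.sum_le_sum fun j _ => ?_)
    by_cases hz : z ∈ tsupport χ
    · have d1 : DifferentiableAt ℝ χ z := hχ.contDiffAt.differentiableAt (by simp)
      have d2 : DifferentiableAt ℝ v z := (hv z (hs hz)).differentiableAt (by simp)
      have e1 : dz j (fun y => ((Real.exp (v y) : ℝ) : ℂ)) z =
          ((Real.exp (v z) : ℝ) : ℂ) * dz j (fun y => (v y : ℂ)) z :=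
        C2.dz_comp_real j (Real.hasDerivAt_exp (v z)) d2
      have e2 : (fun y => ((F y : ℝ) : ℂ)) = fun y => ((χ y : ℝ) : ℂ) * ((Real.exp (v y) : ℝ) : ℂ) := by
        funext y; simp only [hF]; push_cast; rfl
      have d3 : DifferentiableAt ℝ (fun y => Real.exp (v y)) z := d2.exp
      rw [e2, C2.dz_mul j (C2.differentiableAt_ofReal d1) (C2.differentiableAt_ofReal d3), e1]
      have h1 := norm_add_le (dz j (fun y => (χ y : ℂ)) z * ((Real.exp (v z) : ℝ) : ℂ))
        (((χ z : ℝ) : ℂ) * (((Real.exp (v z) : ℝ) : ℂ) * dz j (fun y => (v y : ℂ)) z))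
      rw [norm_mul, norm_mul, norm_mul, Complex.norm_real, Complex.norm_real,
        Real.norm_of_nonneg (Real.exp_pos _).le, Real.norm_of_nonneg (hχ0 z)] at h1
      have h2 : ‖dz j (fun y => (χ y : ℂ)) z‖ * Real.exp (v z) ≤
          Real.exp C₁ * ‖dz j (fun y => (χ y : ℂ)) z‖ := by
        rw [mul_comm]
        exact mul_le_mul_of_nonneg_right (Real.exp_le_exp.2 (hvC z hz)) (norm_nonneg _)
      simp only [hD, hg]
      refine (mul_le_mul_of_nonneg_left h1 (by norm_num)).trans ?_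
      rw [mul_add]
      refine add_le_add (mul_le_mul_of_nonneg_left h2 (by norm_num)) (le_of_eq (by ring))
    · have h0 : (fun y => ((F y : ℝ) : ℂ)) =ᶠ[𝓝 z] fun _ => 0 := by
        filter_upwards [notMem_tsupport_iff_eventuallyEq.1 hz] with y hy
        simp only [hF]; rw [hy]; simp
      rw [C2.dz_congr j h0, C2.dz_const, norm_zero, mul_zero]
      simp only [hD, hg]
      have := hχ0 z
      positivity
  refine ⟨hFs, ?_, ?_, ?_⟩
  · refine closure_mono fun z hz => ?_
    rw [Function.mem_support] at hz ⊢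
    intro h; apply hz; simp only [hF]; rw [h, zero_mul]
  · refine le_trans (eLpNorm_mono_real (g := fun z => Real.exp C₁ * χ z) fun z => ?_)
      (le_max_left _ _)
    by_cases hz : z ∈ tsupport χ
    · simp only [hF]
      rw [Real.norm_of_nonneg (mul_nonneg (hχ0 z) (Real.exp_pos _).le), mul_comm]
      exact mul_le_mul_of_nonneg_right (Real.exp_le_exp.2 (hvC z hz)) (hχ0 z)
    · simp only [hF]
      rw [image_eq_zero_of_notMem_tsupport hz, zero_mul, mul_zero, norm_zero]
  · refine le_trans (eLpNorm_mono_real hpt) (le_trans ?_ (le_max_right _ _))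
    have h1 : (fun z => ∑ j, (D j z + g j z)) = ∑ j, (D j + g j) := by
      funext z; simp
    rw [h1]
    refine (eLpNorm_sum_le (fun j _ => ((hDm j).1.add
      (hgc j).aestronglyMeasurable)) (by norm_num)).trans ?_
    refine Finset.sum_le_sum fun j _ => (eLpNorm_add_le (hDm j).1
      (hgc j).aestronglyMeasurable (by norm_num)).trans (add_le_add le_rfl ?_)
    refine eLpNorm_two_le (hgc j) (hgs j) ?_
    have h2 := hB j v hv (fun z hz => hvC z (hts hz)) (fun z hz => hvA z (hts hz) j)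
    have h3 : ∫ z, g j z ^ 2 = 16 * ∫ z, χ z ^ 2 *
        (Real.exp (2 * v z) * ‖dz j (fun y => (v y : ℂ)) z‖ ^ 2) := by
      rw [← integral_const_mul]
      refine integral_congr_ae (Eventually.of_forall fun z => ?_)
      simp only [hg]
      have : Real.exp (2 * v z) = Real.exp (v z) ^ 2 := by
        rw [← Real.exp_nat_mul]; norm_num
      rw [this]; ring
    rw [h3]
    exact mul_le_mul_of_nonneg_left h2 (by norm_num)

end Vale.Agent.P301.H724
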