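import Vale.Agent.P301.H724.Phi1
import Vale.Agent.P301.H794.ZGlob
import Vale.Agent.P301.H98.Eff

/-!
# P301, N3-PHI: subsequences converging almost everywhere
-/

open scoped Manifold ContDiff ComplexOrder Topology Matrix ComplexConjugate ENNReal
open Vale.Agent.P272.K Vale.Agent.P272.K.C2 MeasureTheory Set Filter
open Vale.Agent.P301.H98 Vale.Agent.P299.H863 Vale.Agent.P301.H599 Vale.Agent.P301.H862

set_option linter.all false

noncomputable section

namespace Vale.Agent.P301.H724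

variable {d : ℕ}

/-- a subsequence converging almost everywhere, from finite nets -/
theorem exists_subseq {κ : Type*} [Finite κ] {K : κ → Set (Cm d)} (hK : ∀ k, IsCompact (K k))
    {C : κ → ℝ≥0∞} (hC : ∀ k, C k ≠ ⊤) {F : κ → ℕ → Cm d → ℝ}
    (hF : ∀ k N, RF volume (K k) (C k) (F k N)) :
    ∃ ψ : ℕ → ℕ, StrictMono ψ ∧ ∀ k, ∀ᵐ z, ∃ l, Tendsto (fun n => F k (ψ n) z) atTop (𝓝 l) := by
  have hpow : ∀ n : ℕ, 0 < (2⁻¹ : ℝ≥0∞) ^ n := fun n => ENNReal.pow_pos (by norm_num) n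
  have hnet : ∀ k (n : ℕ), ∃ w : Cm d → ℝ, AEStronglyMeasurable w volume ∧
      ∀ᶠ N in (hyperfilter ℕ : Filter ℕ), eLpNorm (F k N - w) 2 volume ≤ (2⁻¹ : ℝ≥0∞) ^ n := by
    intro k n
    obtain ⟨t, htf, ht, hn⟩ := rellich_net (V := ℝ) (μ := (volume : Measure (Cm d))) (hK k) (hC k)
      (hpow n)
    have h1 : (⋃ w ∈ t, {N | eLpNorm (F k N - w) 2 volume ≤ (2⁻¹ : ℝ≥0∞) ^ n}) ∈ hyperfilter ℕ := by
      refine mem_of_superset univ_mem fun N _ => ?_
      obtain ⟨w, hw, hwn⟩ := hn _ (hF k N)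
      exact mem_biUnion hw hwn
    obtain ⟨w, hw, hwn⟩ := (Ultrafilter.finite_biUnion_mem_iff htf).1 h1
    exact ⟨w, (ht w hw).smooth.continuous.aestronglyMeasurable, hwn⟩
  choose w hwm hw using hnet
  have hfreq : ∀ n : ℕ, ∃ᶠ N in atTop, ∀ k, ∀ i ≤ n,
      eLpNorm (F k N - w k i) 2 volume ≤ (2⁻¹ : ℝ≥0∞) ^ i := by
    intro n
    have h1 : ∀ᶠ N in (hyperfilter ℕ : Filter ℕ), ∀ k, ∀ i ≤ n,
        eLpNorm (F k N - w k i) 2 volume ≤ (2⁻¹ : ℝ≥0∞) ^ i := by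
      rw [eventually_all]
      intro k
      have h2 := (Set.finite_le_nat n).eventually_all (l := (hyperfilter ℕ : Filter ℕ))
        (p := fun i N => eLpNorm (F k N - w k i) 2 volume ≤ (2⁻¹ : ℝ≥0∞) ^ i)
      exact h2.2 fun i _ => hw k i
    exact h1.frequently.filter_mono Nat.hyperfilter_le_atTop
  obtain ⟨ψ, hψ, hψn⟩ := extraction_forall_of_frequently hfreq
  refine ⟨ψ, hψ, fun k => ?_⟩
  refine Lp.ae_tendsto_of_cauchy_eLpNorm (p := 2) (μ := volume) (f := fun n => F k (ψ n))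
    (B := fun N => 3 * (2⁻¹ : ℝ≥0∞) ^ N)
    (fun n => (hF k (ψ n)).smooth.continuous.aestronglyMeasurable) (by norm_num) ?_ ?_
  · rw [ENNReal.tsum_mul_left, ENNReal.tsum_geometric]
    refine ENNReal.mul_ne_top (by norm_num) ?_
    rw [ENNReal.inv_ne_top]
    simp [tsub_eq_zero_iff_le]
  · intro N n m hn hm
    have h1 := hψn n k N hn
    have h2 := hψn m k N hm
    have e1 : F k (ψ n) - F k (ψ m) = (F k (ψ n) - w k N) - (F k (ψ m) - w k N) := by abel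
    have h3 : eLpNorm (F k (ψ n) - F k (ψ m)) 2 volume ≤ 2 * (2⁻¹ : ℝ≥0∞) ^ N := by
      rw [e1, two_mul]
      exact (eLpNorm_sub_le ((hF k (ψ n)).smooth.continuous.aestronglyMeasurable.sub (hwm k N))
        ((hF k (ψ m)).smooth.continuous.aestronglyMeasurable.sub (hwm k N)) (by norm_num)).trans
        (add_le_add h1 h2)
    refine h3.trans_lt ?_
    have h4 : (2⁻¹ : ℝ≥0∞) ^ N ≠ ⊤ := ENNReal.pow_ne_top (by norm_num)
    exact (ENNReal.mul_lt_mul_iff_left (hpow N).ne' h4).2 (by norm_num)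

end Vale.Agent.P301.H724
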