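import Vale.Agent.P301.H724.Phi2
import Vale.Agent.P301.H794.Assembly
import Mathlib.MeasureTheory.Function.Jacobian
import Mathlib.Analysis.Calculus.BumpFunction.FiniteDimension

/-!
# P301, N3-PHI: one limit weight for all powers
-/

open scoped Manifold ContDiff ComplexOrder Topology Matrix ComplexConjugate ENNReal
open Vale.Agent.P272.K Vale.Agent.P272.K.C2 MeasureTheory Set Filter
open Vale.Agent.P301.H98 Vale.Agent.P299.H863 Vale.Agent.P301.H599 Vale.Agent.P301.H862
open Vale.Agent.P301.H794 (WLim)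

set_option linter.all false

noncomputable section

namespace Vale.Agent.P301.H724

variable {d : ℕ}

section pure

/-- convergence of `exp v` and a bound for the integrals of `exp (-P v)` -/
theorem ae_tendsto_of_exp {K : Set (Cm d)} (hK : IsCompact K) {v : ℕ → Cm d → ℝ}
    (hv : ∀ n, ContinuousOn (v n) K) {P : ℝ} (hP : 0 < P) {B : ℝ≥0∞} (hB : B ≠ ⊤)
    (hexp : ∀ n, ∫⁻ z in K, ENNReal.ofReal (Real.exp (-(P * v n z))) ≤ B)
    (h : ∀ᵐ z ∂(volume.restrict K), ∃ l, Tendsto (fun n => Real.exp (v n z)) atTop (𝓝 l)) :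
    ∀ᵐ z ∂(volume.restrict K), ∃ l, Tendsto (fun n => v n z) atTop (𝓝 l) := by
  classical
  set g : ℕ → Cm d → ℝ≥0∞ := fun n => K.piecewise
    (fun z => ENNReal.ofReal (Real.exp (-(P * v n z)))) (fun _ => 0) with hg
  have hgm : ∀ n, Measurable (g n) := fun n =>
    ContinuousOn.measurable_piecewise
      (ENNReal.continuous_ofReal.comp_continuousOn
        (Real.continuous_exp.comp_continuousOn ((continuousOn_const.mul (hv n)).neg)))
      continuousOn_const hK.measurableSet
  have hgK : ∀ n, ∀ z ∈ K, g n z = ENNReal.ofReal (Real.exp (-(P * v n z))) := fun n z hz =>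
    Set.piecewise_eq_of_mem _ _ _ hz
  have h1 : ∫⁻ z in K, liminf (fun n => g n z) atTop ≤ B := by
    refine (lintegral_liminf_le hgm).trans ?_
    refine (liminf_le_liminf (Eventually.of_forall fun n => ?_)).trans
      (le_of_eq (liminf_const B))
    calc ∫⁻ z in K, g n z = ∫⁻ z in K, ENNReal.ofReal (Real.exp (-(P * v n z))) :=
          setLIntegral_congr_fun hK.measurableSet fun z hz => hgK n z hz
      _ ≤ B := hexp n
  have h2 : ∀ᵐ z ∂(volume.restrict K), liminf (fun n => g n z) atTop < ⊤ :=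
    ae_lt_top (Measurable.liminf hgm) (ne_top_of_le_ne_top hB h1)
  filter_upwards [h, h2, ae_restrict_mem hK.measurableSet] with z hz hz2 hzK
  obtain ⟨l, hl⟩ := hz
  have hl0 : 0 ≤ l := ge_of_tendsto' hl fun n => (Real.exp_pos _).le
  rcases hl0.eq_or_lt with rfl | hlpos
  · exfalso
    have h3 : Tendsto (fun n => g n z) atTop (𝓝 ⊤) := by
      have h4 : Tendsto (fun n => v n z) atTop atBot := by
        have h5 := Real.tendsto_log_nhdsGT_zero.comp (tendsto_nhdsWithin_iff.2
          ⟨hl, Eventually.of_forall fun n => Real.exp_pos (v n z)⟩)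
        refine h5.congr fun n => ?_
        show Real.log (Real.exp (v n z)) = v n z
        exact Real.log_exp _
      have h6 : Tendsto (fun n => Real.exp (-(P * v n z))) atTop atTop := by
        refine Real.tendsto_exp_atTop.comp (tendsto_neg_atBot_atTop.comp ?_)
        exact h4.const_mul_atBot hP
      have h7 := ENNReal.tendsto_ofReal_atTop.comp h6
      refine h7.congr fun n => ?_
      rw [hgK n z hzK]; rfl
    rw [h3.liminf_eq] at hz2
    exact lt_irrefl _ hz2
  · refine ⟨Real.log l, ?_⟩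
    have h5 := (Real.continuousAt_log hlpos.ne').tendsto.comp hl
    refine h5.congr fun n => ?_
    show Real.log (Real.exp (v n z)) = v n z
    exact Real.log_exp _

/-- the transition maps preserve null sets -/
theorem null_image {f : Cm d → Cm d} {s : Set (Cm d)} (hf : ∀ z ∈ s, DifferentiableAt ℝ f z)
    (hs : volume s = 0) : volume (f '' s) = 0 :=
  addHaar_image_eq_zero_of_differentiableOn_of_addHaar_eq_zero volume
    (fun z hz => (hf z hz).differentiableWithinAt) hs

/-- **Vitali.** -/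
theorem vitali {K : Set (Cm d)} (hK : IsCompact K) {f : ℕ → Cm d → ℝ} {g : Cm d → ℝ}
    (hf : ∀ n, ContinuousOn (f n) K) (hf0 : ∀ n, ∀ z ∈ K, 0 ≤ f n z)
    (hae : ∀ᵐ z ∂(volume.restrict K), Tendsto (fun n => f n z) atTop (𝓝 (g z)))
    {B : ℝ≥0∞} (hB : B ≠ ⊤) (h2 : ∀ n, ∫⁻ z in K, ENNReal.ofReal (f n z ^ 2) ≤ B) :
    IntegrableOn g K ∧ Tendsto (fun n => ∫⁻ z in K, ‖f n z - g z‖ₑ) atTop (𝓝 0) := by
  classical
  set μ : Measure (Cm d) := volume.restrict K with hμ
  haveI : IsFiniteMeasure μ := ⟨by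
    rw [hμ, Measure.restrict_apply_univ]; exact hK.measure_lt_top⟩
  have hfm : ∀ n, AEStronglyMeasurable (f n) μ := fun n =>
    (hf n).aestronglyMeasurable hK.measurableSet
  have hgm : AEStronglyMeasurable g μ := aestronglyMeasurable_of_tendsto_ae atTop hfm hae
  have hL2 : ∀ n, eLpNorm (f n) 2 μ ≤ B ^ (1 / 2 : ℝ) := by
    intro n
    rw [eLpNorm_eq_lintegral_rpow_enorm_toReal (by norm_num) (by norm_num)]
    refine ENNReal.rpow_le_rpow ?_ (by norm_num)
    refine le_trans (le_of_eq ?_) (h2 n)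
    refine setLIntegral_congr_fun hK.measurableSet fun z hz => ?_
    have h3 := hf0 n z hz
    simp only [ENNReal.toReal_ofNat, ENNReal.rpow_ofNat]
    rw [← ofReal_norm, Real.norm_of_nonneg h3, ENNReal.ofReal_pow h3]
  have hg2 : eLpNorm g 2 μ ≤ B ^ (1 / 2 : ℝ) := by
    refine (Lp.eLpNorm_lim_le_liminf_eLpNorm hfm g hae).trans ?_
    refine (liminf_le_liminf (Eventually.of_forall hL2)).trans (le_of_eq (liminf_const _))
  have hBt : B ^ (1 / 2 : ℝ) ≠ ⊤ := ENNReal.rpow_ne_top_of_nonneg (by norm_num) hB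
  have hgM : MemLp g 2 μ := ⟨hgm, lt_of_le_of_lt hg2 hBt.lt_top⟩
  have hui : UnifIntegrable f 1 μ := by
    intro ε hε
    set b : ℝ := (B ^ (1 / 2 : ℝ)).toReal with hb
    have hb0 : 0 ≤ b := ENNReal.toReal_nonneg
    refine ⟨(ε / (b + 1)) ^ 2, by positivity, fun n s hs hμs => ?_⟩
    rw [eLpNorm_indicator_eq_eLpNorm_restrict hs]
    have h3 := eLpNorm_le_eLpNorm_mul_rpow_measure_univ (μ := μ.restrict s) (p := 1) (q := 2)
      (by norm_num) (f := f n) ((hfm n).restrict)
    refine h3.trans ?_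
    have h4 : eLpNorm (f n) 2 (μ.restrict s) ≤ ENNReal.ofReal b := by
      rw [hb, ENNReal.ofReal_toReal hBt]
      exact (eLpNorm_mono_measure _ Measure.restrict_le_self).trans (hL2 n)
    have h5 : (μ.restrict s) univ ^ (1 / (1 : ℝ≥0∞).toReal - 1 / (2 : ℝ≥0∞).toReal) ≤
        ENNReal.ofReal (ε / (b + 1)) := by
      rw [Measure.restrict_apply_univ]
      have e1 : (1 / (1 : ℝ≥0∞).toReal - 1 / (2 : ℝ≥0∞).toReal) = 1 / 2 := by norm_num
      rw [e1]
      refine (ENNReal.rpow_le_rpow hμs (by norm_num)).trans (le_of_eq ?_)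
      rw [ENNReal.ofReal_rpow_of_nonneg (by positivity) (by norm_num), ← Real.sqrt_eq_rpow,
        Real.sqrt_sq (by positivity)]
    refine (mul_le_mul' h4 h5).trans ?_
    rw [← ENNReal.ofReal_mul hb0]
    refine ENNReal.ofReal_le_ofReal ?_
    rw [mul_div_assoc', div_le_iff₀ (by positivity)]
    nlinarith
  refine ⟨hgM.integrable (by norm_num), ?_⟩
  have h3 := tendsto_Lp_finite_of_tendsto_ae (μ := μ) (p := 1) le_rfl (by norm_num) hfm
    (memLp_one_iff_integrable.2 (hgM.integrable (by norm_num))) hui hae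
  refine h3.congr fun n => ?_
  rw [eLpNorm_one_eq_lintegral_enorm]
  rfl

end pure

variable {X : Type} [TopologicalSpace X] [ChartedSpace (Cm d) X]
  [IsManifold 𝓘(ℂ, Cm d) ω X] [T2Space X] [CompactSpace X]
  {ι : Type} {L : LineBundle d X ι} {ρ : ι → X → ℝ} {w : Fm d X} {v : ℕ → X → ℝ} {φ : X → ℝ}

lemma norm_entry_le {M : Matrix (Fin d) (Fin d) ℂ} {C : ℝ} (h : ∑ i, ∑ j, ‖M i j‖ ≤ C)
    (j : Fin d) : |(M j j).re| ≤ C := by
  refine (Complex.abs_re_le_norm _).trans (le_trans ?_ h)
  refine le_trans ?_ (Finset.single_le_sum (f := fun i => ∑ k, ‖M i k‖)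
    (fun i _ => Finset.sum_nonneg fun k _ => norm_nonneg _) (Finset.mem_univ j))
  exact Finset.single_le_sum (f := fun k => ‖M j k‖) (fun k _ => norm_nonneg _)
    (Finset.mem_univ j)

/-- a lower bound for the Levi forms in a chart -/
theorem exists_low (hw : IsKahler w) (hρ : IsMetric L ρ) (hv : ∀ N, Smooth (d := d) (v N)) {a : ℝ}
    (hcurv : ∀ N i (e : Chart d X) x, At e x → x ∈ L.U i →
      (cHess (fun z => ρ i (e.symm z) + v N (e.symm z)) (e x) + (a : ℂ) • w e (e x)).PosSemidef)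
    {e : Chart d X} (he : e ∈ atlas (Cm d) X) {K : Set (Cm d)} (hK : IsCompact K)
    (hKe : K ⊆ e.target) :
    ∃ A : ℝ, ∀ N, ∀ z ∈ K, ∀ j, -A ≤ (cHess (fun y => v N (e.symm y)) z j j).re := by
  obtain ⟨C₁, hC₁, h1⟩ := bound_form (rform_curvature hρ) he hK hKe
  obtain ⟨C₂, hC₂, h2⟩ := bound_form (b := w) ⟨INT.IsKahler.isClosedForm hw,
    fun e x hx => (hw.posDef e x hx).isHermitian⟩ he hK hKe
  refine ⟨C₁ + |a| * C₂, fun N z hz j => ?_⟩
  have hx : At e (e.symm z) := At.of_target he (hKe hz)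
  have ez : e (e.symm z) = z := e.right_inv (hKe hz)
  obtain ⟨i, hi⟩ := L.cover (e.symm z)
  have h3 := (hcurv N i e _ hx hi).diag_nonneg (i := j)
  have s1 := (hρ.smooth i e _ hx hi).of_le (m := 2) (by norm_cast)
  have s2 := (hv N e _ hx).of_le (m := 2) (by norm_cast)
  have e3 : cHess (fun z => ρ i (e.symm z) + v N (e.symm z)) (e (e.symm z)) =
      curvature L ρ e (e (e.symm z)) + cHess (fun z => v N (e.symm z)) (e (e.symm z)) := by
    rw [curvature_eq hρ hx hi]
    exact C2.cHess_add s1 s2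
  rw [e3, ez] at h3
  have h4 := (Complex.le_def.1 h3).1
  simp only [Matrix.add_apply, Matrix.smul_apply, Complex.add_re, smul_eq_mul,
    Complex.re_ofReal_mul, Complex.zero_re] at h4
  have h5 := norm_entry_le (h1 z hz) j
  have h6 := norm_entry_le (h2 z hz) j
  have h7 := abs_le.1 h5
  have h8 : a * (w e z j j).re ≤ |a| * C₂ := by
    refine (le_abs_self _).trans ?_
    rw [abs_mul]
    exact mul_le_mul_of_nonneg_left h6 (abs_nonneg a)
  have h9 : (cHess (fun y => v N (e.symm y)) z j j).re =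
      (cHess (fun z => v N (e.symm z)) z j j).re := rfl
  linarith [h7.2]

/-- a finite cover of `X` by balls in charts -/
theorem exists_cover (X : Type) [TopologicalSpace X] [ChartedSpace (Cm d) X] [CompactSpace X] :
    ∃ (t : Finset X) (r : X → ℝ), (∀ x, 0 < r x) ∧
      (∀ x, Metric.closedBall (chartAt (Cm d) x x) (2 * r x) ⊆ (chartAt (Cm d) x).target) ∧
      ∀ y, ∃ x ∈ t, y ∈ (chartAt (Cm d) x).source ∧
        chartAt (Cm d) x y ∈ Metric.closedBall (chartAt (Cm d) x x) (r x) := by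
  have h : ∀ x : X, ∃ r : ℝ, 0 < r ∧
      Metric.closedBall (chartAt (Cm d) x x) (2 * r) ⊆ (chartAt (Cm d) x).target := by
    intro x
    obtain ⟨R, hR, hR'⟩ := Metric.nhds_basis_closedBall.mem_iff.1
      ((chartAt (Cm d) x).open_target.mem_nhds (mem_chart_target (Cm d) x))
    exact ⟨R / 2, by positivity, by rwa [mul_div_cancel₀ _ (two_ne_zero)]⟩
  choose r hr hr' using h
  obtain ⟨t, ht⟩ := CompactSpace.elim_nhds_subcover (fun x : X => (chartAt (Cm d) x).source ∩
    (chartAt (Cm d) x) ⁻¹' Metric.closedBall (chartAt (Cm d) x x) (r x)) fun x => by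
      refine Filter.inter_mem ((chartAt (Cm d) x).open_source.mem_nhds (mem_chart_source _ x)) ?_
      exact ((chartAt (Cm d) x).continuousAt (mem_chart_source _ x)).preimage_mem_nhds
        (Metric.closedBall_mem_nhds _ (hr x))
  refine ⟨t, r, hr, hr', fun y => ?_⟩
  have h1 : y ∈ (⊤ : Set X) := trivial
  rw [← ht] at h1
  simp only [mem_iUnion] at h1
  obtain ⟨x, hx, hy⟩ := h1
  exact ⟨x, hx, hy.1, hy.2⟩

lemma contOn_chart (hv : ∀ N, Smooth (d := d) (v N)) (N : ℕ) {e : Chart d X}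
    (he : e ∈ atlas (Cm d) X) {K : Set (Cm d)} (hKe : K ⊆ e.target) :
    ContinuousOn (fun z => v N (e.symm z)) K := by
  intro z hz
  have h1 : At e (e.symm z) := At.of_target he (hKe hz)
  have h2 := (hv N e _ h1).continuousAt
  rw [e.right_inv (hKe hz)] at h2
  exact h2.continuousWithinAt

/-- **Compactness.** A sequence of smooth weights with curvature bounded from below, bounded from
above and with `exp (-P v)` locally uniformly integrable has a subsequence converging almost
everywhere in all charts. -/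
theorem exists_ae_subseq (hw : IsKahler w) (hρ : IsMetric L ρ)
    (hv : ∀ N, Smooth (d := d) (v N)) {C₁ : ℝ} (hC : ∀ N x, v N x ≤ C₁) {a : ℝ}
    (hcurv : ∀ N i (e : Chart d X) x, At e x → x ∈ L.U i →
      (cHess (fun z => ρ i (e.symm z) + v N (e.symm z)) (e x) + (a : ℂ) • w e (e x)).PosSemidef)
    {P : ℝ} (hP : 0 < P)
    (hexp : ∀ e ∈ atlas (Cm d) X, ∀ K : Set (Cm d), IsCompact K → K ⊆ e.target →
      ∃ B : ℝ≥0∞, B ≠ ⊤ ∧ ∀ N,
        ∫⁻ z in K, ENNReal.ofReal (Real.exp (-(P * v N (e.symm z)))) ≤ B) :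
    ∃ ψ : ℕ → ℕ, StrictMono ψ ∧ ∃ φ : X → ℝ, ∀ e ∈ atlas (Cm d) X, ∀ᵐ z,
      z ∈ e.target → Tendsto (fun n => v (ψ n) (e.symm z)) atTop (𝓝 (φ (e.symm z))) := by
  classical
  obtain ⟨t, r, hr, hrt, hcov⟩ := exists_cover (d := d) X
  set c : X → Cm d := fun x => chartAt (Cm d) x x with hc
  have he : ∀ x : X, chartAt (Cm d) x ∈ atlas (Cm d) X := fun x => chart_mem_atlas _ x
  set b : ∀ x : X, ContDiffBump (c x) := fun x => ⟨r x, 2 * r x, hr x, by
    have := hr x; linarith⟩ with hb
  have hbs : ∀ x, tsupport (b x) = Metric.closedBall (c x) (2 * r x) := fun x => (b x).tsupport_eq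
  have hbc : ∀ x, ContDiff ℝ ∞ (b x) := fun x => (b x).contDiff
  have hbk : ∀ x, HasCompactSupport (b x) := fun x => (b x).hasCompactSupport
  have hlow := fun x => exists_low hw hρ hv hcurv (he x) (isCompact_closedBall (c x) (2 * r x))
    (hrt x)
  choose A hA using hlow
  have hRF := fun x => exists_RF (Ω := (chartAt (Cm d) x).target) (hbc x) (hbk x)
    (by rw [hbs]; exact hrt x) (fun z => (b x).nonneg) C₁ (A x)
  choose C hCt hCF using hRF
  have hsm : ∀ (x : X) N, ∀ z ∈ (chartAt (Cm d) x).target,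
      ContDiffAt ℝ ∞ (fun y => v N ((chartAt (Cm d) x).symm y)) z := by
    intro x N z hz
    have h1 := hv N _ _ (At.of_target (he x) hz)
    rwa [(chartAt (Cm d) x).right_inv hz] at h1
  obtain ⟨ψ, hψ, hψl⟩ := exists_subseq (κ := t) (K := fun x => tsupport (b x))
    (fun x => hbk x) (C := fun x => C x) (fun x => hCt x)
    (F := fun x N z => b x z * Real.exp (v N ((chartAt (Cm d) (x : X)).symm z)))
    (fun x N => hCF x _ (hsm x N) (fun z _ => hC N _) (fun z hz j => hA x N z (by
      rw [← hbs]; exact hz) j))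
  -- convergence at almost every point of the balls
  set G : Set X := {x | ∃ l, Tendsto (fun n => v (ψ n) x) atTop (𝓝 l)} with hG
  set S : X → Set (Cm d) := fun x => {z | z ∈ Metric.closedBall (c x) (r x) ∧
    (chartAt (Cm d) x).symm z ∉ G} with hS
  have hrr : ∀ x, Metric.closedBall (c x) (r x) ⊆ (chartAt (Cm d) x).target := fun x =>
    (Metric.closedBall_subset_closedBall (by have := hr x; linarith)).trans (hrt x)
  have hS0 : ∀ x ∈ t, volume (S x) = 0 := by
    intro x hx
    obtain ⟨B, hB, hBn⟩ := hexp _ (he x) _ (isCompact_closedBall (c x) (r x)) (hrr x)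
    have h1 := ae_tendsto_of_exp (isCompact_closedBall (c x) (r x))
      (v := fun n z => v (ψ n) ((chartAt (Cm d) x).symm z))
      (fun n => contOn_chart hv (ψ n) (he x) (hrr x)) hP hB (fun n => hBn (ψ n)) (by
        filter_upwards [ae_restrict_of_ae (hψl ⟨x, hx⟩),
          ae_restrict_mem (isCompact_closedBall (c x) (r x)).measurableSet] with z hz hzK
        obtain ⟨l, hl⟩ := hz
        refine ⟨l, hl.congr fun n => ?_⟩
        have h2 : b x z = 1 := (b x).one_of_mem_closedBall hzK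
        show b x z * _ = _
        rw [h2, one_mul])
    rw [ae_restrict_iff' (isCompact_closedBall (c x) (r x)).measurableSet] at h1
    refine measure_mono_null (fun z hz => ?_) (ae_iff.1 h1)
    rw [mem_setOf_eq, Classical.not_imp]
    exact ⟨hz.1, hz.2⟩
  refine ⟨ψ, hψ, fun x => if h : x ∈ G then h.choose else 0, fun e hea => ?_⟩
  have hnull : volume {z | z ∈ e.target ∧ e.symm z ∉ G} = 0 := by
    have hsub : {z | z ∈ e.target ∧ e.symm z ∉ G} ⊆ ⋃ x ∈ t,
        (fun z => e ((chartAt (Cm d) x).symm z)) ''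
          (S x ∩ {z | (chartAt (Cm d) x).symm z ∈ e.source}) := by
      intro z hz
      obtain ⟨x, hx, hy1, hy2⟩ := hcov (e.symm z)
      have e1 : (chartAt (Cm d) x).symm (chartAt (Cm d) x (e.symm z)) = e.symm z :=
        (chartAt (Cm d) x).left_inv hy1
      refine mem_biUnion hx ⟨chartAt (Cm d) x (e.symm z), ⟨⟨hy2, ?_⟩, ?_⟩, ?_⟩
      · rw [e1]; exact hz.2
      · show (chartAt (Cm d) x).symm (chartAt (Cm d) x (e.symm z)) ∈ e.source
        rw [e1]; exact e.map_target hz.1
      · show e ((chartAt (Cm d) x).symm (chartAt (Cm d) x (e.symm z))) = z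
        rw [e1]; exact e.right_inv hz.1
    refine measure_mono_null hsub ?_
    refine (measure_biUnion_null_iff t.countable_toSet).2 fun x hx => ?_
    refine null_image (fun z hz => ?_) (measure_mono_null inter_subset_left (hS0 x hx))
    have hz1 : z ∈ (chartAt (Cm d) x).target := hrr x hz.1.1
    have hAt1 := At.of_target (he x) hz1
    have hAt2 : At e ((chartAt (Cm d) x).symm z) := ⟨hea, hz.2⟩
    have h3 := (INT.transition_contDiffAt hAt1 hAt2).differentiableAt (by simp)
    rw [(chartAt (Cm d) x).right_inv hz1] at h3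
    exact h3.restrictScalars ℝ
  have h4 : ∀ᵐ z, ¬ (z ∈ e.target ∧ e.symm z ∉ G) := by
    rw [ae_iff]
    simpa using hnull
  filter_upwards [h4] with z hz hze
  have hzG : e.symm z ∈ G := by
    by_contra h
    exact hz ⟨hze, h⟩
  simp only [dif_pos hzG]
  exact hzG.choose_spec

/-- **One limit weight for all powers.** -/
theorem exists_wlim (hw : IsKahler w) (hρ : IsMetric L ρ)
    (hv : ∀ N, Smooth (d := d) (v N)) {C₁ : ℝ} (hC : ∀ N x, v N x ≤ C₁) {a : ℝ}
    (hcurv : ∀ N i (e : Chart d X) x, At e x → x ∈ L.U i →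
      (cHess (fun z => ρ i (e.symm z) + v N (e.symm z)) (e x) + (a : ℂ) • w e (e x)).PosSemidef)
    {P : ℝ} (hP : 0 < P)
    (hexp : ∀ e ∈ atlas (Cm d) X, ∀ K : Set (Cm d), IsCompact K → K ⊆ e.target →
      ∃ B : ℝ≥0∞, B ≠ ⊤ ∧ ∀ N,
        ∫⁻ z in K, ENNReal.ofReal (Real.exp (-(P * v N (e.symm z)))) ≤ B) :
    ∃ ψ : ℕ → ℕ, StrictMono ψ ∧ ∃ φ : X → ℝ, ∀ m : ℝ, 0 ≤ m → 2 * m ≤ P →
      WLim d atTop (fun N x => m * v (ψ N) x) (fun x => m * φ x) := by
  obtain ⟨ψ, hψ, φ, hφ⟩ := exists_ae_subseq hw hρ hv hC hcurv hP hexp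
  refine ⟨ψ, hψ, φ, fun m hm hmP => ?_⟩
  have key : ∀ e ∈ atlas (Cm d) X, ∀ K : Set (Cm d), IsCompact K → K ⊆ e.target →
      IntegrableOn (fun z => Real.exp (-(m * φ (e.symm z)))) K ∧
      Tendsto (fun N => ∫⁻ z in K, ‖Real.exp (-(m * v (ψ N) (e.symm z))) -
        Real.exp (-(m * φ (e.symm z)))‖ₑ) atTop (𝓝 0) := by
    intro e he K hK hKe
    obtain ⟨B, hB, hBn⟩ := hexp e he K hK hKe
    refine vitali hK (f := fun N z => Real.exp (-(m * v (ψ N) (e.symm z))))
      (B := volume K + B) (fun N => ?_) (fun N z _ => (Real.exp_pos _).le) ?_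
      (ENNReal.add_ne_top.2 ⟨hK.measure_ne_top, hB⟩) fun N => ?_
    · exact Real.continuous_exp.comp_continuousOn
        ((continuousOn_const.mul (contOn_chart hv (ψ N) he hKe)).neg)
    · filter_upwards [ae_restrict_of_ae (hφ e he), ae_restrict_mem hK.measurableSet] with z h1 h2
      exact (Real.continuous_exp.tendsto _).comp ((h1 (hKe h2)).const_mul m).neg
    · calc ∫⁻ z in K, ENNReal.ofReal (Real.exp (-(m * v (ψ N) (e.symm z))) ^ 2)
          ≤ ∫⁻ z in K, (1 + ENNReal.ofReal (Real.exp (-(P * v (ψ N) (e.symm z))))) := by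
            refine lintegral_mono fun z => ?_
            rw [← ENNReal.ofReal_one, ← ENNReal.ofReal_add zero_le_one (Real.exp_pos _).le]
            refine ENNReal.ofReal_le_ofReal ?_
            rw [← Real.exp_nat_mul]
            have h1 := H794.exp_le_one_add (t := 2 * m) (P := P) (y := v (ψ N) (e.symm z))
              (by positivity) hmP
            refine le_trans (le_of_eq ?_) h1
            congr 1
            push_cast
            ring
        _ = volume K + ∫⁻ z in K, ENNReal.ofReal (Real.exp (-(P * v (ψ N) (e.symm z)))) := by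
            rw [lintegral_add_left measurable_const]
            simp
        _ ≤ _ := by gcongr; exact hBn _
  exact ⟨fun e he K hK hKe => (key e he K hK hKe).1, fun e he K hK hKe => (key e he K hK hKe).2⟩

theorem wlim_mono {l l' : Filter ℕ} (hl : l ≤ l') (h : WLim d l' v φ) : WLim d l v φ :=
  ⟨h.int, fun e he K hK hKe => (h.lim e he K hK hKe).mono_left hl⟩

end Vale.Agent.P301.H724
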