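import Vale.Agent.P301.H724.Kappa

/-! # The quotient of two proportional sections, and the main theorem -/

open scoped Manifold ContDiff ComplexOrder Topology
open Filter Metric Set

noncomputable section

namespace Vale.Agent.P301.H724

open Vale.Agent.P272.K Vale.Agent.P301.H599

variable {d : ℕ} {X : Type} [TopologicalSpace X] [ChartedSpace (Cm d) X] {ι : Type}

section quot

variable {B : Type} [Fintype B] {L : LineBundle d X ι}
  {Λ : Chart d X → Chart d X → X → Matrix B B ℂ} {M₁ M₂ : ℕ}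
  {W₁ W₂ : ι → Chart d X → Cm d → B → ℂ}

/-- The scalar `ρ` with `W₂ i = ρ • W₁ i` at `y` (if it exists). -/
def ratio (W₁ W₂ : ι → Chart d X → Cm d → B → ℂ) (i : ι) (y : X) : ℂ :=
  open Classical in
  if h : ∃ c, W₁ i (chartAt (Cm d) y) (chartAt (Cm d) y y) c ≠ 0 then
    W₂ i (chartAt (Cm d) y) (chartAt (Cm d) y y) h.choose /
      W₁ i (chartAt (Cm d) y) (chartAt (Cm d) y y) h.choose
  else 0

theorem ratio_spec (h₁ : IsSec L Λ M₁ W₁) (h₂ : IsSec L Λ M₂ W₂) (h21 : Prop2 L W₂ W₁) {i : ι}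
    {e : Chart d X} {y : X} (he : At e y) (hi : y ∈ L.U i) (hy : Nz L W₁ y) (c : B) :
    W₂ i e (e y) c = ratio W₁ W₂ i y * W₁ i e (e y) c := by
  classical
  set e₀ := chartAt (Cm d) y with he₀
  have hat : At e₀ y := at_chartAt y
  have hex : ∃ c, W₁ i e₀ (e₀ y) c ≠ 0 := Function.ne_iff.1 (hy i e₀ hat hi)
  have hr : ratio W₁ W₂ i y = W₂ i e₀ (e₀ y) hex.choose / W₁ i e₀ (e₀ y) hex.choose := by
    unfold ratio
    rw [dif_pos hex]
  have h0 : ∀ c', W₂ i e₀ (e₀ y) c' = ratio W₁ W₂ i y * W₁ i e₀ (e₀ y) c' := by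
    intro c'
    have h1 := h21 i e₀ y hat hi c' hex.choose
    have h2 := hex.choose_spec
    rw [hr]
    field_simp
    linear_combination h1
  have h0' : W₂ i e₀ (e₀ y) = ratio W₁ W₂ i y • W₁ i e₀ (e₀ y) := funext h0
  rw [h₂.chV i e e₀ y he hat hi, h₁.chV i e e₀ y he hat hi, h0', Matrix.mulVec_smul]
  rfl

/-- The quotient `W₂ / W₁`, extended by continuity. -/
def quotS (L : LineBundle d X ι) (W₁ W₂ : ι → Chart d X → Cm d → B → ℂ) (i : ι) (x : X) : ℂ :=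
  limUnder (𝓝[{y | Nz L W₁ y}] x) (ratio W₁ W₂ i)

variable [PreconnectedSpace X]

theorem quotS_eq (h₁ : IsSec L Λ M₁ W₁) (h₂ : IsSec L Λ M₂ W₂) (n₁ : ∃ x, Nz L W₁ x)
    (h21 : Prop2 L W₂ W₁) {i : ι} {e : Chart d X} {x : X} (he : At e x) (hi : x ∈ L.U i)
    {T : Cm d → ℂ} (hT : ContinuousAt T (e x))
    (hTe : ∀ c, ∀ᶠ z in 𝓝 (e x), W₂ i e z c = T z * W₁ i e z c) :
    quotS L W₁ W₂ i x = T (e x) := by
  have : (𝓝[{y | Nz L W₁ y}] x).NeBot := mem_closure_iff_nhdsWithin_neBot.1 (h₁.dense n₁ x)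
  apply Tendsto.limUnder_eq
  have h1 : Tendsto (fun y => T (e y)) (𝓝[{y | Nz L W₁ y}] x) (𝓝 (T (e x))) :=
    (ContinuousAt.comp (g := T) hT (e.continuousAt he.2)).tendsto.mono_left nhdsWithin_le_nhds
  refine h1.congr' ?_
  have h2 : ∀ᶠ y in 𝓝 x, ∀ c, W₂ i e (e y) c = T (e y) * W₁ i e (e y) c := by
    refine eventually_all.2 fun c => ?_
    exact (e.continuousAt he.2).tendsto.eventually (hTe c)
  filter_upwards [nhdsWithin_le_nhds h2, nhdsWithin_le_nhds (at_eventually he),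
    nhdsWithin_le_nhds ((L.isOpen i).mem_nhds hi), self_mem_nhdsWithin] with y hy hey hiy hK
  obtain ⟨c, hc⟩ := Function.ne_iff.1 (hK i e hey hiy)
  have hc' : W₁ i e (e y) c ≠ 0 := hc
  have h3 := ratio_spec h₁ h₂ h21 hey hiy hK c
  rw [hy c] at h3
  exact mul_right_cancel₀ hc' h3

/-- If locally `W₂ = T W₁` with `T` holomorphic, then `L^(M₂ - M₁)` has a nonzero section. -/
theorem hasSec_of_quot (h₁ : IsSec L Λ M₁ W₁) (h₂ : IsSec L Λ M₂ W₂) (n₁ : ∃ x, Nz L W₁ x)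
    (n₂ : ∃ x, Nz L W₂ x) (h21 : Prop2 L W₂ W₁) (hM : M₁ ≤ M₂)
    (hT : ∀ i e x, At e x → x ∈ L.U i → ∃ T : Cm d → ℂ, AnalyticAt ℂ T (e x) ∧
      ∀ c, ∀ᶠ z in 𝓝 (e x), W₂ i e z c = T z * W₁ i e z c) :
    HasSec L (M₂ - M₁) := by
  refine ⟨quotS L W₁ W₂, ?_, ?_, ?_⟩
  · intro i e x he hi
    obtain ⟨T, hTa, hTe⟩ := hT i e x he hi
    refine hTa.congr ?_
    have h1 : ∀ᶠ z in 𝓝 (e x), AnalyticAt ℂ T z := hTa.eventually_analyticAt
    have h2 : ∀ᶠ z in 𝓝 (e x), ∀ c, ∀ᶠ w in 𝓝 z, W₂ i e w c = T w * W₁ i e w c :=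
      eventually_all.2 fun c => (hTe c).eventually_nhds
    have h3 : ∀ᶠ z in 𝓝 (e x), z ∈ e.target ∩ e.symm ⁻¹' L.U i := by
      refine (isOpen_dom L e i).mem_nhds ⟨e.map_source he.2, ?_⟩
      show e.symm (e x) ∈ L.U i
      rwa [e.left_inv he.2]
    filter_upwards [h1, h2, h3] with z hz1 hz2 hz3
    have hez : At e (e.symm z) := ⟨he.1, e.map_target hz3.1⟩
    have hzz : e (e.symm z) = z := e.right_inv hz3.1
    have h4 := quotS_eq h₁ h₂ n₁ h21 hez hz3.2 (T := T) (by rw [hzz]; exact hz1.continuousAt)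
      (by rw [hzz]; exact hz2)
    rw [h4, hzz]
  · intro i j x hi hj
    have he := at_chartAt (d := d) x
    set e := chartAt (Cm d) x
    obtain ⟨T, hTa, hTe⟩ := hT j e x he hj
    have hq := quotS_eq h₁ h₂ n₁ h21 he hj hTa.continuousAt hTe
    have hg : AnalyticAt ℂ (fun z => L.g i j (e.symm z)) (e x) := L.holo i j e x he hi hj
    have hT' : ContinuousAt (fun z => L.g i j (e.symm z) ^ (M₂ - M₁) * T z) (e x) :=
      ((hg.pow _).mul hTa).continuousAt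
    have hd : ∀ᶠ z in 𝓝 (e x), z ∈ (e.target ∩ e.symm ⁻¹' L.U i) ∩ (e.target ∩ e.symm ⁻¹' L.U j) := by
      refine ((isOpen_dom L e i).inter (isOpen_dom L e j)).mem_nhds
        ⟨⟨e.map_source he.2, ?_⟩, ⟨e.map_source he.2, ?_⟩⟩
      · show e.symm (e x) ∈ L.U i
        rwa [e.left_inv he.2]
      · show e.symm (e x) ∈ L.U j
        rwa [e.left_inv he.2]
    have hTe' : ∀ c, ∀ᶠ z in 𝓝 (e x), W₂ i e z c =
        (L.g i j (e.symm z) ^ (M₂ - M₁) * T z) * W₁ i e z c := by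
      intro c
      filter_upwards [hd, hTe c] with z hz hzT
      have hez : At e (e.symm z) := ⟨he.1, e.map_target hz.1.1⟩
      have hzz : e (e.symm z) = z := e.right_inv hz.1.1
      have k2 := congrFun (h₂.chL i j e (e.symm z) hez hz.1.2 hz.2.2) c
      have k1 := congrFun (h₁.chL i j e (e.symm z) hez hz.1.2 hz.2.2) c
      rw [hzz] at k1 k2
      simp only [Pi.smul_apply, smul_eq_mul] at k1 k2
      rw [k2, k1, hzT]
      have hp : L.g i j (e.symm z) ^ M₂ =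
          L.g i j (e.symm z) ^ (M₂ - M₁) * L.g i j (e.symm z) ^ M₁ := by
        rw [← pow_add, Nat.sub_add_cancel hM]
      rw [hp]
      ring
    have hq' := quotS_eq h₁ h₂ n₁ h21 he hi hT' hTe'
    rw [hq', hq, e.left_inv he.2]
  · obtain ⟨x, hx⟩ := n₂
    obtain ⟨i, hi⟩ := L.cover x
    have he := at_chartAt (d := d) x
    set e := chartAt (Cm d) x
    obtain ⟨T, hTa, hTe⟩ := hT i e x he hi
    obtain ⟨c, hc⟩ := Function.ne_iff.1 (hx i e he hi)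
    refine ⟨i, x, hi, ?_⟩
    rw [quotS_eq h₁ h₂ n₁ h21 he hi hTa.continuousAt hTe]
    intro h0
    apply hc
    have h1 := (hTe c).self_of_nhds
    rw [h1, h0, zero_mul]
    rfl

/-- Existence of the local quotients. -/
theorem exists_local (h₁ : IsSec L Λ M₁ W₁) (h₂ : IsSec L Λ M₂ W₂) (n₁ : ∃ x, Nz L W₁ x)
    (h21 : Prop2 L W₂ W₁) (b : ℕ)
    (hC : ∃ᶠ a : ℕ in atTop, ∃ (M₃ : ℕ) (W₃ : ι → Chart d X → Cm d → B → ℂ) (C : ℂ),
      IsSec L Λ M₃ W₃ ∧ C ≠ 0 ∧ ∀ i e x, At e x → x ∈ L.U i → ∀ c,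
        W₁ i e (e x) c ^ a * W₃ i e (e x) c ^ b = C * W₂ i e (e x) c ^ (a + b))
    {i : ι} {e : Chart d X} {x : X} (he : At e x) (hi : x ∈ L.U i) :
    ∃ T : Cm d → ℂ, AnalyticAt ℂ T (e x) ∧
      ∀ c, ∀ᶠ z in 𝓝 (e x), W₂ i e z c = T z * W₁ i e z c := by
  obtain ⟨R, hR, hball⟩ := exists_ball L he hi
  obtain ⟨c₀, hc₀, -⟩ := exists_comp h₁ n₁ he hi
  have hp : AnalyticOnNhd ℂ (fun z => W₁ i e z c₀) (ball (e x) R) :=
    (h₁.analyticOnNhd he.1 i c₀).mono hball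
  have hq : AnalyticOnNhd ℂ (fun z => W₂ i e z c₀) (ball (e x) R) :=
    (h₂.analyticOnNhd he.1 i c₀).mono hball
  have hp0 : ∃ z ∈ ball (e x) R, W₁ i e z c₀ ≠ 0 := by
    obtain ⟨z, hz, hzb⟩ := (hc₀.and_eventually (isOpen_ball.mem_nhds (mem_ball_self hR))).exists
    exact ⟨z, hzb, hz⟩
  obtain ⟨T, hTa, hTe⟩ := exists_quot hR hp hq hp0 b (by
    refine hC.mono ?_
    rintro a ⟨M₃, W₃, C, h₃, hC0, hCe⟩
    refine ⟨fun z => C⁻¹ * W₃ i e z c₀ ^ b, ?_, ?_⟩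
    · intro z hz
      exact analyticAt_const.mul ((h₃.analyticOnNhd he.1 i c₀ z (hball hz)).pow b)
    · intro z hz
      have hz' := hball hz
      have hez : At e (e.symm z) := ⟨he.1, e.map_target hz'.1⟩
      have h1 := hCe i e (e.symm z) hez hz'.2 c₀
      rw [e.right_inv hz'.1] at h1
      show W₂ i e z c₀ ^ (a + b) = C⁻¹ * W₃ i e z c₀ ^ b * W₁ i e z c₀ ^ a
      rw [mul_assoc, mul_comm (W₃ i e z c₀ ^ b), h1, ← mul_assoc, inv_mul_cancel₀ hC0, one_mul])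
  refine ⟨T, hTa, fun c => ?_⟩
  have h1 : ∀ᶠ z in 𝓝 (e x), AnalyticAt ℂ T z := hTa.eventually_analyticAt
  have h2 : ∀ᶠ z in 𝓝 (e x), ∀ᶠ w in 𝓝 z, W₂ i e w c₀ = T w * W₁ i e w c₀ := hTe.eventually_nhds
  filter_upwards [h1, h2, isOpen_ball.mem_nhds (mem_ball_self hR)] with z hz1 hz2 hz3
  have hz' := hball hz3
  have hct : ∀ (W : ι → Chart d X → Cm d → B → ℂ) {m : ℕ} (_ : IsSec L Λ m W),
      ContinuousAt (fun z => W i e z c) z := fun W m hW =>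
    (hW.analyticOnNhd he.1 i c z hz').continuousAt
  have hf := freq_ne hp hp0 hz3
  have hcont : ContinuousAt (fun w => W₂ i e w c - T w * W₁ i e w c) z :=
    (hct W₂ h₂).sub (hz1.continuousAt.mul (hct W₁ h₁))
  have hzero : ∃ᶠ w in 𝓝 z, W₂ i e w c - T w * W₁ i e w c = 0 := by
    refine (hf.and_eventually (hz2.and (isOpen_ball.mem_nhds hz3))).mono ?_
    rintro w ⟨hw1, hw2, hw3⟩
    have hw' := hball hw3
    have hew : At e (e.symm w) := ⟨he.1, e.map_target hw'.1⟩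
    have h3 := h21 i e (e.symm w) hew hw'.2 c c₀
    rw [e.right_inv hw'.1, hw2] at h3
    have h4 : (W₂ i e w c - T w * W₁ i e w c) * W₁ i e w c₀ = 0 := by
      linear_combination h3
    exact (mul_eq_zero.1 h4).resolve_right hw1
  have := eq_zero_of_freq hcont hzero
  linear_combination this

end quot

/-- **Main theorem of this folder.** Let `X` be a connected complex manifold on which every
meromorphic function is constant, `V` a holomorphic vector bundle and `L` a holomorphic line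
bundle. If `V ⊗ L^m` has a nonzero holomorphic section for arbitrarily large `m`, then some power
`L^k`, `k ≥ 1`, has a nonzero holomorphic section. -/
theorem exists_hasSec [ConnectedSpace X] [IsManifold 𝓘(ℂ, Cm d) ω X] {A : Type} [Fintype A]
    {L : LineBundle d X ι} {Λ : Chart d X → Chart d X → X → Matrix A A ℂ} (hno : NoMero d X)
    (h : ∀ N : ℕ, ∃ (m : ℕ) (s : ι → Chart d X → Cm d → A → ℂ), N ≤ m ∧ IsSec L Λ m s ∧
      ∃ x, Nz L s x) :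
    ∃ k : ℕ, 1 ≤ k ∧ HasSec L k := by
  obtain ⟨r, m₀, u₀, hu₀, hne₀, hmax⟩ := exists_maxRank (L := L) (Λ := Λ)
  have hlarge : ∀ N : ℕ, ∃ (m' : Fin r → ℕ) (u' : Fin r → ι → Chart d X → Cm d → A → ℂ),
      (∀ b, IsSec L Λ (m' b) (u' b)) ∧ (∃ x, Nz L (wedge u') x) ∧ N ≤ ∑ b, m' b := by
    intro N
    obtain ⟨k, v, hk, hv, hvne⟩ := h N
    obtain ⟨m', u', h1, h2, h3⟩ := hmax.exists_large hu₀ hne₀ hv hvne
    exact ⟨m', u', h1, h2, hk.trans h3⟩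
  obtain ⟨m₁, u₁, hu₁, n₁, -⟩ := hlarge 0
  obtain ⟨m₂, u₂, hu₂, n₂, hlt⟩ := hlarge (∑ b, m₁ b + 1)
  set M₁ := ∑ b, m₁ b with hM₁
  set M₂ := ∑ b, m₂ b with hM₂
  have s₁ := isSec_wedge hu₁
  have s₂ := isSec_wedge hu₂
  have hpr : ∀ {m m' : Fin r → ℕ} {u w : Fin r → ι → Chart d X → Cm d → A → ℂ},
      (∀ b, IsSec L Λ (m b) (u b)) → (∀ b, IsSec L Λ (m' b) (w b)) →
      Prop2 L (wedge u) (wedge w) := fun hu hw i e x he hi c c' => hmax.prop hu hw he hi c c'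
  refine ⟨M₂ - M₁, by omega, hasSec_of_quot s₁ s₂ n₁ n₂ (hpr hu₂ hu₁) (by omega) ?_⟩
  intro i e x he hi
  refine exists_local s₁ s₂ n₁ (hpr hu₂ hu₁) (M₂ - M₁) ?_ he hi
  rw [Filter.frequently_atTop]
  intro N
  obtain ⟨m₃, u₃, hu₃, n₃, h3⟩ := hlarge (M₂ + N + 1)
  set M₃ := ∑ b, m₃ b with hM₃
  have s₃ := isSec_wedge hu₃
  refine ⟨M₃ - M₂, by omega, M₃, wedge u₃, ?_⟩
  have hM : M₁ * (M₃ - M₂) + M₃ * (M₂ - M₁) = M₂ * ((M₃ - M₂) + (M₂ - M₁)) := by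
    obtain ⟨p, hp⟩ : ∃ p, M₂ = M₁ + p := ⟨M₂ - M₁, by omega⟩
    obtain ⟨q, hq⟩ : ∃ q, M₃ = M₂ + q := ⟨M₃ - M₂, by omega⟩
    have e1 : M₃ - M₂ = q := by omega
    have e2 : M₂ - M₁ = p := by omega
    rw [e1, e2, hq, hp]
    ring
  obtain ⟨C, hC0, hC⟩ := exists_const hno s₁ s₂ s₃ n₁ n₂ n₃ (hpr hu₁ hu₂) (hpr hu₃ hu₂)
    (by omega) hM
  exact ⟨C, s₃, hC0, hC⟩

end Vale.Agent.P301.H724
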